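import Vale.Agent.P073.H190.TwoS
import Vale.Agent.P073.H142.PS3
import Vale.Agent.P073.H919.HookG

/-!
# P073, H190: the two-stage staircases of ROUND P

`PT2 L S₀ F μ T` is the twin of `PS3` for the two-stage maps; in the plates (`G.PB (7 / 8) s`) they
agree with the maps of `PS3` (`PT2.map_eq_map`, `PT2.hT`).
-/

open Set Metric Topology Filter MeasureTheory
open scoped ENNReal

set_option linter.unusedSectionVars false

namespace P073.H190

open P073 P073.Net P073.PA691 Vale.Agent.P073.H471 Vale.Agent.P073.H267 P073.H236 P073.H345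
  P073.H579 P073.H142 P073.H880
open P073.H919 (HB mem_HB HB_PB)
open Vale.Agent.P073.St (V)
open Vale.Agent.P073.H73 (Mesh)

variable {Ω Λ : Set V} {v : V} {K : BoxCx Λ v} {S : Rad K} {W : Wid K S} {B : Boxes W} {G : Geo B}

/-- **the two-stage staircases of ROUND P** at the squares of `S₀` -/
structure PT2 (L : PLev G) (S₀ : Set K.S) (F : Bool → BFam 3 S₀ Λ) (μ : Bool → S₀ → ℝ)
    (T : Bool → ConHomeo Λ Λ) : Prop where
  B : ∀ β s, BxR ((F β).B s) (L.bx β s.1)
  isS : ∀ β, IsS2 (F β) (μ β) (T β)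
  μ0 : ∀ β s, 0 ≤ μ β s
  μD : ∀ β s, 2 * μ β s ≤ (F β).D s

section

variable {L : PLev G} {S₀ : Set K.S} {F : Bool → BFam 3 S₀ Λ} {μ : Bool → S₀ → ℝ}
  {T T' : Bool → ConHomeo Λ Λ} {s : S₀} {β : Bool} {y y' : V}

theorem PT2.mem_K' (P : PT2 L S₀ F μ T) (hK : y ∈ ((F β).B s).K) : y ∈ (L.bx β s.1).K :=
  (P.B β s).sub_K hK

theorem PT2.mem_K (P : PT2 L S₀ F μ T) (hK : y ∈ ((F β).B s).K) : y ∈ PK G s.1 :=
  (PLev.mem_bxK.1 (P.mem_K' hK)).1

theorem PT2.plate (P : PT2 L S₀ F μ T) (s : S₀) (β : Bool) :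
    PlateB G (F β) s s.1 (tg s.1 β) where
  dir := (P.B β s).j
  ne := tg_ne s.1 β
  al := (P.B β s).al
  be := (P.B β s).be
  full := fun y hy => (P.B β s).full.2 (PLev.PB_full hy)
  disj := fun s' hs' => by
    rw [Set.disjoint_left]
    intro y hy hy'
    exact hs' (Subtype.ext (PK_unique (P.mem_K hy) (PB_sub_PK (by norm_num) s.1 hy')))

/-- **the two-stage staircase in the plate** -/
theorem PT2.step_eq (P : PT2 L S₀ F μ T) (hy : y ∈ G.PB (7 / 8) s.1) (β : Bool) :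
    (T β).toFun y = Function.update y (tg s.1 β) ((F β).σ s (y (tg s.1 β))) := by
  have Pl := P.plate s β
  have hj := Pl.dir
  by_cases hw : ((F β).B s).al ≤ y (tg s.1 β) ∧ y (tg s.1 β) ≤ ((F β).B s).be
  · have h1 : (F β).FullK s y := ⟨by rw [hj]; exact hw, Pl.full y hy⟩
    rw [(P.isS β).full (P.μD β s) h1, hj]
  · have hw' : y (tg s.1 β) ≤ ((F β).B s).al ∨ ((F β).B s).be ≤ y (tg s.1 β) := by
      by_contra hcon
      push Not at hcon
      exact hw ⟨hcon.1.le, hcon.2.le⟩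
    have h1 : ∀ b', y ∉ ((F β).B b').K := by
      intro b' hb
      by_cases hbs : b' = s
      · subst hbs
        refine hw ?_
        have := hb.1
        rw [hj] at this
        exact this
      · exact Set.disjoint_left.1 (Pl.disj b' hbs) hb hy
    rw [(P.isS β).off y h1, (F β).σ_out hw', Function.update_eq_self]

/-- the composition of the two staircases in the plate -/
theorem PT2.map_eq (P : PT2 L S₀ F μ T) (hy : y ∈ G.PB (7 / 8) s.1) :
    PS.map T y = Function.update (Function.update y (tg s.1 false)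
      ((F false).σ s (y (tg s.1 false)))) (tg s.1 true) ((F true).σ s (y (tg s.1 true))) := by
  have h1 := P.step_eq (s := s) hy false
  have h2 : (T false).toFun y ∈ G.PB (7 / 8) s.1 := by
    rw [h1]
    exact ((P.plate s false).mem_PB (by norm_num)).2 hy
  have hne : tg s.1 false ≠ tg s.1 true := tg_ne_not s.1 false
  unfold PS.map
  rw [P.step_eq (s := s) h2 true, h1, Function.update_of_ne hne.symm]

/-- **in the plates the two-stage maps are the one-stage maps** -/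
theorem PT2.map_eq_map (P : PT2 L S₀ F μ T) (P' : PS3 L S₀ F T') (hy : y ∈ G.PB (7 / 8) s.1) :
    PS.map T' y = PS.map T y := by
  rw [P.map_eq hy, P'.map_eq hy]

/-- the form for positions after the maps -/
theorem PT2.hT_gen (P : PT2 L S₀ F μ T) (P' : PS3 L S₀ F T') {c d : ℝ} (hc : 7 / 8 ≤ c)
    (hc2 : c ≤ 2) (hd : d ≤ 1) (s : S₀) (hy : y ∈ Λ) (hz : PS.map T y ∈ HB G c d s.1) :
    PS.map T' y = PS.map T y ∧ y ∈ HB G c d s.1 := by
  -- the preimage under the one-stage maps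
  set z := PS.map T y with hzd
  have hzΛ : z ∈ Λ := (T true).mapsTo ((T false).mapsTo hy)
  set w := (T' false).invFun ((T' true).invFun z) with hw
  have hwΛ : w ∈ Λ := (T' false).mapsTo_inv ((T' true).mapsTo_inv hzΛ)
  have hwz : PS.map T' w = z := by
    show (T' true).toFun ((T' false).toFun w) = z
    rw [hw, (T' false).right_inv ((T' true).mapsTo_inv hzΛ), (T' true).right_inv hzΛ]
  have hwB : w ∈ HB G c d s.1 := by
    refine (((H919.PSt.of_PS3 P').prodOn s hc hc2 hd).mem _ hwΛ).1 ?_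
    show (T' true).toFun ((T' false).toFun w) ∈ _
    have : (T' true).toFun ((T' false).toFun w) = z := hwz
    rw [this]; exact hz
  have hw7 : w ∈ G.PB (7 / 8) s.1 := HB_PB hc hd s.1 hwB
  have h1 : PS.map T w = PS.map T y := by
    rw [← P.map_eq_map P' hw7, hwz]
  have h2 : w = y := by
    have h3 := congrArg (T true).invFun (show (T true).toFun ((T false).toFun w) =
      (T true).toFun ((T false).toFun y) from h1)
    rw [(T true).left_inv ((T false).mapsTo hwΛ), (T true).left_inv ((T false).mapsTo hy)] at h3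
    have h4 := congrArg (T false).invFun h3
    rwa [(T false).left_inv hwΛ, (T false).left_inv hy] at h4
  rw [← h2]
  exact ⟨hwz, hwB⟩

/-- **the input of 919's `exists_p45w`** -/
theorem PT2.hT (P : PT2 L S₀ F μ T) (P' : PS3 L S₀ F T') : ∀ s ∈ S₀, ∀ y ∈ Λ,
    PS.map T y ∈ HB G (29 / 32) (3 / 4) s → PS.map T' y = PS.map T y := fun s hs _ hy hz =>
  (P.hT_gen P' (by norm_num) (by norm_num) (by norm_num) ⟨s, hs⟩ hy hz).1

theorem PT2.apply (P : PT2 L S₀ F μ T) (hy : y ∈ G.PB (7 / 8) s.1) (β : Bool) :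
    PS.map T y (tg s.1 β) = (F β).σ s (y (tg s.1 β)) := by
  have hne : tg s.1 false ≠ tg s.1 true := tg_ne_not s.1 false
  rw [P.map_eq hy]
  cases β
  · rw [Function.update_of_ne hne, Function.update_self]
  · rw [Function.update_self]

theorem PT2.nrm (P : PT2 L S₀ F μ T) (hy : y ∈ G.PB (7 / 8) s.1) :
    PS.map T y (K.nrm s.1) = y (K.nrm s.1) := by
  rw [P.map_eq hy, Function.update_of_ne (tg_ne s.1 true).symm,
    Function.update_of_ne (tg_ne s.1 false).symm]

theorem PT2.mem_PB (P : PT2 L S₀ F μ T) {c : ℝ} (hc : 7 / 8 ≤ c) (hc1 : c ≤ 1)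
    (hy : y ∈ G.PB c s.1) : PS.map T y ∈ G.PB c s.1 := by
  have hy' : y ∈ G.PB (7 / 8) s.1 := Vale.Agent.P073.H805.PB_mono hc s.1 hy
  have h1 := P.step_eq (s := s) hy' false
  have h2 : (T false).toFun y ∈ G.PB c s.1 := by
    rw [h1]
    exact ((P.plate s false).mem_PB hc1).2 hy
  unfold PS.map
  rw [P.step_eq (s := s) (Vale.Agent.P073.H805.PB_mono hc s.1 h2) true]
  exact ((P.plate s true).mem_PB hc1).2 h2

theorem PT2.mem_win (P : PT2 L S₀ F μ T) (hy : y ∈ G.PB (7 / 8) s.1) {j : Fin 3}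
    (hj : j ≠ K.nrm s.1) : PS.map T y j ∈ pwin G s.1 j ↔ y j ∈ pwin G s.1 j := by
  obtain ⟨β, rfl⟩ : ∃ β, j = tg s.1 β := ⟨bt s.1 j, (tg_bt s.1 hj).symm⟩
  rw [P.apply hy]
  exact (P.plate s β).σ_mem

/-- off the windows nothing moves -/
theorem PT2.eq_off (P : PT2 L S₀ F μ T) (hy : y ∈ G.PB (7 / 8) s.1) {j : Fin 3}
    (hw : y j ∉ pwin G s.1 j) : PS.map T y j = y j := by
  by_cases hj : j = K.nrm s.1
  · subst hj; exact P.nrm hy
  · obtain ⟨β, rfl⟩ : ∃ β, j = tg s.1 β := ⟨bt s.1 j, (tg_bt s.1 hj).symm⟩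
    rw [P.apply hy]
    exact (P.plate s β).σ_eq hw

/-! ### Points near an edge -/

theorem PT2.near_tg (P : PT2 L S₀ F μ T) {i : K.G} (hy : NearE G i y)
    (hK : y ∈ ((F β).B s).K) : y ∈ PK G s.1 ∧ tg s.1 β = K.dir i := by
  obtain ⟨h1, h2⟩ := PLev.mem_bxK.1 (P.mem_K' hK)
  refine ⟨h1, ?_⟩
  by_contra hne
  exact (hy s.1 h1).2 _ (tg_ne s.1 β) hne h2

/-- only the coordinate along the edge is moved -/
theorem PT2.near_step (P : PT2 L S₀ F μ T) {i : K.G} (hy : NearE G i y) (β : Bool) :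
    (∀ j, j ≠ K.dir i → (T β).toFun y j = y j) ∧ NearE G i ((T β).toFun y) ∧
      ∀ s : K.S, (T β).toFun y ∈ PK G s → y ∈ PK G s := by
  by_cases hK : ∃ s, y ∈ ((F β).B s).K
  · obtain ⟨s, hs⟩ := hK
    obtain ⟨h1, h2⟩ := P.near_tg hy hs
    have h3 : ∀ j, j ≠ K.dir i → (T β).toFun y j = y j := by
      intro j hj
      refine (P.isS β).ne hs ?_
      rw [(P.plate s β).dir, h2]
      exact hj
    have h4 := P.mem_K ((P.isS β).mem (P.μ0 β s) hs)
    refine ⟨h3, fun s' hs' => ?_, fun s' hs' => ?_⟩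
    · have h5 : s' = s.1 := PK_unique hs' h4
      subst h5
      refine ⟨(hy s.1 h1).1, fun j hj hjd => ?_⟩
      rw [h3 j hjd]
      exact (hy s.1 h1).2 j hj hjd
    · have h5 : s' = s.1 := PK_unique hs' h4
      subst h5
      exact h1
  · push Not at hK
    rw [(P.isS β).off y hK]
    exact ⟨fun _ _ => rfl, hy, fun _ h => h⟩

/-- the cost of the fade between two points: `2 D` in general, `2 μ` if both displacements of `σ`
are at most `μ` -/
def Cst2 (F : BFam 3 S₀ Λ) (μ : S₀ → ℝ) (s : S₀) (t t' m : ℝ) : Prop :=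
  2 * F.D s ≤ m ∨ (|F.σ s t - t| ≤ μ s ∧ |F.σ s t' - t'| ≤ μ s ∧ 2 * μ s ≤ m)

/-- slope of the map of one box, all points -/
theorem abs_vc2_sub_le {F : BFam 3 S₀ Λ} {μ : S₀ → ℝ} {s : S₀} (μ0 : 0 ≤ μ s)
    (μD : 2 * μ s ≤ F.D s) {A : ℝ} (hA : 1 ≤ A)
    (hs : |F.σ s (y (F.B s).j) - F.σ s (y' (F.B s).j)| ≤ A * |y (F.B s).j - y' (F.B s).j|)
    {m : ℝ} (hm : Cst2 F μ s (y (F.B s).j) (y' (F.B s).j) m) {ρ d : ℝ} (hρ : 0 < ρ)
    (hr : ∀ i, ρ ≤ (F.B s).r i) (hd : ∀ i, i ≠ (F.B s).j → |y i - y' i| ≤ d) (hd0 : 0 ≤ d) :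
    |vc (F.B s).j (F.σ s) (hgt2 F μ s) y (F.B s).j - vc (F.B s).j (F.σ s) (hgt2 F μ s) y' (F.B s).j| ≤
      A * |y (F.B s).j - y' (F.B s).j| + m * (d / ρ) := by
  have hdρ : 0 ≤ d / ρ := by positivity
  rw [vc_same, vc_same]
  rcases hm with h | ⟨h1, h2, h3⟩
  · refine (abs_cl_sub_cl_le hA hs).trans (add_le_add_right
      ((abs_hgt2_sub_le μ0 μD hρ hr hd hd0).trans ?_) _)
    exact mul_le_mul_of_nonneg_right h hdρ
  · rw [cl_hgt2 μ0 h1, cl_hgt2 μ0 h2]
    refine (abs_cl_sub_cl_le hA hs).trans (add_le_add_right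
      ((abs_bmp_sub_le (by linarith) hρ hr hd hd0).trans ?_) _)
    exact mul_le_mul_of_nonneg_right h3 hdρ

/-- **Lipschitz bound of the coordinate along the edge**, one family; `A` is the slope of the
staircase, and `q` the cost of the fade-out -/
theorem PT2.lip_near (P : PT2 L S₀ F μ T) {A : ℝ} (hA : 1 ≤ A)
    (hs : ∀ β s t t', |(F β).σ s t - (F β).σ s t'| ≤ A * |t - t'|) {i : K.G} {z z' : V}
    (hz : NearE G i z) (hz' : NearE G i z') {d q : ℝ} (hd : ∀ j, j ≠ K.dir i → |z j - z' j| ≤ d)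
    (hd0 : 0 ≤ d) (hq0 : 0 ≤ q)
    (hq : ∀ s : S₀, (z ∈ PK G s.1 ∨ z' ∈ PK G s.1) →
      ∃ m, Cst2 (F β) (μ β) s (z (K.dir i)) (z' (K.dir i)) m ∧ m * (d / (B.τ s.1 / 4)) ≤ q) :
    |(T β).toFun z (K.dir i) - (T β).toFun z' (K.dir i)| ≤
      3 * A * |z (K.dir i) - z' (K.dir i)| + 2 * q := by
  have hnn := abs_nonneg (z (K.dir i) - z' (K.dir i))
  have key : ∀ s : S₀, (z ∈ PK G s.1 ∨ z' ∈ PK G s.1) → tg s.1 β = K.dir i →
      |(Sb2 (F β) (P.μ0 β) s).toFun z (K.dir i) - (Sb2 (F β) (P.μ0 β) s).toFun z' (K.dir i)| ≤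
        A * |z (K.dir i) - z' (K.dir i)| + q := by
    intro s hsz hsi
    have e : BxR ((F β).B s) (L.bx β s.1) := P.B β s
    have ej : ((F β).B s).j = K.dir i := by rw [(P.plate s β).dir, hsi]
    have hτ := B.τ_pos s.1
    have hp := G.τ_p s.1
    obtain ⟨m, hm, hmq⟩ := hq s hsz
    have h1 := abs_vc2_sub_le (y := z) (y' := z') (P.μ0 β s) (P.μD β s) hA (hs β s _ _)
      (m := m) (by rw [ej]; exact hm) (ρ := B.τ s.1 / 4) (d := d) (by positivity) (fun l => by
        refine le_trans ?_ (e.r2 l)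
        show _ ≤ (if l = K.nrm s.1 then B.τ s.1 / 2 else G.p s.1 / 8) / 2
        split_ifs
        · linarith
        · linarith) (fun l hl => hd l (by rwa [ej] at hl)) hd0
    rw [ej] at h1
    have h2 : (Sb2 (F β) (P.μ0 β) s).toFun = vc (K.dir i) ((F β).σ s) (hgt2 (F β) (μ β) s) := by
      rw [← ej]; rfl
    rw [h2]
    exact h1.trans (add_le_add_right hmq _)
  have hid : ∀ s, ∀ y, y ∉ ((F β).B s).K → (Sb2 (F β) (P.μ0 β) s).toFun y = y := fun s y hy =>
    (Sb2_supp (F β) (P.μ0 β) s).id y hy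
  have hon : ∀ s, ∀ y ∈ ((F β).B s).K, (T β).toFun y = (Sb2 (F β) (P.μ0 β) s).toFun y :=
    fun s y hy => (P.isS β).on s y hy
  by_cases hK : ∃ s, z ∈ ((F β).B s).K
  · obtain ⟨s, hzs⟩ := hK
    obtain ⟨h1, h2⟩ := P.near_tg hz hzs
    have h3 := key s (Or.inl h1) h2
    rw [← hon s z hzs] at h3
    by_cases hK' : ∃ s, z' ∈ ((F β).B s).K
    · obtain ⟨s', hzs'⟩ := hK'
      obtain ⟨h1', h2'⟩ := P.near_tg hz' hzs'
      by_cases hss : s = s'
      · subst hss
        rw [← hon s z' hzs'] at h3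
        nlinarith
      · have h4 := key s' (Or.inr h1') h2'
        rw [← hon s' z' hzs'] at h4
        rw [hid s z' fun h => hss (Subtype.ext (PK_unique (P.mem_K h) h1'))] at h3
        rw [hid s' z fun h => hss (Subtype.ext (PK_unique h1 (P.mem_K h)))] at h4
        have h5 : |(T β).toFun z (K.dir i) - (T β).toFun z' (K.dir i)| ≤
            |(T β).toFun z (K.dir i) - z' (K.dir i)| + |z' (K.dir i) - z (K.dir i)| +
              |z (K.dir i) - (T β).toFun z' (K.dir i)| := by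
          have h6 := abs_sub_le ((T β).toFun z (K.dir i)) (z' (K.dir i)) ((T β).toFun z' (K.dir i))
          have h7 := abs_sub_le (z' (K.dir i)) (z (K.dir i)) ((T β).toFun z' (K.dir i))
          linarith
        rw [abs_sub_comm (z' (K.dir i)) (z (K.dir i))] at h5
        nlinarith
    · push Not at hK'
      rw [hid s z' (hK' s)] at h3
      rw [(P.isS β).off z' hK']
      nlinarith
  · push Not at hK
    rw [(P.isS β).off z hK]
    by_cases hK' : ∃ s, z' ∈ ((F β).B s).K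
    · obtain ⟨s', hzs'⟩ := hK'
      obtain ⟨h1', h2'⟩ := P.near_tg hz' hzs'
      have h4 := key s' (Or.inr h1') h2'
      rw [← hon s' z' hzs', hid s' z (hK s')] at h4
      nlinarith
    · push Not at hK'
      rw [(P.isS β).off z' hK']
      nlinarith

/-- displacement of one staircase -/
theorem PT2.disp (P : PT2 L S₀ F μ T) {d : ℝ} (hd : 0 ≤ d) (hD : ∀ s : S₀, y ∈ PK G s.1 →
    (F β).D s ≤ d) : ‖(T β).toFun y - y‖ ≤ d := by
  by_cases hK : ∃ s, y ∈ ((F β).B s).K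
  · obtain ⟨s, hs⟩ := hK
    exact ((P.isS β).norm_sub_le (P.μ0 β s) (P.μD β s) hs).trans (hD s (P.mem_K hs))
  · push Not at hK
    rw [(P.isS β).off y hK, sub_self, norm_zero]
    exact hd

/-- displacement of one staircase, by the displacement of `σ` -/
theorem PT2.disp' (P : PT2 L S₀ F μ T) {d : ℝ} (hd : 0 ≤ d) (hD : ∀ s : S₀, y ∈ PK G s.1 →
    |(F β).σ s (y (tg s.1 β)) - y (tg s.1 β)| ≤ d) : ‖(T β).toFun y - y‖ ≤ d := by
  by_cases hK : ∃ s, y ∈ ((F β).B s).K
  · obtain ⟨s, hs⟩ := hK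
    have h1 := (P.isS β).norm_sub_le' (P.μ0 β s) hs
    rw [(P.plate s β).dir] at h1
    exact h1.trans (hD s (P.mem_K hs))
  · push Not at hK
    rw [(P.isS β).off y hK, sub_self, norm_zero]
    exact hd

/-- off the supports nothing moves -/
theorem PT2.map_off (P : PT2 L S₀ F μ T) (hy : ∀ s : S₀, y ∉ PK G s.1) : PS.map T y = y := by
  have h1 : ∀ β, (T β).toFun y = y := fun β =>
    (P.isS β).off y fun s hs => hy s (P.mem_K hs)
  unfold PS.map
  rw [h1, h1]

/-- in `PK s` one staircase moves only the coordinate `tg s β` -/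
theorem PT2.step_ne (P : PT2 L S₀ F μ T) (hy : y ∈ PK G s.1) {j : Fin 3} (hj : j ≠ tg s.1 β) :
    (T β).toFun y j = y j := by
  by_cases hK' : ∃ s', y ∈ ((F β).B s').K
  · obtain ⟨s', hs'⟩ := hK'
    have h3 : s.1 = s'.1 := PK_unique hy (P.mem_K hs')
    refine (P.isS β).ne hs' ?_
    rw [(P.plate s' β).dir, ← h3]
    exact hj
  · push Not at hK'
    rw [(P.isS β).off y hK']

theorem PT2.step_mem (P : PT2 L S₀ F μ T) (hy : y ∈ PK G s.1) : (T β).toFun y ∈ PK G s.1 := by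
  by_cases hK' : ∃ s', y ∈ ((F β).B s').K
  · obtain ⟨s', hs'⟩ := hK'
    have h2 := P.mem_K ((P.isS β).mem (P.μ0 β s') hs')
    have h3 : s.1 = s'.1 := PK_unique hy (P.mem_K hs')
    rwa [h3]
  · push Not at hK'
    rwa [(P.isS β).off y hK']

/-- displacement of the two staircases -/
theorem PT2.disp2 (P : PT2 L S₀ F μ T) {d : ℝ} (hd : 0 ≤ d) (hD : ∀ β, ∀ s : S₀, y ∈ PK G s.1 →
    (F β).D s ≤ d) : ‖PS.map T y - y‖ ≤ d := by
  by_cases hK : ∃ s : S₀, y ∈ PK G s.1
  · obtain ⟨s, hs⟩ := hK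
    have h0 : (T false).toFun y ∈ PK G s.1 := P.step_mem hs
    have h1 : ‖(T false).toFun y - y‖ ≤ d := P.disp hd (hD false)
    have h2 : ‖(T true).toFun ((T false).toFun y) - (T false).toFun y‖ ≤ d :=
      P.disp hd fun s' hs' => hD true s' (by
        have h3 : s.1 = s'.1 := PK_unique h0 hs'
        rw [← h3]; exact hs)
    unfold PS.map
    rw [pi_norm_le_iff_of_nonneg hd]
    intro j
    rw [Pi.sub_apply]
    by_cases hj : j = tg s.1 true
    · have hne : j ≠ tg s.1 false := by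
        rw [hj]; exact (tg_ne_not s.1 false).symm
      rw [← P.step_ne (β := false) hs hne]
      exact (norm_le_pi_norm _ j).trans h2
    · rw [P.step_ne (β := true) h0 hj]
      exact (norm_le_pi_norm _ j).trans h1
  · push Not at hK
    rw [P.map_off hK, sub_self, norm_zero]
    exact hd

/-- **Lipschitz bound of the coordinate along the edge** -/
theorem PT2.lip_tube (P : PT2 L S₀ F μ T) {A : ℝ} (hA : 1 ≤ A)
    (hs : ∀ β s t t', |(F β).σ s t - (F β).σ s t'| ≤ A * |t - t'|) {i : K.G} {z z' : V}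
    (hz : NearE G i z) (hz' : NearE G i z') {d q : ℝ} (hd : ∀ j, j ≠ K.dir i → |z j - z' j| ≤ d)
    (hd0 : 0 ≤ d) (hq0 : 0 ≤ q)
    (hq : ∀ s : S₀, (z ∈ PK G s.1 ∨ z' ∈ PK G s.1) → ∃ m,
      Cst2 (F false) (μ false) s (z (K.dir i)) (z' (K.dir i)) m ∧
      Cst2 (F true) (μ true) s ((T false).toFun z (K.dir i)) ((T false).toFun z' (K.dir i)) m ∧
      m * (d / (B.τ s.1 / 4)) ≤ q) :
    |PS.map T z (K.dir i) - PS.map T z' (K.dir i)| ≤
      9 * A ^ 2 * |z (K.dir i) - z' (K.dir i)| + (6 * A + 2) * q := by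
  obtain ⟨h1, h2, h3⟩ := P.near_step hz false
  obtain ⟨h1', h2', h3'⟩ := P.near_step hz' false
  have h4 := P.lip_near (β := false) hA hs hz hz' hd hd0 hq0 (fun s hs' => by
    obtain ⟨m, m1, -, m3⟩ := hq s hs'
    exact ⟨m, m1, m3⟩)
  have h5 := P.lip_near (β := true) hA hs h2 h2' (d := d) (q := q) (fun j hj => by
    rw [h1 j hj, h1' j hj]; exact hd j hj) hd0 hq0 (fun s hs' => by
      obtain ⟨m, -, m2, m3⟩ := hq s (by
        rcases hs' with h | h
        · exact Or.inl (h3 s.1 h)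
        · exact Or.inr (h3' s.1 h))
      exact ⟨m, m2, m3⟩)
  unfold PS.map
  have h6 : 3 * A * |(T false).toFun z (K.dir i) - (T false).toFun z' (K.dir i)| ≤
      3 * A * (3 * A * |z (K.dir i) - z' (K.dir i)| + 2 * q) :=
    mul_le_mul_of_nonneg_left h4 (by linarith)
  refine h5.trans ?_
  nlinarith

end

end P073.H190
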