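import Vale.Agent.P073.H236.HFam

/-!
# P073, H190: **[TWO-STAGE]** staircases with a two-stage fade

The family `F : BFam n ι Λ` with the displacement `F.D` (large only in the windows of the levels) and
a small number `μ s`: the height `hgt2` is `2 μ b` plus a part which is positive only where `b > 1/2`,
`b` the bump of the box. Points which `σ` moves by at most `μ` are moved by the one-stage map with
`D := 2 μ` (`IsS2.eq_small`).
-/

open Set Metric Topology Filter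

namespace P073.H190

open P073 P073.H236

variable {n : ℕ} {ι : Type*} {Λ : Set (Fin n → ℝ)}

/-- **the two-stage height** of the box `s` -/
noncomputable def hgt2 (F : BFam n ι Λ) (μ : ι → ℝ) (s : ι) (y : Fin n → ℝ) : ℝ :=
  max (bmp (F.B s).j (F.B s).lo (F.B s).hi (F.B s).r (2 * μ s) y)
    (2 * bmp (F.B s).j (F.B s).lo (F.B s).hi (F.B s).r (F.D s) y - F.D s)

section hgt

variable {F : BFam n ι Λ} {μ : ι → ℝ} {s : ι} {y y' : Fin n → ℝ}

/-- the bump is linear in the constant -/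
theorem bmp_eq_mul (j : Fin n) (lo hi r : Fin n → ℝ) (C : ℝ) (y : Fin n → ℝ) :
    bmp j lo hi r C y = C * bmp j lo hi r 1 y := by
  unfold bmp; rw [one_mul]

theorem hgt2_nonneg (hμ : 0 ≤ μ s) (y : Fin n → ℝ) : 0 ≤ hgt2 F μ s y :=
  le_max_of_le_left (bmp_nonneg (by linarith) y)

theorem hgt2_le (hD : 2 * μ s ≤ F.D s) (hμ : 0 ≤ μ s) (y : Fin n → ℝ) : hgt2 F μ s y ≤ F.D s := by
  have h0 := F.D0 s
  refine max_le ((bmp_le (by linarith) y).trans hD) ?_
  have := bmp_le (j := (F.B s).j) (lo := (F.B s).lo) (hi := (F.B s).hi) (r := (F.B s).r) h0 y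
  linarith

/-- full on the box -/
theorem hgt2_full (hD : 2 * μ s ≤ F.D s) (hy : (F.B s).Full y) : hgt2 F μ s y = F.D s := by
  unfold hgt2
  rw [bmp_full (F.B s).hr hy, bmp_full (F.B s).hr hy, max_eq_right (by linarith)]
  ring

/-- zero off the neighbourhood -/
theorem hgt2_zero {i : Fin n} (hij : i ≠ (F.B s).j)
    (hy : y i ≤ (F.B s).lo i - (F.B s).r i ∨ (F.B s).hi i + (F.B s).r i ≤ y i) :
    hgt2 F μ s y = 0 := by
  unfold hgt2
  rw [bmp_zero (F.B s).hr hij hy, bmp_zero (F.B s).hr hij hy, mul_zero, zero_sub]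
  exact max_eq_left (neg_nonpos.2 (F.D0 s))

theorem hgt2_update (y : Fin n → ℝ) (t : ℝ) :
    hgt2 F μ s (Function.update y (F.B s).j t) = hgt2 F μ s y := by
  unfold hgt2; rw [bmp_update, bmp_update]

theorem hgt2_con : ConicalOn (hgt2 F μ s) univ ∧ ContinuousOn (hgt2 F μ s) univ := by
  have hu : ConicalSet (univ : Set (Fin n → ℝ)) := isOpen_univ.conicalSet
  have h1 := bmp_con (j := (F.B s).j) (lo := (F.B s).lo) (hi := (F.B s).hi) (r := (F.B s).r)
    (C := 2 * μ s)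
  have h2 := bmp_con (j := (F.B s).j) (lo := (F.B s).lo) (hi := (F.B s).hi) (r := (F.B s).r)
    (C := F.D s)
  have h3 : ConicalOn (fun y => 2 * bmp (F.B s).j (F.B s).lo (F.B s).hi (F.B s).r (F.D s) y -
      F.D s) univ := by
    refine ((h2.1.const_smul (2:ℝ)).sub (conicalOn_const (F.D s) hu)).congr fun y _ => ?_
    simp only [smul_eq_mul]
  have c3 : ContinuousOn (fun y => 2 * bmp (F.B s).j (F.B s).lo (F.B s).hi (F.B s).r (F.D s) y -
      F.D s) univ := (h2.2.const_mul 2).sub continuousOn_const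
  exact ⟨h1.1.rmax h3 h1.2 c3, ContinuousOn.sup h1.2 c3⟩

/-- **the data of the vertical map** -/
theorem vd2 (hμ : 0 ≤ μ s) : VD (F.B s).j (F.σ s) (hgt2 F μ s) where
  kc := sm_continuous
  kk := sm_conicalOn
  km := (F.σ_strictMono s).monotone
  mc := continuousOn_univ.1 hgt2_con.2
  mcon := hgt2_con.1
  m0 := hgt2_nonneg hμ
  mj := hgt2_update

theorem vd2' (hμ : 0 ≤ μ s) : VD (F.B s).j (F.σi s) (hgt2 F μ s) where
  kc := smi_continuous
  kk := smi_conicalOn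
  km := (F.σi_strictMono s).monotone
  mc := continuousOn_univ.1 hgt2_con.2
  mcon := hgt2_con.1
  m0 := hgt2_nonneg hμ
  mj := hgt2_update

/-- **slope of the height**: twice the slope of the one-stage height -/
theorem abs_hgt2_sub_le (hμ : 0 ≤ μ s) (hD : 2 * μ s ≤ F.D s) {d δ : ℝ} (hδ : 0 < δ)
    (hr : ∀ i, δ ≤ (F.B s).r i) (hd : ∀ i, i ≠ (F.B s).j → |y i - y' i| ≤ d) (hd0 : 0 ≤ d) :
    |hgt2 F μ s y - hgt2 F μ s y'| ≤ 2 * F.D s * (d / δ) := by
  have h0 := F.D0 s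
  have hdδ : 0 ≤ d / δ := by positivity
  have e1 := abs_bmp_sub_le (j := (F.B s).j) (lo := (F.B s).lo) (hi := (F.B s).hi)
    (r := (F.B s).r) (C := 2 * μ s) (by linarith) hδ hr hd hd0
  have e2 := abs_bmp_sub_le (j := (F.B s).j) (lo := (F.B s).lo) (hi := (F.B s).hi)
    (r := (F.B s).r) (C := F.D s) h0 hδ hr hd hd0
  unfold hgt2
  refine (abs_max_sub_max_le_max _ _ _ _).trans (max_le (e1.trans ?_) ?_)
  · have : 2 * μ s * (d / δ) ≤ F.D s * (d / δ) := mul_le_mul_of_nonneg_right hD hdδ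
    have h3 : 0 ≤ F.D s * (d / δ) := mul_nonneg h0 hdδ
    linarith
  · rw [show ∀ a b c : ℝ, 2 * a - c - (2 * b - c) = 2 * (a - b) from fun a b c => by ring,
      abs_mul, abs_two]
    linarith

/-- **small displacements see only the small stage** -/
theorem cl_hgt2 (hμ : 0 ≤ μ s) {t : ℝ} (ht : |F.σ s t - t| ≤ μ s) (y : Fin n → ℝ) :
    cl (F.σ s) (hgt2 F μ s y) t =
      cl (F.σ s) (bmp (F.B s).j (F.B s).lo (F.B s).hi (F.B s).r (2 * μ s) y) t := by
  have h0 := F.D0 s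
  set b := bmp (F.B s).j (F.B s).lo (F.B s).hi (F.B s).r 1 y with hb
  have e1 : bmp (F.B s).j (F.B s).lo (F.B s).hi (F.B s).r (2 * μ s) y = 2 * μ s * b :=
    bmp_eq_mul _ _ _ _ _ _
  have e2 : bmp (F.B s).j (F.B s).lo (F.B s).hi (F.B s).r (F.D s) y = F.D s * b :=
    bmp_eq_mul _ _ _ _ _ _
  have hm : hgt2 F μ s y = max (2 * μ s * b) (2 * (F.D s * b) - F.D s) := by
    unfold hgt2; rw [e1, e2]
  rw [hm, e1]
  rcases le_or_gt (1 / 2) b with h | h
  · have h1 : |F.σ s t - t| ≤ 2 * μ s * b := by nlinarith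
    rw [cl_eq h1, cl_eq (h1.trans (le_max_left _ _))]
  · have hb0 : 0 ≤ b := bmp_nonneg zero_le_one y
    rw [max_eq_left]
    have h2 : 0 ≤ μ s * b := mul_nonneg hμ hb0
    nlinarith

end hgt

/-! ### supports of vertical maps with a general height -/

/-- **the support of a clip map with a general height** -/
theorem supp_vcg {j : Fin n} {lo hi r : Fin n → ℝ} {m : (Fin n → ℝ) → ℝ} {k : ℝ → ℝ} {al be : ℝ}
    (hV : VD j k m) (hm : ∀ y : Fin n → ℝ, ∀ i, i ≠ j → (y i ≤ lo i - r i ∨ hi i + r i ≤ y i) →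
      m y = 0)
    (hout : ∀ t, t ≤ al ∨ be ≤ t → k t = t) (hab : al ≤ be) :
    Supp (vc j k m) (kbox j al be lo hi r) := by
  have km := hV.km
  have hid : ∀ x, x ∉ kbox j al be lo hi r → vc j k m x = x := by
    intro x hx
    apply hV.eq_self
    simp only [kbox, mem_ofPred_eq, not_and_or, not_le, not_forall] at hx
    rcases hx with (h1 | h1) | ⟨i, hi', h1⟩
    · exact Or.inr (hout _ (Or.inl h1.le))
    · exact Or.inr (hout _ (Or.inr h1.le))
    · left
      refine hm x i hi' ?_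
      rcases h1 with h1 | h1
      · exact Or.inl h1.le
      · exact Or.inr h1.le
  have hkal : k al = al := hout _ (Or.inl le_rfl)
  have hkbe : k be = be := hout _ (Or.inr le_rfl)
  have hcl : ∀ m t, 0 ≤ m → al ≤ t → t ≤ be → al ≤ cl k m t ∧ cl k m t ≤ be := by
    intro m t hm h1 h2
    have e1 := cl_mono km m h1
    have e2 := cl_mono km m h2
    rw [cl_fix hm hkal] at e1
    rw [cl_fix hm hkbe] at e2
    exact ⟨e1, e2⟩
  refine ⟨hV.continuous, hV.conicalOn, hid, ?_, ?_⟩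
  · rintro x ⟨⟨h1, h2⟩, h3⟩
    refine ⟨?_, fun i hi' => by rw [vc_ne hi']; exact h3 i hi'⟩
    rw [vc_same]
    exact hcl _ _ (hV.m0 x) h1 h2
  · rintro x ⟨⟨h1, h2⟩, h3⟩
    obtain ⟨t, -, ht⟩ := hV.exists_eq x
    have ht2 : cl k (m x) t = x j := by
      have := congrFun ht j
      rwa [vc_same, hV.mj, Function.update_self] at this
    refine ⟨Function.update x j (max al (min be t)), ⟨?_, fun i hi' => ?_⟩, ?_⟩
    · rw [Function.update_self]
      exact ⟨le_max_left _ _, max_le hab (min_le_left _ _)⟩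
    · rw [Function.update_of_ne hi']; exact h3 i hi'
    · ext i
      by_cases hi' : i = j
      · subst hi'
        rw [vc_same, hV.mj, Function.update_self]
        have e1 : cl k (m x) al = al := cl_fix (hV.m0 x) hkal
        have e2 : cl k (m x) be = be := cl_fix (hV.m0 x) hkbe
        rcases le_total t al with h4 | h4
        · rw [min_eq_right (h4.trans hab), max_eq_left h4, e1]
          have := cl_mono km (m x) h4
          rw [ht2, e1] at this
          linarith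
        · rcases le_total t be with h5 | h5
          · rw [min_eq_right h5, max_eq_right h4, ht2]
          · rw [min_eq_left h5, max_eq_right hab, e2]
            have := cl_mono km (m x) h5
            rw [ht2, e2] at this
            linarith
      · rw [vc_ne hi', Function.update_of_ne hi']

/-! ### the glued map -/

/-- **the two-stage staircase map of the family** -/
structure IsS2 (F : BFam n ι Λ) (μ : ι → ℝ) (S : ConHomeo Λ Λ) : Prop where
  on : ∀ s, ∀ y ∈ (F.B s).K, S.toFun y =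
    Function.update y (F.B s).j (cl (F.σ s) (hgt2 F μ s y) (y (F.B s).j))
  off : ∀ y, (∀ s, y ∉ (F.B s).K) → S.toFun y = y
  on' : ∀ s, ∀ y ∈ (F.B s).K, S.invFun y =
    Function.update y (F.B s).j (cl (F.σi s) (hgt2 F μ s y) (y (F.B s).j))
  off' : ∀ y, (∀ s, y ∉ (F.B s).K) → S.invFun y = y

/-- one box -/
noncomputable def Sb2 (F : BFam n ι Λ) {μ : ι → ℝ} (μ0 : ∀ s, 0 ≤ μ s) (s : ι) :
    ConHomeo (univ : Set (Fin n → ℝ)) (univ : Set (Fin n → ℝ)) :=
  (vd2 (F := F) (μ0 s)).homeo (vd2' (μ0 s)) (F.σ_strictMono s) (F.σi_strictMono s)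
    (F.σi_σ s) (F.σ_σi s) isOpen_univ (fun _ _ _ _ => mem_univ _)

theorem Sb2_supp (F : BFam n ι Λ) {μ : ι → ℝ} (μ0 : ∀ s, 0 ≤ μ s) (s : ι) :
    Supp (Sb2 F μ0 s).toFun (F.B s).K :=
  supp_vcg (vd2 (μ0 s)) (fun _ _ hij hy => hgt2_zero hij hy) (fun _ ht => F.σ_out ht)
    (F.B s).al_lt_be.le

theorem Sb2_supp' (F : BFam n ι Λ) {μ : ι → ℝ} (μ0 : ∀ s, 0 ≤ μ s) (s : ι) :
    Supp (Sb2 F μ0 s).invFun (F.B s).K :=
  supp_vcg (vd2' (μ0 s)) (fun _ _ hij hy => hgt2_zero hij hy) (fun _ ht => F.σi_out ht)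
    (F.B s).al_lt_be.le

/-- **existence** -/
theorem exists_isS2 (hΛ : IsOpen Λ) (F : BFam n ι Λ) {μ : ι → ℝ} (μ0 : ∀ s, 0 ≤ μ s) :
    ∃ S, IsS2 F μ S := by
  obtain ⟨S, h1, h2, h3, h4⟩ := exists_glue_homeo hΛ (Sb2 F μ0) (fun b => (F.B b).K)
    (Sb2_supp F μ0) F.sub F.lf
    (fun b b' hbb x hx hx' => (Sb2_supp F μ0 b).bdry fun hi =>
      Set.disjoint_left.1 (F.dis b b' hbb) hi hx')
  exact ⟨S, fun s y hy => h1 s y hy, h2, fun s y hy => h3 s y hy, h4⟩

namespace IsS2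

variable {F : BFam n ι Λ} {μ : ι → ℝ} {S T : ConHomeo Λ Λ} {s : ι} {y y' : Fin n → ℝ}

/-- the vertical coordinate -/
theorem same (hS : IsS2 F μ S) (hy : y ∈ (F.B s).K) :
    S.toFun y (F.B s).j = cl (F.σ s) (hgt2 F μ s y) (y (F.B s).j) := by
  rw [hS.on s y hy, Function.update_self]

/-- only the coordinate `j` of the box moves -/
theorem ne (hS : IsS2 F μ S) (hy : y ∈ (F.B s).K) {i : Fin n} (hi : i ≠ (F.B s).j) :
    S.toFun y i = y i := by
  rw [hS.on s y hy, Function.update_of_ne hi]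

theorem ne' (hS : IsS2 F μ S) (hy : y ∈ (F.B s).K) {i : Fin n} (hi : i ≠ (F.B s).j) :
    S.invFun y i = y i := by
  rw [hS.on' s y hy, Function.update_of_ne hi]

theorem mem (hS : IsS2 F μ S) (μ0 : 0 ≤ μ s) (hy : y ∈ (F.B s).K) : S.toFun y ∈ (F.B s).K := by
  rw [hS.on s y hy]
  exact (supp_vcg (vd2 (F := F) (s := s) μ0) (fun _ _ hij hy => hgt2_zero hij hy)
    (fun _ ht => F.σ_out ht) (F.B s).al_lt_be.le).maps hy

theorem mem' (hS : IsS2 F μ S) (μ0 : 0 ≤ μ s) (hy : y ∈ (F.B s).K) : S.invFun y ∈ (F.B s).K := by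
  rw [hS.on' s y hy]
  exact (supp_vcg (vd2' (F := F) (s := s) μ0) (fun _ _ hij hy => hgt2_zero hij hy)
    (fun _ ht => F.σi_out ht) (F.B s).al_lt_be.le).maps hy

theorem mem_iff (hS : IsS2 F μ S) (μ0 : 0 ≤ μ s) (hy : y ∈ Λ) :
    S.toFun y ∈ (F.B s).K ↔ y ∈ (F.B s).K := by
  refine ⟨fun h => ?_, hS.mem μ0⟩
  have := hS.mem' μ0 h
  rwa [S.left_inv hy] at this

/-- displacement -/
theorem norm_sub_le_hgt (hS : IsS2 F μ S) (μ0 : 0 ≤ μ s) (hy : y ∈ (F.B s).K) :
    ‖S.toFun y - y‖ ≤ hgt2 F μ s y := by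
  rw [hS.on s y hy]; exact (vd2 (F := F) (s := s) μ0).norm_sub_le y

theorem norm_sub_le (hS : IsS2 F μ S) (μ0 : 0 ≤ μ s) (hD : 2 * μ s ≤ F.D s)
    (hy : y ∈ (F.B s).K) : ‖S.toFun y - y‖ ≤ F.D s :=
  (hS.norm_sub_le_hgt μ0 hy).trans (hgt2_le hD μ0 y)

/-- the displacement is at most the one of `σ` -/
theorem norm_sub_le' (hS : IsS2 F μ S) (μ0 : 0 ≤ μ s) (hy : y ∈ (F.B s).K) :
    ‖S.toFun y - y‖ ≤ |F.σ s (y (F.B s).j) - y (F.B s).j| := by
  rw [hS.on s y hy]; exact (vd2 (F := F) (s := s) μ0).norm_sub_le' y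

/-- the full zone -/
theorem full (hS : IsS2 F μ S) (hD : 2 * μ s ≤ F.D s) (h : F.FullK s y) :
    S.toFun y = Function.update y (F.B s).j (F.σ s (y (F.B s).j)) := by
  rw [hS.on s y h.mem, hgt2_full hD h.2,
    cl_eq (show |F.σ s (y (F.B s).j) - y (F.B s).j| ≤ F.D s from F.hD s _)]

theorem full' (hS : IsS2 F μ S) (hD : 2 * μ s ≤ F.D s) (h : F.FullK s y) :
    S.invFun y = Function.update y (F.B s).j (F.σi s (y (F.B s).j)) := by
  have h1 := h.update (F.σi_win h.1)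
  have h2 := hS.full hD h1
  rw [Function.update_self, F.σ_σi, Function.update_idem, Function.update_eq_self] at h2
  have h3 := S.left_inv (F.sub s h1.mem)
  rwa [h2] at h3

/-- the full zone is invariant -/
theorem fullK_iff (hS : IsS2 F μ S) (hD : 2 * μ s ≤ F.D s) (hy : y ∈ Λ) :
    F.FullK s (S.toFun y) ↔ F.FullK s y := by
  constructor
  · intro h
    have h1 := hS.full' hD h
    rw [S.left_inv hy] at h1
    rw [h1]
    exact h.update (F.σi_win h.1)
  · intro h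
    rw [hS.full hD h]
    exact h.update (F.σ_win h.1)

/-- in the full zone the two-stage map is the one-stage map -/
theorem eq_isS (hS : IsS2 F μ S) (hT : F.IsS T) (hD : 2 * μ s ≤ F.D s) (h : F.FullK s y) :
    T.toFun y = S.toFun y := by
  rw [hT.full h, hS.full hD h]

/-- **small displacements see only the small stage** -/
theorem eq_small (hS : IsS2 F μ S) (μ0 : 0 ≤ μ s) (hy : y ∈ (F.B s).K)
    (ht : |F.σ s (y (F.B s).j) - y (F.B s).j| ≤ μ s) :
    S.toFun y = Function.update y (F.B s).j (cl (F.σ s)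
      (bmp (F.B s).j (F.B s).lo (F.B s).hi (F.B s).r (2 * μ s) y) (y (F.B s).j)) := by
  rw [hS.on s y hy, cl_hgt2 μ0 ht]

/-- **slope everywhere in the support** -/
theorem abs_sub_le (hS : IsS2 F μ S) (μ0 : 0 ≤ μ s) (hD : 2 * μ s ≤ F.D s) {A : ℝ} (hA : 1 ≤ A)
    (hy : y ∈ (F.B s).K) (hy' : y' ∈ (F.B s).K)
    (hs : |F.σ s (y (F.B s).j) - F.σ s (y' (F.B s).j)| ≤ A * |y (F.B s).j - y' (F.B s).j|)
    {ρ d : ℝ} (hρ : 0 < ρ) (hr : ∀ i, ρ ≤ (F.B s).r i)
    (hd : ∀ i, i ≠ (F.B s).j → |y i - y' i| ≤ d) (hd0 : 0 ≤ d) :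
    |S.toFun y (F.B s).j - S.toFun y' (F.B s).j| ≤
      A * |y (F.B s).j - y' (F.B s).j| + 2 * F.D s * (d / ρ) := by
  rw [hS.same hy, hS.same hy']
  exact (abs_cl_sub_cl_le hA hs).trans
    (add_le_add_right (abs_hgt2_sub_le μ0 hD hρ hr hd hd0) _)

/-- **slope at points with small displacement** -/
theorem abs_sub_le_small (hS : IsS2 F μ S) (μ0 : 0 ≤ μ s) {A : ℝ} (hA : 1 ≤ A)
    (hy : y ∈ (F.B s).K) (hy' : y' ∈ (F.B s).K)
    (ht : |F.σ s (y (F.B s).j) - y (F.B s).j| ≤ μ s)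
    (ht' : |F.σ s (y' (F.B s).j) - y' (F.B s).j| ≤ μ s)
    (hs : |F.σ s (y (F.B s).j) - F.σ s (y' (F.B s).j)| ≤ A * |y (F.B s).j - y' (F.B s).j|)
    {ρ d : ℝ} (hρ : 0 < ρ) (hr : ∀ i, ρ ≤ (F.B s).r i)
    (hd : ∀ i, i ≠ (F.B s).j → |y i - y' i| ≤ d) (hd0 : 0 ≤ d) :
    |S.toFun y (F.B s).j - S.toFun y' (F.B s).j| ≤
      A * |y (F.B s).j - y' (F.B s).j| + 2 * μ s * (d / ρ) := by
  rw [hS.same hy, hS.same hy', cl_hgt2 μ0 ht, cl_hgt2 μ0 ht']
  exact (abs_cl_sub_cl_le hA hs).trans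
    (add_le_add_right (abs_bmp_sub_le (by linarith) hρ hr hd hd0) _)

end IsS2

end P073.H190
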