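import Vale.Agent.P073.H236.Boxes

/-!
# P073 / H190, [COLB]: the squeeze of one cube, supported in a big cube (one atom)
-/

open Set Metric Topology Filter

namespace Vale.Agent.P073.H190

open _root_.P073 _root_.P073.H236

/-! ### The one-dimensional profile -/

/-- the height of the profile -/
noncomputable def bb (ρ R s : ℝ) : ℝ := max 0 (min ρ (ρ * (2 - 2 * |s| / R)))

/-- the clipped identity -/
noncomputable def hh (ρ R s : ℝ) : ℝ := max (-bb ρ R s) (min s (bb ρ R s))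

/-- the squeeze of `[c - ρ, c + ρ]` by the factor `l`, identity off `[c - R, c + R]` -/
noncomputable def sk (c ρ R l t : ℝ) : ℝ := t - (1 - l) * hh ρ R (t - c)

section

variable {c ρ R l s s' t t' : ℝ}

theorem bb_nonneg : 0 ≤ bb ρ R s := le_max_left _ _

theorem bb_le (hρ : 0 ≤ ρ) : bb ρ R s ≤ ρ := max_le hρ (min_le_left _ _)

theorem bb_eq (hρ : 0 ≤ ρ) (hR : 0 < R) (hs : |s| ≤ R / 2) : bb ρ R s = ρ := by
  unfold bb
  have h1 : 1 ≤ 2 - 2 * |s| / R := by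
    have : 2 * |s| / R ≤ 1 := by rw [div_le_iff₀ hR]; linarith
    linarith
  rw [min_eq_left (by nlinarith), max_eq_right hρ]

theorem bb_zero (hρ : 0 ≤ ρ) (hR : 0 < R) (hs : R ≤ |s|) : bb ρ R s = 0 := by
  unfold bb
  have h1 : 2 - 2 * |s| / R ≤ 0 := by
    have : 2 ≤ 2 * |s| / R := by rw [le_div_iff₀ hR]; linarith
    linarith
  refine max_eq_left ((min_le_right _ _).trans ?_)
  nlinarith

theorem bb_le_add (hρ : 0 ≤ ρ) (hR : 0 < R) : bb ρ R s ≤ bb ρ R s' + 2 * ρ / R * |s - s'| := by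
  unfold bb
  have h0 : 0 ≤ 2 * ρ / R * |s - s'| := by positivity
  refine max_le (add_nonneg (le_max_left _ _) h0) ?_
  refine le_trans ?_ (add_le_add (le_max_right _ _) le_rfl)
  rw [← min_add_add_right]
  refine min_le_min (by linarith) ?_
  have h1 : |s'| ≤ |s| + |s - s'| := by
    have := abs_sub_abs_le_abs_sub s' s
    rw [abs_sub_comm] at this
    linarith
  have e : ρ * (2 - 2 * |s'| / R) + 2 * ρ / R * |s - s'| - ρ * (2 - 2 * |s| / R) =
      2 * ρ / R * (|s| + |s - s'| - |s'|) := by ring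
  have : 0 ≤ 2 * ρ / R * (|s| + |s - s'| - |s'|) := by
    apply mul_nonneg (by positivity); linarith
  linarith

theorem hh_eq (hρ : 0 ≤ ρ) (hR : 0 < R) (h4 : 4 * ρ ≤ R) (hs : |s| ≤ ρ) : hh ρ R s = s := by
  unfold hh
  rw [bb_eq hρ hR (by linarith)]
  obtain ⟨h1, h2⟩ := abs_le.1 hs
  rw [min_eq_left h2, max_eq_right h1]

theorem hh_zero (hρ : 0 ≤ ρ) (hR : 0 < R) (hs : R ≤ |s|) : hh ρ R s = 0 := by
  unfold hh
  rw [bb_zero hρ hR hs, neg_zero]
  exact max_eq_left (min_le_right _ _)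

theorem abs_hh_le (hρ : 0 ≤ ρ) : |hh ρ R s| ≤ ρ := by
  unfold hh
  have h1 := bb_nonneg (ρ := ρ) (R := R) (s := s)
  have h2 := bb_le (R := R) (s := s) hρ
  rw [abs_le]
  constructor
  · exact le_max_of_le_left (by linarith)
  · exact max_le (by linarith) ((min_le_right _ _).trans h2)

/-- upper bound of the increments -/
theorem hh_sub_le (hρ : 0 ≤ ρ) (hR : 0 < R) (h4 : 4 * ρ ≤ R) (h : s' ≤ s) :
    hh ρ R s ≤ hh ρ R s' + (s - s') := by
  have hq : 2 * ρ / R ≤ 1 := by rw [div_le_iff₀ hR]; linarith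
  have h1 := bb_le_add (s := s) (s' := s') hρ hR
  have h2 := bb_le_add (s := s') (s' := s) hρ hR
  rw [abs_of_nonneg (by linarith : 0 ≤ s - s')] at h1
  rw [abs_sub_comm, abs_of_nonneg (by linarith : 0 ≤ s - s')] at h2
  have h3 : 2 * ρ / R * (s - s') ≤ 1 * (s - s') := by gcongr
  unfold hh
  rw [← max_add_add_right, ← min_add_add_right]
  exact max_le_max (by linarith) (min_le_min (by linarith) (by linarith))

/-- lower bound of the increments -/
theorem hh_sub_ge (hρ : 0 ≤ ρ) (hR : 0 < R) (h : s' ≤ s) :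
    hh ρ R s' ≤ hh ρ R s + 2 * ρ / R * (s - s') := by
  have h1 := bb_le_add (s := s) (s' := s') hρ hR
  have h2 := bb_le_add (s := s') (s' := s) hρ hR
  rw [abs_of_nonneg (by linarith : 0 ≤ s - s')] at h1
  rw [abs_sub_comm, abs_of_nonneg (by linarith : 0 ≤ s - s')] at h2
  have h0 : 0 ≤ 2 * ρ / R * (s - s') := mul_nonneg (by positivity) (by linarith)
  unfold hh
  rw [← max_add_add_right, ← min_add_add_right]
  exact max_le_max (by linarith) (min_le_min (by linarith) (by linarith))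

theorem sk_sub_ge (hρ : 0 ≤ ρ) (hR : 0 < R) (h4 : 4 * ρ ≤ R) (hl : l ≤ 1) (h : t' ≤ t) :
    l * (t - t') ≤ sk c ρ R l t - sk c ρ R l t' := by
  have h1 := hh_sub_le (s := t - c) (s' := t' - c) hρ hR h4 (by linarith)
  unfold sk
  have h2 : (1 - l) * hh ρ R (t - c) ≤ (1 - l) * (hh ρ R (t' - c) + (t - c - (t' - c))) := by
    apply mul_le_mul_of_nonneg_left h1; linarith
  nlinarith

theorem sk_sub_le (hρ : 0 ≤ ρ) (hR : 0 < R) (hl0 : 0 ≤ l) (hl : l ≤ 1) (h : t' ≤ t) :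
    sk c ρ R l t - sk c ρ R l t' ≤ (1 + 2 * ρ / R) * (t - t') := by
  have h1 := hh_sub_ge (s := t - c) (s' := t' - c) hρ hR (by linarith)
  unfold sk
  have h2 : (1 - l) * hh ρ R (t' - c) ≤
      (1 - l) * (hh ρ R (t - c) + 2 * ρ / R * (t - c - (t' - c))) := by
    apply mul_le_mul_of_nonneg_left h1; linarith
  have h3 : 0 ≤ 2 * ρ / R * (t - t') := mul_nonneg (by positivity) (by linarith)
  nlinarith

theorem strictMono_sk (hρ : 0 ≤ ρ) (hR : 0 < R) (h4 : 4 * ρ ≤ R) (hl0 : 0 < l) (hl : l ≤ 1) :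
    StrictMono (sk c ρ R l) := by
  intro t' t h
  have h1 := sk_sub_ge (c := c) hρ hR h4 hl h.le
  have : 0 < l * (t - t') := mul_pos hl0 (by linarith)
  linarith

theorem abs_sk_sub_sk_le (hρ : 0 ≤ ρ) (hR : 0 < R) (h4 : 4 * ρ ≤ R) (hl0 : 0 < l) (hl : l ≤ 1)
    (t t' : ℝ) : |sk c ρ R l t - sk c ρ R l t'| ≤ (1 + 2 * ρ / R) * |t - t'| := by
  have hm := (strictMono_sk (c := c) hρ hR h4 hl0 hl).monotone
  rcases le_total t' t with h | h
  · rw [abs_of_nonneg (by linarith [hm h]), abs_of_nonneg (by linarith)]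
    exact sk_sub_le hρ hR hl0.le hl h
  · rw [abs_sub_comm, abs_sub_comm t, abs_of_nonneg (by linarith [hm h]),
      abs_of_nonneg (by linarith)]
    exact sk_sub_le hρ hR hl0.le hl h

theorem abs_sk_sub_self_le (hρ : 0 ≤ ρ) (hl0 : 0 ≤ l) (hl : l ≤ 1) (t : ℝ) :
    |sk c ρ R l t - t| ≤ ρ := by
  unfold sk
  have h1 := abs_hh_le (R := R) (s := t - c) hρ
  have e : t - (1 - l) * hh ρ R (t - c) - t = -((1 - l) * hh ρ R (t - c)) := by ring
  rw [e, abs_neg, abs_mul, abs_of_nonneg (by linarith : 0 ≤ 1 - l)]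
  have := abs_nonneg (hh ρ R (t - c))
  nlinarith

theorem sk_eq (hρ : 0 ≤ ρ) (hR : 0 < R) (h4 : 4 * ρ ≤ R) (ht : |t - c| ≤ ρ) :
    sk c ρ R l t = c + l * (t - c) := by
  unfold sk
  rw [hh_eq hρ hR h4 ht]; ring

theorem sk_off (hρ : 0 ≤ ρ) (hR : 0 < R) (ht : R ≤ |t - c|) : sk c ρ R l t = t := by
  unfold sk
  rw [hh_zero hρ hR ht]; ring

theorem conicalOn_abs {f : ℝ → ℝ} (hf : ConicalOn f univ) (hc : Continuous f) :
    ConicalOn (fun s => |f s|) univ := by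
  have h := hf.rmax hf.neg hc.continuousOn hc.neg.continuousOn
  exact h.congr fun s _ => abs_eq_max_neg

theorem sk_con : ConicalOn (sk c ρ R l) univ ∧ Continuous (sk c ρ R l) := by
  have hu : ConicalSet (univ : Set ℝ) := isOpen_univ.conicalSet
  have hid : ConicalOn (fun t : ℝ => t) univ := conicalOn_id hu
  have h1 : ConicalOn (fun t : ℝ => t - c) univ := hid.sub (conicalOn_const c hu)
  have h1c : Continuous (fun t : ℝ => t - c) := by fun_prop
  have h2 : ConicalOn (fun t : ℝ => |t - c|) univ := conicalOn_abs h1 h1c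
  have h3 : ConicalOn (fun t : ℝ => ρ * (2 - 2 * |t - c| / R)) univ := by
    have := ((conicalOn_const (2:ℝ) hu).sub (h2.const_smul (2 / R))).const_smul ρ
    refine this.congr fun y _ => ?_
    simp only [smul_eq_mul]; ring
  have h3c : Continuous (fun t : ℝ => ρ * (2 - 2 * |t - c| / R)) := by fun_prop
  have h4 : ConicalOn (fun t : ℝ => bb ρ R (t - c)) univ := by
    unfold bb
    exact (conicalOn_const (0:ℝ) hu).rmax ((conicalOn_const ρ hu).rmin h3 (by fun_prop)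
      h3c.continuousOn) (by fun_prop) (by fun_prop)
  have h4c : Continuous (fun t : ℝ => bb ρ R (t - c)) := by unfold bb; fun_prop
  have h5 : ConicalOn (fun t : ℝ => hh ρ R (t - c)) univ := by
    unfold hh
    exact h4.neg.rmax (h1.rmin h4 h1c.continuousOn h4c.continuousOn) h4c.neg.continuousOn
      (by fun_prop)
  have h5c : Continuous (fun t : ℝ => hh ρ R (t - c)) := by unfold hh; fun_prop
  constructor
  · have := hid.sub (h5.const_smul (1 - l))
    exact this.congr fun y _ => by simp only [smul_eq_mul]; rfl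
  · unfold sk; fun_prop

theorem surjective_sk (hρ : 0 ≤ ρ) (hl0 : 0 ≤ l) (hl : l ≤ 1) :
    Function.Surjective (sk c ρ R l) := by
  intro s
  have h1 := abs_le.1 (abs_sk_sub_self_le (c := c) (R := R) hρ hl0 hl (s - ρ))
  have h2 := abs_le.1 (abs_sk_sub_self_le (c := c) (R := R) hρ hl0 hl (s + ρ))
  have h3 : s ∈ Icc (sk c ρ R l (s - ρ)) (sk c ρ R l (s + ρ)) :=
    ⟨by linarith [h1.2], by linarith [h2.1]⟩
  obtain ⟨t, -, ht⟩ := intermediate_value_Icc (f := sk c ρ R l)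
    (by linarith : s - ρ ≤ s + ρ) sk_con.2.continuousOn h3
  exact ⟨t, ht⟩

/-- the inverse of the profile -/
theorem exists_inv_sk (hρ : 0 ≤ ρ) (hR : 0 < R) (h4 : 4 * ρ ≤ R) (hl0 : 0 < l) (hl : l ≤ 1) :
    ∃ k' : ℝ → ℝ, Continuous k' ∧ ConicalOn k' univ ∧ StrictMono k' ∧
      (∀ t, k' (sk c ρ R l t) = t) ∧ ∀ t, sk c ρ R l (k' t) = t := by
  have hm := strictMono_sk (c := c) hρ hR h4 hl0 hl
  have hs := surjective_sk (c := c) (R := R) hρ hl0.le hl
  set e := hm.orderIsoOfSurjective _ hs with he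
  have e1 : ∀ t, e t = sk c ρ R l t := fun t => rfl
  have h1 : ∀ t, e.symm (sk c ρ R l t) = t := fun t => by rw [← e1]; exact e.symm_apply_apply t
  have h2 : ∀ t, sk c ρ R l (e.symm t) = t := fun t => by rw [← e1]; exact e.apply_symm_apply t
  have hc : Continuous e.symm := e.symm.continuous
  refine ⟨e.symm, hc, ?_, e.symm.strictMono, h1, h2⟩
  let H : ConHomeo (univ : Set ℝ) (univ : Set ℝ) :=
    { toFun := sk c ρ R l, invFun := e.symm, mapsTo := mapsTo_univ _ _,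
      mapsTo_inv := mapsTo_univ _ _, left_inv := fun t _ => h1 t, right_inv := fun t _ => h2 t,
      cont := sk_con.2.continuousOn, cont_inv := hc.continuousOn, conical := sk_con.1 }
  exact H.conical_inv

end

/-! ### One atom -/

/-- the cut-off in the directions different from `j` -/
noncomputable def mm {n : ℕ} (j : Fin n) (c : Fin n → ℝ) (ρ R : ℝ) : (Fin n → ℝ) → ℝ :=
  bmp j (fun i => c i - R / 2) (fun i => c i + R / 2) (fun _ => R / 2) ρ

section

variable {n : ℕ} {j : Fin n} {c : Fin n → ℝ} {ρ R l : ℝ}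

theorem mm_nonneg (hρ : 0 ≤ ρ) (y : Fin n → ℝ) : 0 ≤ mm j c ρ R y := bmp_nonneg hρ y

theorem mm_le (hρ : 0 ≤ ρ) (y : Fin n → ℝ) : mm j c ρ R y ≤ ρ := bmp_le hρ y

theorem mm_full (hR : 0 < R) {y : Fin n → ℝ} (hy : ∀ i, |y i - c i| ≤ R / 2) :
    mm j c ρ R y = ρ :=
  bmp_full (fun _ => by positivity) fun i _ => by
    obtain ⟨h1, h2⟩ := abs_le.1 (hy i)
    constructor <;> linarith

theorem mm_zero (hR : 0 < R) {y : Fin n → ℝ} {i : Fin n} (hij : i ≠ j)
    (hy : R ≤ |y i - c i|) : mm j c ρ R y = 0 := by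
  refine bmp_zero (fun _ => by positivity) hij ?_
  rcases le_abs.1 hy with h | h
  · right; linarith
  · left; linarith

theorem abs_mm_sub_le (hρ : 0 ≤ ρ) (hR : 0 < R) (y y' : Fin n → ℝ) :
    |mm j c ρ R y - mm j c ρ R y'| ≤ 2 * ρ / R * ‖y - y'‖ := by
  have := abs_bmp_sub_le (j := j) (lo := fun i => c i - R / 2) (hi := fun i => c i + R / 2)
    (r := fun _ => R / 2) (C := ρ) hρ (d := ‖y - y'‖) (δ := R / 2) (by positivity)
    (fun _ => le_rfl) (y := y) (y' := y') (fun i _ => norm_le_pi_norm (y - y') i) (norm_nonneg _)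
  refine this.trans (le_of_eq ?_)
  field_simp

/-- one vertical clip -/
structure IsSq (j : Fin n) (c : Fin n → ℝ) (ρ R l : ℝ) (T : (Fin n → ℝ) → Fin n → ℝ) : Prop where
  ne : ∀ y, ∀ i, i ≠ j → T y i = y i
  id : ∀ y, (∃ i, R ≤ |y i - c i|) → T y = y
  disp : ∀ y, |T y j - y j| ≤ ρ
  lip : ∀ y y', |T y j - T y' j| ≤ (1 + 2 * ρ / R) * |y j - y' j| + 2 * ρ / R * ‖y - y'‖
  sq : ∀ y, (∀ i, |y i - c i| ≤ ρ) → T y j = c j + l * (y j - c j)

theorem exists_sq (hρ : 0 ≤ ρ) (hR : 0 < R) (h4 : 4 * ρ ≤ R) (hl0 : 0 < l) (hl : l ≤ 1)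
    (j : Fin n) (c : Fin n → ℝ) :
    ∃ T : ConHomeo (univ : Set (Fin n → ℝ)) univ, IsSq j c ρ R l T.toFun := by
  obtain ⟨k', k'c, k'k, k'm, h1, h2⟩ := exists_inv_sk (c := c j) hρ hR h4 hl0 hl
  have hm := strictMono_sk (c := c j) hρ hR h4 hl0 hl
  have V : VD j (sk (c j) ρ R l) (mm j c ρ R) := vd_bmp hρ sk_con.2 sk_con.1 hm.monotone
  have V' : VD j k' (mm j c ρ R) := vd_bmp hρ k'c k'k k'm.monotone
  have hst : VD.Stab j (mm j c ρ R) univ := fun _ _ _ _ => mem_univ _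
  refine ⟨V.homeo V' hm k'm h1 h2 isOpen_univ hst, ?_⟩
  rw [VD.homeo_toFun]
  refine ⟨fun y i hi => vc_ne hi y, ?_, ?_, ?_, ?_⟩
  · rintro y ⟨i, hi⟩
    refine V.eq_self ?_
    by_cases hij : i = j
    · subst hij; right; exact sk_off hρ hR hi
    · left; exact mm_zero hR hij hi
  · intro y
    exact (V.abs_sub_le y).trans (mm_le hρ y)
  · intro y y'
    have hq : 0 ≤ 2 * ρ / R := by positivity
    refine (VD.abs_vc_sub_vc_le (j := j) (k := sk (c j) ρ R l) (m := mm j c ρ R)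
      (L := 1 + 2 * ρ / R) (by linarith) (abs_sk_sub_sk_le hρ hR h4 hl0 hl _ _)).trans ?_
    exact add_le_add le_rfl (abs_mm_sub_le hρ hR y y')
  · intro y hy
    have h5 : ∀ i, |y i - c i| ≤ R / 2 := fun i => (hy i).trans (by linarith)
    have h6 : |sk (c j) ρ R l (y j) - y j| ≤ mm j c ρ R y := by
      rw [mm_full hR h5]; exact abs_sk_sub_self_le hρ hl0.le hl _
    rw [VD.eq_full h6, Function.update_self, sk_eq hρ hR h4 (hy j)]

end

/-- **one atom**: the squeeze of the cube `closedBall c ρ` by the factor `l`, identity off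
`ball c R` -/
structure Atom (c : Fin 3 → ℝ) (ρ R l : ℝ) (S : (Fin 3 → ℝ) → Fin 3 → ℝ) : Prop where
  id : ∀ y, R ≤ ‖y - c‖ → S y = y
  disp : ∀ y, ‖S y - y‖ ≤ ρ
  lip : ∀ y y' i, |S y i - S y' i| ≤
    (1 + 2 * ρ / R) * |y i - y' i| + 2 * ρ / R * (1 + 4 * ρ / R) ^ 2 * ‖y - y'‖
  lipn : ∀ y y', ‖S y - S y'‖ ≤ (1 + 4 * ρ / R) ^ 3 * ‖y - y'‖
  sq : ∀ y, ‖y - c‖ ≤ ρ → S y = c + l • (y - c)

theorem exists_atom {ρ R l : ℝ} (hρ : 0 ≤ ρ) (hR : 0 < R) (h4 : 4 * ρ ≤ R) (hl0 : 0 < l)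
    (hl : l ≤ 1) (c : Fin 3 → ℝ) :
    ∃ S : ConHomeo (univ : Set (Fin 3 → ℝ)) univ, Atom c ρ R l S.toFun := by
  obtain ⟨S0, H0⟩ := exists_sq hρ hR h4 hl0 hl 0 c
  obtain ⟨S1, H1⟩ := exists_sq hρ hR h4 hl0 hl 1 c
  obtain ⟨S2, H2⟩ := exists_sq hρ hR h4 hl0 hl 2 c
  have hq : 0 ≤ 2 * ρ / R := by positivity
  have h2q : 4 * ρ / R = 2 * (2 * ρ / R) := by ring
  -- norm bound of one step
  have hn : ∀ (j : Fin 3) (T : (Fin 3 → ℝ) → Fin 3 → ℝ), IsSq j c ρ R l T → ∀ y y',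
      ‖T y - T y'‖ ≤ (1 + 4 * ρ / R) * ‖y - y'‖ := by
    intro j T H y y'
    rw [pi_norm_le_iff_of_nonneg (by positivity)]
    intro i
    have hi : |y i - y' i| ≤ ‖y - y'‖ := norm_le_pi_norm (y - y') i
    rw [Pi.sub_apply, Real.norm_eq_abs]
    by_cases hij : i = j
    · subst hij
      refine (H.lip y y').trans ?_
      rw [h2q]
      nlinarith [mul_le_mul_of_nonneg_left hi hq]
    · rw [H.ne y i hij, H.ne y' i hij, h2q]
      nlinarith [norm_nonneg (y - y'), mul_nonneg hq (norm_nonneg (y - y'))]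
  refine ⟨(S0.trans S1).trans S2, ?_, ?_, ?_, ?_, ?_⟩
  · intro y hy
    have h1 : ∃ i, R ≤ |y i - c i| := by
      by_contra hcon
      have h2 : ∀ i, |y i - c i| < R := fun i => not_le.1 fun h => hcon ⟨i, h⟩
      exact absurd hy (not_le.2 ((pi_norm_lt_iff hR).2 fun i => h2 i))
    simp only [ConHomeo.trans_toFun, Function.comp]
    rw [H0.id y h1, H1.id y h1, H2.id y h1]
  · intro y
    simp only [ConHomeo.trans_toFun, Function.comp]
    rw [pi_norm_le_iff_of_nonneg hρ]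
    intro i
    rw [Pi.sub_apply, Real.norm_eq_abs]
    fin_cases i
    · show |S2.toFun (S1.toFun (S0.toFun y)) 0 - y 0| ≤ ρ
      rw [H2.ne _ 0 (by decide), H1.ne _ 0 (by decide)]
      exact H0.disp y
    · show |S2.toFun (S1.toFun (S0.toFun y)) 1 - y 1| ≤ ρ
      rw [H2.ne _ 1 (by decide)]
      have := H1.disp (S0.toFun y)
      rwa [H0.ne y 1 (by decide)] at this
    · show |S2.toFun (S1.toFun (S0.toFun y)) 2 - y 2| ≤ ρ
      have := H2.disp (S1.toFun (S0.toFun y))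
      rwa [H1.ne _ 2 (by decide), H0.ne y 2 (by decide)] at this
  · intro y y' i
    simp only [ConHomeo.trans_toFun, Function.comp]
    have n0 := hn 0 _ H0 y y'
    have n1 := hn 1 _ H1 (S0.toFun y) (S0.toFun y')
    have hN := norm_nonneg (y - y')
    have ha : (1:ℝ) ≤ 1 + 4 * ρ / R := by
      have : 0 ≤ 4 * ρ / R := by positivity
      linarith
    have n01 : ‖S1.toFun (S0.toFun y) - S1.toFun (S0.toFun y')‖ ≤
        (1 + 4 * ρ / R) ^ 2 * ‖y - y'‖ := by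
      refine n1.trans ?_
      calc (1 + 4 * ρ / R) * ‖S0.toFun y - S0.toFun y'‖
          ≤ (1 + 4 * ρ / R) * ((1 + 4 * ρ / R) * ‖y - y'‖) := by gcongr
        _ = (1 + 4 * ρ / R) ^ 2 * ‖y - y'‖ := by ring
    have k0 : ‖y - y'‖ ≤ (1 + 4 * ρ / R) ^ 2 * ‖y - y'‖ := by
      have : (1:ℝ) ≤ (1 + 4 * ρ / R) ^ 2 := one_le_pow₀ ha
      nlinarith
    have k1 : ‖S0.toFun y - S0.toFun y'‖ ≤ (1 + 4 * ρ / R) ^ 2 * ‖y - y'‖ := by
      refine n0.trans ?_
      have : (1 + 4 * ρ / R) ≤ (1 + 4 * ρ / R) ^ 2 := by nlinarith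
      gcongr
    fin_cases i
    · show |S2.toFun (S1.toFun (S0.toFun y)) 0 - S2.toFun (S1.toFun (S0.toFun y')) 0| ≤
        (1 + 2 * ρ / R) * |y 0 - y' 0| + 2 * ρ / R * (1 + 4 * ρ / R) ^ 2 * ‖y - y'‖
      rw [H2.ne _ 0 (by decide), H1.ne _ 0 (by decide), H2.ne _ 0 (by decide),
        H1.ne _ 0 (by decide)]
      refine (H0.lip y y').trans ?_
      rw [mul_assoc (2 * ρ / R)]
      gcongr
    · show |S2.toFun (S1.toFun (S0.toFun y)) 1 - S2.toFun (S1.toFun (S0.toFun y')) 1| ≤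
        (1 + 2 * ρ / R) * |y 1 - y' 1| + 2 * ρ / R * (1 + 4 * ρ / R) ^ 2 * ‖y - y'‖
      rw [H2.ne _ 1 (by decide), H2.ne _ 1 (by decide)]
      refine (H1.lip (S0.toFun y) (S0.toFun y')).trans ?_
      rw [H0.ne y 1 (by decide), H0.ne y' 1 (by decide), mul_assoc (2 * ρ / R)]
      gcongr
    · show |S2.toFun (S1.toFun (S0.toFun y)) 2 - S2.toFun (S1.toFun (S0.toFun y')) 2| ≤
        (1 + 2 * ρ / R) * |y 2 - y' 2| + 2 * ρ / R * (1 + 4 * ρ / R) ^ 2 * ‖y - y'‖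
      refine (H2.lip (S1.toFun (S0.toFun y)) (S1.toFun (S0.toFun y'))).trans ?_
      rw [H1.ne _ 2 (by decide), H1.ne _ 2 (by decide), H0.ne y 2 (by decide),
        H0.ne y' 2 (by decide), mul_assoc (2 * ρ / R)]
      gcongr
  · intro y y'
    simp only [ConHomeo.trans_toFun, Function.comp]
    have n0 := hn 0 _ H0 y y'
    have n1 := hn 1 _ H1 (S0.toFun y) (S0.toFun y')
    have n2 := hn 2 _ H2 (S1.toFun (S0.toFun y)) (S1.toFun (S0.toFun y'))
    refine n2.trans ?_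
    calc (1 + 4 * ρ / R) * ‖S1.toFun (S0.toFun y) - S1.toFun (S0.toFun y')‖
        ≤ (1 + 4 * ρ / R) * ((1 + 4 * ρ / R) * ((1 + 4 * ρ / R) * ‖y - y'‖)) := by
          gcongr
          exact n1.trans (by gcongr)
      _ = (1 + 4 * ρ / R) ^ 3 * ‖y - y'‖ := by ring
  · intro y hy
    simp only [ConHomeo.trans_toFun, Function.comp]
    have hy' : ∀ i, |y i - c i| ≤ ρ := fun i => (norm_le_pi_norm (y - c) i).trans hy
    have e0 : S0.toFun y 0 = c 0 + l * (y 0 - c 0) := H0.sq y hy'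
    have hstep : ∀ t b : ℝ, |t - b| ≤ ρ → |b + l * (t - b) - b| ≤ ρ := by
      intro t b h
      have : b + l * (t - b) - b = l * (t - b) := by ring
      rw [this, abs_mul, abs_of_pos hl0]
      have := abs_nonneg (t - b)
      nlinarith
    have q0 : ∀ i, |S0.toFun y i - c i| ≤ ρ := by
      intro i
      by_cases hi : i = 0
      · subst hi; rw [e0]; exact hstep _ _ (hy' 0)
      · rw [H0.ne y i hi]; exact hy' i
    have e1 : S1.toFun (S0.toFun y) 1 = c 1 + l * (y 1 - c 1) := by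
      rw [H1.sq _ q0, H0.ne y 1 (by decide)]
    have q1 : ∀ i, |S1.toFun (S0.toFun y) i - c i| ≤ ρ := by
      intro i
      by_cases hi : i = 1
      · subst hi; rw [e1]; exact hstep _ _ (hy' 1)
      · rw [H1.ne _ i hi]; exact q0 i
    have e2 : S2.toFun (S1.toFun (S0.toFun y)) 2 = c 2 + l * (y 2 - c 2) := by
      rw [H2.sq _ q1, H1.ne _ 2 (by decide), H0.ne y 2 (by decide)]
    funext i
    rw [Pi.add_apply, Pi.smul_apply, Pi.sub_apply, smul_eq_mul]
    fin_cases i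
    · show S2.toFun (S1.toFun (S0.toFun y)) 0 = c 0 + l * (y 0 - c 0)
      rw [H2.ne _ 0 (by decide), H1.ne _ 0 (by decide)]
      exact e0
    · show S2.toFun (S1.toFun (S0.toFun y)) 1 = c 1 + l * (y 1 - c 1)
      rw [H2.ne _ 1 (by decide)]
      exact e1
    · exact e2

end Vale.Agent.P073.H190
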