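import Vale.Agent.P073.H190.ColB1
import Vale.Agent.P073.H196.Approx

/-!
# P073 / H190, [COLB]: collapse of finitely many small cubes (overlaps allowed, local sums of the
radii small) by a conical homeomorphism with Lipschitz constant `1 + C ε`
-/

open Set Metric Topology Filter

namespace Vale.Agent.P073.H190

open _root_.P073 _root_.P073.H236

/-- a Lipschitz type estimate at small scale implies the estimate -/
theorem norm_sub_le_of_small {E F : Type*} [NormedAddCommGroup E] [NormedSpace ℝ E]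
    [NormedAddCommGroup F] {f : E → F} {e : ℝ} (he : 0 < e) {B : E → ℝ}
    (hB : ∀ (t : ℝ) x, 0 ≤ t → B (t • x) = t * B x)
    (h : ∀ x y, ‖x - y‖ ≤ e → ‖f x - f y‖ ≤ B (x - y)) (x y : E) :
    ‖f x - f y‖ ≤ B (x - y) := by
  obtain ⟨N, hN⟩ := exists_nat_gt (‖x - y‖ / e)
  have hN0 : (0:ℝ) < N := lt_of_le_of_lt (by positivity) hN
  have hN1 : ‖x - y‖ / N ≤ e := by
    rw [div_le_iff₀ hN0]
    rw [div_lt_iff₀ he] at hN
    linarith [mul_comm (N:ℝ) e]
  set c : ℕ → E := fun k => y + ((k:ℝ) / N) • (x - y) with hc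
  have hcs : ∀ k, c (k+1) - c k = ((1:ℝ) / N) • (x - y) := by
    intro k
    simp only [hc]
    push_cast
    rw [add_sub_add_left_eq_sub, ← sub_smul]
    congr 1
    ring
  have hstep : ∀ k, ‖c (k+1) - c k‖ = ‖x - y‖ / N := by
    intro k
    rw [hcs, norm_smul, Real.norm_of_nonneg (by positivity)]
    ring
  have h0 : c 0 = y := by simp [hc]
  have h1 : c N = x := by
    simp only [hc]
    rw [div_self hN0.ne', one_smul]
    abel
  have key : ∀ n : ℕ, ‖f (c n) - f (c 0)‖ ≤ n * ((1 / N) * B (x - y)) := by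
    intro n
    induction n with
    | zero => simp
    | succ n ih =>
      have h2 := h (c (n+1)) (c n) (by rw [hstep]; exact hN1)
      rw [hcs, hB _ _ (by positivity)] at h2
      calc ‖f (c (n+1)) - f (c 0)‖ ≤ ‖f (c (n+1)) - f (c n)‖ + ‖f (c n) - f (c 0)‖ := by
            have := norm_add_le (f (c (n+1)) - f (c n)) (f (c n) - f (c 0))
            simpa using this
        _ ≤ (1 / N) * B (x - y) + n * ((1 / N) * B (x - y)) := add_le_add h2 ih
        _ = ((n+1 : ℕ) : ℝ) * ((1 / N) * B (x - y)) := by push_cast; ring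
  have := key N
  rw [h0, h1] at this
  calc ‖f x - f y‖ ≤ N * ((1 / N) * B (x - y)) := this
    _ = B (x - y) := by field_simp

section

variable {ι : Type*} {c : ι → Fin 3 → ℝ} {r R : ι → ℝ}

open Classical in
/-- the sum of the relative radii of the cubes near `x` -/
noncomputable def wt (c : ι → Fin 3 → ℝ) (r R : ι → ℝ) (s : Finset ι) (x : Fin 3 → ℝ) : ℝ :=
  ∑ j ∈ s.filter (fun j => ‖x - c j‖ ≤ 4 * R j), r j / R j

open Classical in
/-- twice the sum of the radii of the cubes near `x` -/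
noncomputable def dsp (c : ι → Fin 3 → ℝ) (r R : ι → ℝ) (s : Finset ι) (x : Fin 3 → ℝ) : ℝ :=
  ∑ j ∈ s.filter (fun j => ‖x - c j‖ ≤ 4 * R j), 2 * r j

theorem wt_insert_near {s : Finset ι} [DecidableEq ι] {j : ι} (hj : j ∉ s) {x : Fin 3 → ℝ}
    (h : ‖x - c j‖ ≤ 4 * R j) : wt c r R (insert j s) x = r j / R j + wt c r R s x := by
  classical
  unfold wt
  rw [Finset.filter_insert, if_pos h, Finset.sum_insert]
  exact fun hc => hj (Finset.mem_of_mem_filter _ hc)

theorem wt_insert_le {s : Finset ι} [DecidableEq ι] {j : ι} (hj : j ∉ s) (h0 : 0 ≤ r j / R j)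
    (x : Fin 3 → ℝ) : wt c r R s x ≤ wt c r R (insert j s) x := by
  classical
  by_cases h : ‖x - c j‖ ≤ 4 * R j
  · rw [wt_insert_near hj h]; linarith
  · unfold wt
    rw [Finset.filter_insert, if_neg h]

theorem dsp_insert_near {s : Finset ι} [DecidableEq ι] {j : ι} (hj : j ∉ s) {x : Fin 3 → ℝ}
    (h : ‖x - c j‖ ≤ 4 * R j) : dsp c r R (insert j s) x = 2 * r j + dsp c r R s x := by
  classical
  unfold dsp
  rw [Finset.filter_insert, if_pos h, Finset.sum_insert]
  exact fun hc => hj (Finset.mem_of_mem_filter _ hc)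

theorem dsp_insert_le {s : Finset ι} [DecidableEq ι] {j : ι} (hj : j ∉ s) (h0 : 0 ≤ r j)
    (x : Fin 3 → ℝ) : dsp c r R s x ≤ dsp c r R (insert j s) x := by
  classical
  by_cases h : ‖x - c j‖ ≤ 4 * R j
  · rw [dsp_insert_near hj h]; linarith
  · unfold dsp
    rw [Finset.filter_insert, if_neg h]

theorem wt_nonneg {s : Finset ι} (h : ∀ j ∈ s, 0 ≤ r j / R j) (x : Fin 3 → ℝ) :
    0 ≤ wt c r R s x := by
  classical
  exact Finset.sum_nonneg fun j hj => h j (Finset.mem_of_mem_filter _ hj)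

theorem wt_mono {s t : Finset ι} (hst : s ⊆ t) (h : ∀ j ∈ t, 0 ≤ r j / R j) (x : Fin 3 → ℝ) :
    wt c r R s x ≤ wt c r R t x := by
  classical
  refine Finset.sum_le_sum_of_subset_of_nonneg (Finset.filter_subset_filter _ hst) ?_
  intro j hj _
  exact h j (Finset.mem_of_mem_filter _ hj)

/-- the standing hypotheses: cubes `closedBall (c j) (r j)`, a slowly varying scale `D`, and small
local sums of the relative radii -/
structure Hyp (c : ι → Fin 3 → ℝ) (r : ι → ℝ) (D : (Fin 3 → ℝ) → ℝ) (J : Finset ι)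
    (ε d₀ : ℝ) : Prop where
  hr : ∀ j ∈ J, 0 ≤ r j
  hd : 0 < d₀
  hD : ∀ x, d₀ ≤ D x
  hDl : ∀ x y, |D x - D y| ≤ ‖x - y‖ / 16
  hε0 : 0 ≤ ε
  hε : ε ≤ 1 / 40
  hw : ∀ x, wt c r (fun j => D (c j)) J x ≤ ε

/-- the output for the cubes `s` -/
structure Col (c : ι → Fin 3 → ℝ) (r : ι → ℝ) (D : (Fin 3 → ℝ) → ℝ) (s : Finset ι) (i₀ : ℝ)
    (T : (Fin 3 → ℝ) → Fin 3 → ℝ) : Prop where
  id : ∀ x, (∀ j ∈ s, 2 * D (c j) < ‖x - c j‖) → T x = x
  disp : ∀ x, ‖T x - x‖ ≤ dsp c r (fun j => D (c j)) s x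
  lipn : ∀ x y, ‖x - y‖ ≤ D x / 2 →
    ‖T x - T y‖ ≤ Real.exp (24 * wt c r (fun j => D (c j)) s x) * ‖x - y‖
  lip : ∀ x y i, ‖x - y‖ ≤ D x / 2 →
    |T x i - T y i| ≤ Real.exp (24 * wt c r (fun j => D (c j)) s x) * |x i - y i| +
      (Real.exp (24 * wt c r (fun j => D (c j)) s x) ^ 2 -
        Real.exp (24 * wt c r (fun j => D (c j)) s x)) * ‖x - y‖
  sq : ∀ j ∈ s, ∀ x y, ‖x - c j‖ ≤ r j → ‖y - c j‖ ≤ r j →
    ‖T x - T y‖ ≤ i₀ * Real.exp (24 * wt c r (fun j => D (c j)) s x) * ‖x - y‖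

theorem exp_bd {q : ℝ} (hq : 0 ≤ q) : (1 + 8 * q) ^ 3 ≤ Real.exp (24 * q) := by
  have h1 : 1 + 8 * q ≤ Real.exp (8 * q) := by
    have := Real.add_one_le_exp (8 * q); linarith
  calc (1 + 8 * q) ^ 3 ≤ (Real.exp (8 * q)) ^ 3 := by gcongr
    _ = Real.exp (24 * q) := by rw [← Real.exp_nat_mul]; congr 1; push_cast; ring

namespace Hyp

variable {D : (Fin 3 → ℝ) → ℝ} {J : Finset ι} {ε d₀ : ℝ}

theorem Dpos (H : Hyp c r D J ε d₀) (x : Fin 3 → ℝ) : 0 < D x := H.hd.trans_le (H.hD x)

theorem q_nonneg (H : Hyp c r D J ε d₀) {j : ι} (hj : j ∈ J) : 0 ≤ r j / D (c j) :=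
  div_nonneg (H.hr j hj) (H.Dpos _).le

theorem D_le (H : Hyp c r D J ε d₀) (x y : Fin 3 → ℝ) : D x ≤ D y + ‖x - y‖ / 16 := by
  have := (abs_le.1 (H.hDl x y)).2; linarith

/-- the displacement bound -/
theorem dsp_le (H : Hyp c r D J ε d₀) {s : Finset ι} (hs : s ⊆ J) (x : Fin 3 → ℝ) :
    dsp c r (fun j => D (c j)) s x ≤ 3 * ε * D x := by
  classical
  have h1 : dsp c r (fun j => D (c j)) s x ≤ 3 * D x * wt c r (fun j => D (c j)) s x := by
    unfold dsp wt
    rw [Finset.mul_sum]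
    refine Finset.sum_le_sum fun j hj => ?_
    rw [Finset.mem_filter] at hj
    have hjJ := hs hj.1
    have hDj := H.Dpos (c j)
    have h2 : D (c j) ≤ D x + ‖c j - x‖ / 16 := H.D_le _ _
    rw [norm_sub_rev] at h2
    have h3 : 3 * D (c j) ≤ 4 * D x := by linarith [hj.2]
    have h4 := H.hr j hjJ
    rw [mul_div_assoc', le_div_iff₀ hDj]
    nlinarith
  have h2 := (wt_mono (c := c) hs (fun j hj => H.q_nonneg hj) x).trans (H.hw x)
  have := H.Dpos x
  calc dsp c r (fun j => D (c j)) s x ≤ 3 * D x * wt c r (fun j => D (c j)) s x := h1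
    _ ≤ 3 * D x * ε := by gcongr
    _ = 3 * ε * D x := by ring

theorem q_le (H : Hyp c r D J ε d₀) {j : ι} (hj : j ∈ J) : r j / D (c j) ≤ ε := by
  classical
  refine le_trans ?_ (H.hw (c j))
  unfold wt
  have h1 : j ∈ J.filter (fun i => ‖c j - c i‖ ≤ 4 * D (c i)) := by
    rw [Finset.mem_filter]
    refine ⟨hj, ?_⟩
    rw [sub_self, norm_zero]
    have := H.Dpos (c j)
    positivity
  exact Finset.single_le_sum (f := fun j => r j / D (c j))
    (fun i hi => H.q_nonneg (Finset.mem_of_mem_filter _ hi)) h1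

theorem r_le (H : Hyp c r D J ε d₀) {j : ι} (hj : j ∈ J) : r j ≤ ε * D (c j) := by
  have := H.q_le hj
  rwa [div_le_iff₀ (H.Dpos _)] at this

/-- if the moved point is near the moved centre then the points are near -/
theorem near_of (H : Hyp c r D J ε d₀) {s : Finset ι} (hs : s ⊆ J) {i₀ : ℝ}
    {T : (Fin 3 → ℝ) → Fin 3 → ℝ} (hT : Col c r D s i₀ T) {j : ι} {y : Fin 3 → ℝ}
    (h : ‖T y - T (c j)‖ ≤ D (c j)) : ‖y - c j‖ ≤ 2 * D (c j) := by
  have h1 := (hT.disp y).trans (H.dsp_le hs y)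
  have h2 := (hT.disp (c j)).trans (H.dsp_le hs (c j))
  have h3 := H.D_le y (c j)
  have h4 : ‖y - c j‖ ≤ ‖T y - y‖ + ‖T y - T (c j)‖ + ‖T (c j) - c j‖ := by
    have e : y - c j = -(T y - y) + (T y - T (c j)) + (T (c j) - c j) := by abel
    calc ‖y - c j‖ = ‖-(T y - y) + (T y - T (c j)) + (T (c j) - c j)‖ := by rw [← e]
      _ ≤ ‖-(T y - y)‖ + ‖T y - T (c j)‖ + ‖T (c j) - c j‖ := norm_add₃_le
      _ = _ := by rw [norm_neg]
  have h5 := H.hε
  have h6 := H.hε0
  have h7 := H.Dpos y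
  have h8 := H.Dpos (c j)
  have h9 : 3 * ε * D y ≤ 3 * (1 / 40) * D y := by gcongr
  have h10 : 3 * ε * D (c j) ≤ 3 * (1 / 40) * D (c j) := by gcongr
  nlinarith [norm_nonneg (y - c j)]

/-- **one step** -/
theorem step (H : Hyp c r D J ε d₀) [DecidableEq ι] {s : Finset ι} {j : ι} (hs : insert j s ⊆ J)
    (hjs : j ∉ s) {i₀ : ℝ} (hi : 0 < i₀) {T : (Fin 3 → ℝ) → Fin 3 → ℝ} (hT : Col c r D s i₀ T)
    {S : (Fin 3 → ℝ) → Fin 3 → ℝ} {l : ℝ} (hl : l ≤ i₀)
    (hl0 : 0 ≤ l) (hS : Atom (T (c j)) (2 * r j) (D (c j)) l S) :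
    Col c r D (insert j s) i₀ (S ∘ T) := by
  have hjJ : j ∈ J := hs (Finset.mem_insert_self j s)
  have hsJ : s ⊆ J := (Finset.subset_insert j s).trans hs
  have hDj := H.Dpos (c j)
  have hq0 := H.q_nonneg hjJ
  have hrj := H.hr j hjJ
  set W := fun x => wt c r (fun j => D (c j)) s x with hW
  set q := r j / D (c j) with hq
  set e := Real.exp (24 * q) with he
  have he1 : 1 ≤ e := Real.one_le_exp (by positivity)
  have hee := exp_bd hq0
  have hq8 : 4 * (2 * r j) / D (c j) = 8 * q := by rw [hq]; ring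
  have hq4 : 2 * (2 * r j) / D (c j) = 4 * q := by rw [hq]; ring
  -- the Lipschitz bounds of `S`
  have Sn : ∀ a b, ‖S a - S b‖ ≤ e * ‖a - b‖ := by
    intro a b
    refine (hS.lipn a b).trans ?_
    rw [hq8]
    gcongr
  have Sl : ∀ a b i, |S a i - S b i| ≤ e * |a i - b i| + (e - 1) * ‖a - b‖ := by
    intro a b i
    refine (hS.lip a b i).trans ?_
    rw [hq8, hq4]
    have h1 : 1 + 4 * q ≤ e := by nlinarith [sq_nonneg q, mul_nonneg hq0 (sq_nonneg q)]
    have h2 : 4 * q * (1 + 8 * q) ^ 2 ≤ e - 1 := by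
      have : 4 * q * (1 + 8 * q) ^ 2 ≤ (1 + 8 * q) ^ 3 - 1 := by
        nlinarith [sq_nonneg q, mul_nonneg hq0 (sq_nonneg q)]
      linarith
    gcongr
  -- the dichotomy
  have dich : ∀ x y, ‖x - y‖ ≤ D x / 2 → (S (T x) = T x ∧ S (T y) = T y) ∨
      ‖x - c j‖ ≤ 4 * D (c j) := by
    intro x y hxy
    by_cases h1 : D (c j) ≤ ‖T x - T (c j)‖
    · by_cases h2 : D (c j) ≤ ‖T y - T (c j)‖
      · exact Or.inl ⟨hS.id _ h1, hS.id _ h2⟩
      · right
        have h3 := H.near_of hsJ hT (not_le.1 h2).le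
        have h4 : ‖x - c j‖ ≤ ‖x - y‖ + ‖y - c j‖ := by
          have := norm_add_le (x - y) (y - c j); simpa using this
        have h5 := H.D_le x (c j)
        nlinarith
    · right
      have h3 := H.near_of hsJ hT (not_le.1 h1).le
      linarith
  have wle : ∀ x, Real.exp (24 * W x) ≤
      Real.exp (24 * wt c r (fun j => D (c j)) (insert j s) x) := by
    intro x
    refine Real.exp_le_exp.2 ?_
    have := wt_insert_le (c := c) (r := r) (R := fun j => D (c j)) hjs hq0 x
    linarith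
  have weq : ∀ x, ‖x - c j‖ ≤ 4 * D (c j) →
      Real.exp (24 * wt c r (fun j => D (c j)) (insert j s) x) = e * Real.exp (24 * W x) := by
    intro x hx
    rw [wt_insert_near (R := fun j => D (c j)) hjs hx, he, ← Real.exp_add]
    congr 1
    rw [hW]; ring
  have E1 : ∀ x, 1 ≤ Real.exp (24 * W x) := by
    intro x
    refine Real.one_le_exp ?_
    have : 0 ≤ W x := wt_nonneg (fun i hi => H.q_nonneg (hsJ hi)) x
    positivity
  refine ⟨?_, ?_, ?_, ?_, ?_⟩
  · intro x hx
    have h1 : T x = x := hT.id x fun i hi => hx i (Finset.mem_insert_of_mem hi)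
    have h2 := hx j (Finset.mem_insert_self j s)
    rw [Function.comp_apply, h1]
    refine hS.id x ?_
    by_contra hcon
    have h3 : ‖T x - T (c j)‖ ≤ D (c j) := by rw [h1]; exact (not_le.1 hcon).le
    have := H.near_of hsJ hT h3
    linarith
  · intro x
    rw [Function.comp_apply]
    by_cases h1 : D (c j) ≤ ‖T x - T (c j)‖
    · rw [hS.id _ h1]
      exact (hT.disp x).trans (dsp_insert_le hjs hrj x)
    · have h2 := H.near_of hsJ hT (not_le.1 h1).le
      rw [dsp_insert_near (R := fun j => D (c j)) hjs (by show ‖x - c j‖ ≤ 4 * D (c j); linarith)]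
      have h3 := hS.disp (T x)
      have h4 := hT.disp x
      have h5 : ‖S (T x) - x‖ ≤ ‖S (T x) - T x‖ + ‖T x - x‖ := by
        have := norm_add_le (S (T x) - T x) (T x - x); simpa using this
      linarith
  · intro x y hxy
    have h0 := hT.lipn x y hxy
    simp only [Function.comp_apply]
    rcases dich x y hxy with ⟨h1, h2⟩ | h1
    · rw [h1, h2]
      exact h0.trans (mul_le_mul_of_nonneg_right (wle x) (norm_nonneg _))
    · rw [weq x h1]
      calc ‖S (T x) - S (T y)‖ ≤ e * ‖T x - T y‖ := Sn _ _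
        _ ≤ e * (Real.exp (24 * W x) * ‖x - y‖) := by gcongr
        _ = e * Real.exp (24 * W x) * ‖x - y‖ := by ring
  · intro x y i hxy
    have h0 := hT.lip x y i hxy
    have h0n := hT.lipn x y hxy
    simp only [Function.comp_apply]
    have hE := E1 x
    set E := Real.exp (24 * W x) with hEdef
    rcases dich x y hxy with ⟨h1, h2⟩ | h1
    · rw [h1, h2]
      have h3 := wle x
      set E' := Real.exp (24 * wt c r (fun j => D (c j)) (insert j s) x)
      have h4 : E ^ 2 - E ≤ E' ^ 2 - E' := by nlinarith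
      refine h0.trans ?_
      gcongr
    · rw [weq x h1]
      have h5 : (e - 1) * ‖T x - T y‖ ≤ (e - 1) * (E * ‖x - y‖) :=
        mul_le_mul_of_nonneg_left h0n (by linarith)
      have h6 : e * |T x i - T y i| ≤ e * (E * |x i - y i| + (E ^ 2 - E) * ‖x - y‖) :=
        mul_le_mul_of_nonneg_left h0 (by linarith)
      have h7 : 0 ≤ (e - 1) * E * (e * E - 1) * ‖x - y‖ := by
        have : 1 ≤ e * E := by nlinarith
        have : 0 ≤ (e - 1) * E := mul_nonneg (by linarith) (by linarith)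
        positivity
      calc |S (T x) i - S (T y) i| ≤ e * |T x i - T y i| + (e - 1) * ‖T x - T y‖ := Sl _ _ _
        _ ≤ e * (E * |x i - y i| + (E ^ 2 - E) * ‖x - y‖) + (e - 1) * (E * ‖x - y‖) := by
            linarith
        _ ≤ e * E * |x i - y i| + ((e * E) ^ 2 - e * E) * ‖x - y‖ := by nlinarith
  · intro i hi' x y hx hy
    simp only [Function.comp_apply]
    rcases Finset.mem_insert.1 hi' with rfl | hi'
    · -- the new cube
      have hE2 : Real.exp (24 * W (c i)) ≤ 2 := by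
        have h3 : W (c i) ≤ ε :=
          (wt_mono (c := c) hsJ (fun j hj => H.q_nonneg hj) (c i)).trans (H.hw (c i))
        have h4 : 24 * W (c i) ≤ 3 / 5 := by have := H.hε; linarith
        have h5 : 0 ≤ W (c i) := wt_nonneg (fun i hi => H.q_nonneg (hsJ hi)) (c i)
        have h6 := Real.abs_exp_sub_one_sub_id_le (x := 24 * W (c i)) (by
          rw [abs_of_nonneg (by positivity)]; linarith)
        have h7 := (abs_le.1 h6).2
        nlinarith
      have h3 : ∀ z, ‖z - c i‖ ≤ r i → ‖T z - T (c i)‖ ≤ 2 * r i := by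
        intro z hz
        have h1 : ‖c i - z‖ ≤ D (c i) / 2 := by
          rw [norm_sub_rev]
          have := H.r_le hjJ
          have := H.hε
          nlinarith
        have h2 := hT.lipn (c i) z h1
        rw [norm_sub_rev]
        rw [norm_sub_rev (c i) z] at h2
        exact h2.trans (mul_le_mul hE2 hz (norm_nonneg _) (by norm_num))
      have hxy : ‖x - y‖ ≤ D x / 2 := by
        have h1 : ‖x - y‖ ≤ ‖x - c i‖ + ‖y - c i‖ := by
          have := norm_sub_le (x - c i) (y - c i)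
          simpa using this
        have h2 := H.D_le (c i) x
        rw [norm_sub_rev] at h2
        have := H.r_le hjJ
        have := H.hε
        nlinarith
      have h4 := hT.lipn x y hxy
      rw [hS.sq _ (h3 x hx), hS.sq _ (h3 y hy)]
      have e1 : T (c i) + l • (T x - T (c i)) - (T (c i) + l • (T y - T (c i))) =
          l • (T x - T y) := by
        rw [add_sub_add_left_eq_sub, ← smul_sub, sub_sub_sub_cancel_right]
      rw [e1, norm_smul, Real.norm_of_nonneg hl0]
      calc l * ‖T x - T y‖ ≤ i₀ * (Real.exp (24 * W x) * ‖x - y‖) := by gcongr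
        _ = i₀ * Real.exp (24 * W x) * ‖x - y‖ := by ring
        _ ≤ i₀ * Real.exp (24 * wt c r (fun j => D (c j)) (insert i s) x) * ‖x - y‖ := by
            have := wle x
            gcongr
    · have hiJ := hsJ hi'
      have hxy : ‖x - y‖ ≤ D x / 2 := by
        have h1 : ‖x - y‖ ≤ ‖x - c i‖ + ‖y - c i‖ := by
          have := norm_sub_le (x - c i) (y - c i)
          simpa using this
        have h2 := H.D_le (c i) x
        rw [norm_sub_rev] at h2
        have := H.r_le hiJ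
        have := H.hε
        have := H.Dpos (c i)
        nlinarith
      have h2 := hT.sq i hi' x y hx hy
      rcases dich x y hxy with ⟨h3, h4⟩ | h3
      · rw [h3, h4]
        refine h2.trans ?_
        have := wle x
        gcongr
      · rw [weq _ h3]
        calc ‖S (T x) - S (T y)‖ ≤ e * ‖T x - T y‖ := Sn _ _
          _ ≤ e * (i₀ * Real.exp (24 * W x) * ‖x - y‖) := by gcongr
          _ = i₀ * (e * Real.exp (24 * W x)) * ‖x - y‖ := by ring

/-- all cubes -/
theorem exists_col (H : Hyp c r D J ε d₀) {i₀ : ℝ} (hi : 0 < i₀) :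
    ∃ T : ConHomeo (univ : Set (Fin 3 → ℝ)) univ, Col c r D J i₀ T.toFun := by
  classical
  suffices h : ∀ s : Finset ι, s ⊆ J →
      ∃ T : ConHomeo (univ : Set (Fin 3 → ℝ)) univ, Col c r D s i₀ T.toFun from h J Subset.rfl
  intro s
  induction s using Finset.induction_on with
  | empty =>
    intro _
    refine ⟨ConHomeo.refl isOpen_univ.conicalSet, ?_, ?_, ?_, ?_, ?_⟩
    · intro x _; rfl
    · intro x
      show ‖x - x‖ ≤ _
      rw [sub_self, norm_zero]
      unfold dsp
      simp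
    · intro x y _
      show ‖x - y‖ ≤ _
      unfold wt
      simp
    · intro x y i _
      show |x i - y i| ≤ _
      unfold wt
      simp
    · intro j hj; exact absurd hj (Finset.notMem_empty j)
  | insert j s hjs ih =>
    intro hs
    obtain ⟨T, hT⟩ := ih ((Finset.subset_insert j s).trans hs)
    have hjJ : j ∈ J := hs (Finset.mem_insert_self j s)
    have hrj := H.hr j hjJ
    obtain ⟨S, hS⟩ := exists_atom (ρ := 2 * r j) (R := D (c j))
      (l := min 1 i₀) (by positivity) (H.Dpos _) (by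
        have := H.r_le hjJ
        have := H.hε
        have := H.Dpos (c j)
        nlinarith) (lt_min one_pos hi) (min_le_left _ _) (T.toFun (c j))
    exact ⟨T.trans S, H.step hs hjs hi hT (min_le_right _ _) (le_min zero_le_one hi.le) hS⟩

end Hyp

end

/-- the final form of the output -/
structure IsColB {ι : Type*} (c : ι → Fin 3 → ℝ) (r : ι → ℝ) (D : (Fin 3 → ℝ) → ℝ)
    (J : Finset ι) (ε l₀ : ℝ) (T : (Fin 3 → ℝ) → Fin 3 → ℝ) : Prop where
  /-- the support -/
  id : ∀ x, (∀ j ∈ J, 2 * D (c j) < ‖x - c j‖) → T x = x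
  /-- closeness -/
  disp : ∀ x, ‖T x - x‖ ≤ 3 * ε * D x
  /-- Lipschitz constant in the sup norm -/
  lipn : ∀ x y, ‖T x - T y‖ ≤ (1 + 48 * ε) * ‖x - y‖
  /-- almost coordinatewise Lipschitz -/
  lip : ∀ x y i, |T x i - T y i| ≤ (1 + 48 * ε) * |x i - y i| + 96 * ε * ‖x - y‖
  /-- the cubes are collapsed, with an arbitrarily small Lipschitz constant -/
  sq : ∀ j ∈ J, ∀ x, ‖x - c j‖ ≤ r j → ∀ y, ‖y - c j‖ ≤ r j → ‖T x - T y‖ ≤ l₀ * ‖x - y‖

/-- **[COLB]** -/
theorem exists_colB {ι : Type*} {c : ι → Fin 3 → ℝ} {r : ι → ℝ} {D : (Fin 3 → ℝ) → ℝ}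
    {J : Finset ι} {ε d₀ : ℝ} (H : Hyp c r D J ε d₀) {l₀ : ℝ} (hi : 0 < l₀)
    {Λ : Set (Fin 3 → ℝ)} (hΛ : IsOpen Λ) (hJ : ∀ j ∈ J, closedBall (c j) (2 * D (c j)) ⊆ Λ) :
    ∃ T : ConHomeo Λ Λ, IsColB c r D J ε l₀ T.toFun ∧ ∀ x, x ∉ Λ → T.toFun x = x := by
  obtain ⟨T, hT⟩ := H.exists_col (i₀ := l₀ / 2) (by positivity)
  have hoff : ∀ x, x ∉ Λ → T.toFun x = x := by
    intro x hx
    refine hT.id x fun j hj => ?_
    by_contra hcon
    refine hx (hJ j hj ?_)
    rw [mem_closedBall, dist_eq_norm]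
    exact not_lt.1 hcon
  have hm : MapsTo T.toFun Λ Λ := by
    intro x hx
    by_contra hcon
    have h1 := hoff _ hcon
    have h2 := T.injOn (mem_univ _) (mem_univ _) h1
    rw [h2] at hcon
    exact hcon hx
  have hm' : MapsTo T.invFun Λ Λ := by
    intro x hx
    by_contra hcon
    have h1 := hoff _ hcon
    rw [T.right_inv (mem_univ x)] at h1
    rw [← h1] at hcon
    exact hcon hx
  have hw0 : ∀ x, 0 ≤ wt c r (fun j => D (c j)) J x := fun x =>
    wt_nonneg (fun i hi => H.q_nonneg hi) x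
  have hE1 : ∀ x, 1 ≤ Real.exp (24 * wt c r (fun j => D (c j)) J x) := fun x =>
    Real.one_le_exp (by have := hw0 x; positivity)
  have hE : ∀ x, Real.exp (24 * wt c r (fun j => D (c j)) J x) ≤ 1 + 48 * ε ∧
      Real.exp (24 * wt c r (fun j => D (c j)) J x) ≤ 2 := by
    intro x
    have h1 := H.hw x
    have h2 := hw0 x
    have h3 := H.hε
    have h4 := Real.abs_exp_sub_one_sub_id_le (x := 24 * wt c r (fun j => D (c j)) J x) (by
      rw [abs_of_nonneg (by positivity)]; linarith)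
    have h5 := (abs_le.1 h4).2
    constructor <;> nlinarith
  refine ⟨⟨T.toFun, T.invFun, hm, hm', fun x _ => T.left_inv (mem_univ x),
    fun x _ => T.right_inv (mem_univ x), T.cont.mono (subset_univ _),
    T.cont_inv.mono (subset_univ _), T.conical.mono hΛ.conicalSet (subset_univ _)⟩,
    ⟨hT.id, fun x => (hT.disp x).trans (H.dsp_le Subset.rfl x), ?_, ?_, ?_⟩, hoff⟩
  · have := norm_sub_le_of_small (f := T.toFun) (e := d₀ / 2) (by have := H.hd; positivity)
      (B := fun z => (1 + 48 * ε) * ‖z‖) (fun t x ht => by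
        show (1 + 48 * ε) * ‖t • x‖ = t * ((1 + 48 * ε) * ‖x‖)
        rw [norm_smul, Real.norm_of_nonneg ht]; ring) (fun x y hxy => by
        refine (hT.lipn x y (hxy.trans (by have := H.hD x; linarith))).trans ?_
        have := (hE x).1
        gcongr)
    exact this
  · intro x y i
    have := norm_sub_le_of_small (f := fun x => T.toFun x i) (e := d₀ / 2)
      (by have := H.hd; positivity)
      (B := fun z : Fin 3 → ℝ => (1 + 48 * ε) * |z i| + 96 * ε * ‖z‖) (fun t x ht => by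
        show (1 + 48 * ε) * |(t • x) i| + 96 * ε * ‖t • x‖ =
          t * ((1 + 48 * ε) * |x i| + 96 * ε * ‖x‖)
        rw [norm_smul, Real.norm_of_nonneg ht, Pi.smul_apply, smul_eq_mul, abs_mul,
          abs_of_nonneg ht]
        ring) (fun x y hxy => by
        rw [Real.norm_eq_abs]
        refine (hT.lip x y i (hxy.trans (by have := H.hD x; linarith))).trans ?_
        obtain ⟨h1, h2⟩ := hE x
        have h3 := hE1 x
        set E := Real.exp (24 * wt c r (fun j => D (c j)) J x)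
        have h4 : E ^ 2 - E ≤ 96 * ε := by nlinarith [H.hε0]
        show E * |x i - y i| + (E ^ 2 - E) * ‖x - y‖ ≤
          (1 + 48 * ε) * |x i - y i| + 96 * ε * ‖x - y‖
        gcongr) x y
    simpa [Real.norm_eq_abs] using this
  · intro j hj x hx y hy
    refine (hT.sq j hj x y hx hy).trans ?_
    have h3 := (hE x).2
    calc l₀ / 2 * Real.exp (24 * wt c r (fun j => D (c j)) J x) * ‖x - y‖
        ≤ l₀ / 2 * 2 * ‖x - y‖ := by gcongr
      _ = l₀ * ‖x - y‖ := by ring

end Vale.Agent.P073.H190
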