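import Vale.Agent.P073.H190.ColB2

/-!
# P073 / H190, [COLB]: constant scale, lengths of curves
-/

open Set Metric Topology Filter
open scoped ENNReal

namespace Vale.Agent.P073.H190

open _root_.P073

variable {ι : Type*} {c : ι → Fin 3 → ℝ} {r : ι → ℝ} {D : (Fin 3 → ℝ) → ℝ} {J : Finset ι}
  {ε l₀ : ℝ} {T : (Fin 3 → ℝ) → Fin 3 → ℝ}

/-- **[COLB], constant scale `R₀`** -/
theorem exists_colB_const {R₀ : ℝ} (hR : 0 < R₀) (hr : ∀ j ∈ J, 0 ≤ r j) (hε0 : 0 ≤ ε)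
    (hε : ε ≤ 1 / 40)
    (hw : ∀ x, ∀ s ⊆ J, (∀ j ∈ s, ‖x - c j‖ ≤ 4 * R₀) → ∑ j ∈ s, r j ≤ ε * R₀)
    {l₀ : ℝ} (hi : 0 < l₀) {Λ : Set (Fin 3 → ℝ)} (hΛ : IsOpen Λ)
    (hJ : ∀ j ∈ J, closedBall (c j) (2 * R₀) ⊆ Λ) :
    ∃ T : ConHomeo Λ Λ, IsColB c r (fun _ => R₀) J ε l₀ T.toFun ∧ ∀ x, x ∉ Λ → T.toFun x = x := by
  classical
  refine exists_colB (D := fun _ => R₀) (d₀ := R₀) ⟨hr, hR, fun _ => le_rfl, fun x y => ?_, hε0, hε,
    fun x => ?_⟩ hi hΛ hJ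
  · rw [sub_self, abs_zero]; positivity
  · unfold wt
    rw [← Finset.sum_div, div_le_iff₀ hR]
    refine hw x _ (Finset.filter_subset _ _) fun j hj => ?_
    exact (Finset.mem_filter.1 hj).2

namespace IsColB

/-- the cubes are collapsed: diameter -/
theorem sq_diam (H : IsColB c r D J ε l₀ T) (hl : 0 ≤ l₀) {j : ι} (hj : j ∈ J) {x y : Fin 3 → ℝ}
    (hx : ‖x - c j‖ ≤ r j) (hy : ‖y - c j‖ ≤ r j) : ‖T x - T y‖ ≤ l₀ * (2 * r j) := by
  refine (H.sq j hj x hx y hy).trans ?_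
  have h1 : ‖x - y‖ ≤ ‖x - c j‖ + ‖y - c j‖ := by
    have := norm_sub_le (x - c j) (y - c j)
    simpa using this
  gcongr
  linarith

/-- lengths of curves (sup norm) -/
theorem evar_le (H : IsColB c r D J ε l₀ T) (hε : 0 ≤ ε) (γ : ℝ → Fin 3 → ℝ) (s : Set ℝ) :
    eVariationOn (fun t => T (γ t)) s ≤ ENNReal.ofReal (1 + 48 * ε) * eVariationOn γ s := by
  refine iSup_le fun p => ?_
  calc ∑ k ∈ Finset.range p.1, edist (T (γ (p.2.1 (k + 1)))) (T (γ (p.2.1 k)))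
      ≤ ∑ k ∈ Finset.range p.1,
        ENNReal.ofReal (1 + 48 * ε) * edist (γ (p.2.1 (k + 1))) (γ (p.2.1 k)) := by
        refine Finset.sum_le_sum fun k _ => ?_
        rw [edist_dist, edist_dist, dist_eq_norm, dist_eq_norm, ← ENNReal.ofReal_mul (by positivity)]
        exact ENNReal.ofReal_le_ofReal (H.lipn _ _)
    _ = ENNReal.ofReal (1 + 48 * ε) *
        ∑ k ∈ Finset.range p.1, edist (γ (p.2.1 (k + 1))) (γ (p.2.1 k)) := by
        rw [Finset.mul_sum]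
    _ ≤ _ := by
        refine mul_le_mul le_rfl ?_ zero_le zero_le
        exact le_iSup (fun q : ℕ × { u : ℕ → ℝ // Monotone u ∧ ∀ i, u i ∈ s } =>
          ∑ k ∈ Finset.range q.1, edist (γ (q.2.1 (k + 1))) (γ (q.2.1 k))) p

/-- variation of one coordinate along a curve -/
theorem evar_coord_le (H : IsColB c r D J ε l₀ T) (hε : 0 ≤ ε) (γ : ℝ → Fin 3 → ℝ) (i : Fin 3)
    (s : Set ℝ) :
    eVariationOn (fun t => T (γ t) i) s ≤
      ENNReal.ofReal (1 + 48 * ε) * eVariationOn (fun t => γ t i) s +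
        ENNReal.ofReal (96 * ε) * eVariationOn γ s := by
  refine iSup_le fun p => ?_
  calc ∑ k ∈ Finset.range p.1, edist (T (γ (p.2.1 (k + 1))) i) (T (γ (p.2.1 k)) i)
      ≤ ∑ k ∈ Finset.range p.1,
        (ENNReal.ofReal (1 + 48 * ε) * edist (γ (p.2.1 (k + 1)) i) (γ (p.2.1 k) i) +
          ENNReal.ofReal (96 * ε) * edist (γ (p.2.1 (k + 1))) (γ (p.2.1 k))) := by
        refine Finset.sum_le_sum fun k _ => ?_
        rw [edist_dist, edist_dist, edist_dist, dist_eq_norm, dist_eq_norm, dist_eq_norm,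
          ← ENNReal.ofReal_mul (by positivity), ← ENNReal.ofReal_mul (by positivity),
          ← ENNReal.ofReal_add (by positivity) (by positivity)]
        refine ENNReal.ofReal_le_ofReal ?_
        simpa [Real.norm_eq_abs] using H.lip (γ (p.2.1 (k + 1))) (γ (p.2.1 k)) i
    _ = ENNReal.ofReal (1 + 48 * ε) *
          ∑ k ∈ Finset.range p.1, edist (γ (p.2.1 (k + 1)) i) (γ (p.2.1 k) i) +
        ENNReal.ofReal (96 * ε) *
          ∑ k ∈ Finset.range p.1, edist (γ (p.2.1 (k + 1))) (γ (p.2.1 k)) := by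
        rw [Finset.sum_add_distrib, Finset.mul_sum, Finset.mul_sum]
    _ ≤ _ := by
        refine add_le_add (mul_le_mul le_rfl ?_ zero_le zero_le)
          (mul_le_mul le_rfl ?_ zero_le zero_le)
        · exact le_iSup (fun q : ℕ × { u : ℕ → ℝ // Monotone u ∧ ∀ i, u i ∈ s } =>
            ∑ k ∈ Finset.range q.1, edist (γ (q.2.1 (k + 1)) i) (γ (q.2.1 k) i)) p
        · exact le_iSup (fun q : ℕ × { u : ℕ → ℝ // Monotone u ∧ ∀ i, u i ∈ s } =>
            ∑ k ∈ Finset.range q.1, edist (γ (q.2.1 (k + 1))) (γ (q.2.1 k))) p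

/-- lengths of the part of a curve in one of the cubes (sup norm) -/
theorem evar_sq_le (H : IsColB c r D J ε l₀ T) (hl : 0 ≤ l₀) (γ : ℝ → Fin 3 → ℝ) {j : ι}
    (hj : j ∈ J) {s : Set ℝ} (hs : ∀ t ∈ s, ‖γ t - c j‖ ≤ r j) :
    eVariationOn (fun t => T (γ t)) s ≤ ENNReal.ofReal l₀ * eVariationOn γ s := by
  refine iSup_le fun p => ?_
  calc ∑ k ∈ Finset.range p.1, edist (T (γ (p.2.1 (k + 1)))) (T (γ (p.2.1 k)))
      ≤ ∑ k ∈ Finset.range p.1,
        ENNReal.ofReal l₀ * edist (γ (p.2.1 (k + 1))) (γ (p.2.1 k)) := by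
        refine Finset.sum_le_sum fun k _ => ?_
        rw [edist_dist, edist_dist, dist_eq_norm, dist_eq_norm, ← ENNReal.ofReal_mul hl]
        exact ENNReal.ofReal_le_ofReal (H.sq j hj _ (hs _ (p.2.2.2 _)) _ (hs _ (p.2.2.2 _)))
    _ = ENNReal.ofReal l₀ *
        ∑ k ∈ Finset.range p.1, edist (γ (p.2.1 (k + 1))) (γ (p.2.1 k)) := by
        rw [Finset.mul_sum]
    _ ≤ _ := by
        refine mul_le_mul le_rfl ?_ zero_le zero_le
        exact le_iSup (fun q : ℕ × { u : ℕ → ℝ // Monotone u ∧ ∀ i, u i ∈ s } =>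
          ∑ k ∈ Finset.range q.1, edist (γ (q.2.1 (k + 1))) (γ (q.2.1 k))) p

end IsColB

end Vale.Agent.P073.H190
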