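import Vale.Agent.P073.H761.C1
import Vale.Agent.P073.H253.BeamSpec

/-!
# P073: conical outputs with three dimensional energies (every exponent `p ≥ 1`)

For `p ≥ 3` the producers of the flat boxes (rank two) and of the beams (rank one) control the
three dimensional energy of the conical homeomorphism.  No cells and no squeeze are needed:
smoothing is enough.
-/

namespace Vale.Agent.P073.H190

open MeasureTheory Set Filter Topology Metric Vale.Agent.P073.LOC Vale.Agent.P073.H235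
open Vale.Agent.P073.H761
open Vale.Agent.P073.St (V Mat)
open Vale.Agent.P073.SQ (ev)
open _root_.P073 (ConHomeo)
open scoped ContDiff ENNReal

/-- energy of the directions `J` of the conical map `h` on `S`, with directional derivatives -/
noncomputable def EnL (p : ℝ) (h : V → V) (J : Finset (Fin 3)) (S : Set V) : ℝ≥0∞ :=
  ∑ j ∈ J, ∫⁻ x in S, ENNReal.ofReal (‖lineDeriv ℝ h x (ev j)‖ ^ p)

/-- `fderiv` is smaller than `lineDeriv` (it is `0` at the points of non differentiability) -/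
theorem norm_fderiv_le (h : V → V) (x v : V) : ‖fderiv ℝ h x v‖ ≤ ‖lineDeriv ℝ h x v‖ := by
  by_cases hd : DifferentiableAt ℝ h x
  · rw [hd.lineDeriv_eq_fderiv]
  · rw [fderiv_zero_of_not_differentiableAt hd]
    simp

theorem En_le_EnL {p : ℝ} (hp : 0 ≤ p) (h : V → V) (J : Finset (Fin 3)) (S : Set V) :
    En p h J S ≤ EnL p h J S := by
  unfold En EnL
  refine Finset.sum_le_sum fun j _ => lintegral_mono fun x => ?_
  exact ENNReal.ofReal_le_ofReal (Real.rpow_le_rpow (norm_nonneg _) (norm_fderiv_le h x _) hp)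

/-- **smoothing on a box**, with three dimensional energies -/
theorem smooth_box {p : ℝ} (hp : 1 ≤ p) {a : V} (ha : ∀ i, 0 < a i) {Λ : Set V}
    (hΛ : St.IsBoundedDomain Λ) (h : ConHomeo (Bx a) Λ) (k : Fin 3) (c : ℝ) {F₀ : V → V}
    (hbd : BdClose (Bx a) F₀ h.toFun) {e₀ : ℝ} (he₀ : 0 < e₀)
    {ι κ : Type} [Countable ι] [Countable κ] (sa sd : ι → V)
    (η : ι → ℝ) (Q : κ → Set V) (η' : κ → ℝ)
    (hd : ∀ i, sd i ≠ 0)
    (hseg : ∀ i, segment ℝ (sa i) (sa i + sd i) ⊆ Bx a)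
    (hsegf : ∀ K ⊆ Bx a, IsCompact K → {i | (segment ℝ (sa i) (sa i + sd i) ∩ K).Nonempty}.Finite)
    (hη : ∀ i, 0 < η i)
    (hQ : ∀ q, IsCompact (Q q)) (hQΩ : ∀ q, ∀ x ∈ Q q, Function.update x k c ∈ Bx a)
    (hQf : ∀ K ⊆ Bx a, IsCompact K → {q | ∃ x ∈ Q q, Function.update x k c ∈ K}.Finite)
    (hη' : ∀ q, 0 < η' q) :
    ∃ g : V → V, St.IsDiffeo (Bx a) Λ g ∧ BdClose (Bx a) F₀ g ∧
      (∀ S, En p g Finset.univ (Bx a ∩ S) ≤
        ENNReal.ofReal (2 ^ p) * En p h.toFun Finset.univ (Bx a ∩ S) + ENNReal.ofReal e₀) ∧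
      (∀ i, ∫⁻ t in Icc (0:ℝ) 1, ENNReal.ofReal (‖fderiv ℝ g (sa i + t • sd i) (sd i) -
        deriv (fun s => h.toFun (sa i + s • sd i)) t‖ ^ p) ≤ ENNReal.ofReal (η i)) ∧
      ∀ q, ∀ j, j ≠ k → ∫⁻ x in Q q,
        ENNReal.ofReal (‖fderiv ℝ g (Function.update x k c) (ev j) -
          lineDeriv ℝ h.toFun (Function.update x k c) (ev j)‖ ^ p) ≤ ENNReal.ofReal (η' q) := by
  have hp0 : 0 ≤ p := by linarith
  have hΩ := isBoundedDomain_Bx ha
  have hcne : ((Bx a)ᶜ : Set V).Nonempty := ⟨0, fun h0 => lt_irrefl _ (h0 0).1⟩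
  have h2p : (0:ℝ) < 2 ^ p := by positivity
  obtain ⟨G, hG, -, hclose, hsegE, hface, hvol⟩ := _root_.P073.SMF.specSmooth
    _root_.P073.SM.specSM p (Bx a) Λ h (fun x => infDist x (Bx a)ᶜ) (e₀ / (3 * 2 ^ p)) hp hΩ hΛ
    (continuous_infDist_pt _).continuousOn
    (fun x hx => by
      rcases (infDist_nonneg (x := x) (s := (Bx a)ᶜ)).lt_or_eq with h1 | h1
      · exact h1
      · exfalso
        have h2 : x ∈ closure (Bx a)ᶜ := (mem_closure_iff_infDist_zero hcne).2 h1.symm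
        rw [(isOpen_box a).isClosed_compl.closure_eq] at h2
        exact h2 hx)
    (by positivity) ι inferInstance sa sd η hd hseg hsegf hη
    κ inferInstance (fun _ => k) (fun _ => c) Q η' hQ hQΩ hQf hη'
  refine ⟨G, hG, bdClose_of_close (isOpen_box a) (PK.isBounded_of_domain hΩ) hcne hbd hclose,
    ?_, hsegE, fun q j hj => hface q j hj⟩
  intro S
  have h1 := tri_sum hp0 Finset.univ (Bx a ∩ S) (fun j x => fderiv ℝ G x (ev j))
    (fun j x => fderiv ℝ h.toFun x (ev j)) fun j => by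
      have := measurable_fderiv_apply_const ℝ h.toFun (ev j)
      exact this
  refine h1.trans ?_
  rw [mul_add, add_comm]
  refine add_le_add le_rfl ?_
  have h2 : ∑ j : Fin 3, ∫⁻ x in Bx a ∩ S,
      ENNReal.ofReal (‖fderiv ℝ G x (ev j) - fderiv ℝ h.toFun x (ev j)‖ ^ p) ≤
        ENNReal.ofReal (e₀ / 2 ^ p) := by
    calc _ ≤ ∑ _j : Fin 3, ENNReal.ofReal (e₀ / (3 * 2 ^ p)) :=
          Finset.sum_le_sum fun j _ => (lintegral_mono_set inter_subset_left).trans (hvol j)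
      _ = ENNReal.ofReal (e₀ / 2 ^ p) := by
          rw [Finset.sum_const, Finset.card_univ, Fintype.card_fin, nsmul_eq_mul]
          rw [show ((3 : ℕ) : ℝ≥0∞) = ENNReal.ofReal 3 by norm_num,
            ← ENNReal.ofReal_mul (by norm_num)]
          congr 1
          field_simp
  calc _ ≤ ENNReal.ofReal (2 ^ p) * ENNReal.ofReal (e₀ / 2 ^ p) := mul_le_mul' le_rfl h2
    _ = ENNReal.ofReal e₀ := by
        rw [← ENNReal.ofReal_mul h2p.le]
        congr 1
        field_simp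

/-! ### Rank two -/

/-- rank two: the conical output with three dimensional energies; the middle plane is `x 2 = c`,
`|c - θ| ≤ τ` -/
def ConFlatB (p C θ ν τ ε : ℝ) (L : V →L[ℝ] V) (Λ : Set V) (f : V → V) : Prop :=
  ∃ (c : ℝ) (h : ConHomeo (Bx (fl θ)) Λ),
    |c - θ| ≤ τ ∧ BdClose (Bx (fl θ)) (cmp (fl θ) f) h.toFun ∧
    En p h.toFun Finset.univ (Bx (fl θ)) ≤ ENNReal.ofReal (C * θ) ∧
    En p h.toFun Finset.univ (Bx (fl θ) ∩ Fr (fl θ) (2 * ν) {0, 1}) ≤
      ENNReal.ofReal (C * ν * θ) ∧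
    ∑ j ∈ Finset.univ.erase (2 : Fin 3), ∫⁻ x in Bx 1 ∩ Co 1 (ν / 2) {0, 1},
      ENNReal.ofReal (‖lineDeriv ℝ h.toFun (Function.update x 2 c) (ev j) - L (ev j)‖ ^ p) ≤
        ENNReal.ofReal ε

/-- **producer, rank two** -/
def SpecConFlatB (p : ℝ) (L : V →L[ℝ] V) : Prop :=
  ∃ C > 0, ∀ ν, 0 < ν → ν ≤ 1 / 4 → ∃ θ₀ > 0, ∀ θ, 0 < θ → θ ≤ θ₀ → ∀ τ > 0, ∀ ε > 0, ∃ κ > 0,
    ∀ (Λ : Set V) (f : V → V) (F : V → Mat), Near p κ L Λ f F → ConFlatB p C θ ν τ ε L Λ f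

/-- the conclusion of `SpecC1`, a diffeomorphism with the same bounds, same plane -/
def FlatC (p C θ ν τ ε : ℝ) (L : V →L[ℝ] V) (Λ : Set V) (f : V → V) : Prop :=
  ∃ (c : ℝ) (g : V → V), |c - θ| ≤ τ ∧ St.IsDiffeo (Bx (fl θ)) Λ g ∧
      BdClose (Bx (fl θ)) (cmp (fl θ) f) g ∧
      En p g Finset.univ (Bx (fl θ)) ≤ ENNReal.ofReal (C * θ) ∧
      En p g Finset.univ (Bx (fl θ) ∩ Fr (fl θ) (2 * ν) {0, 1}) ≤ ENNReal.ofReal (C * ν * θ) ∧
      ∑ j ∈ Finset.univ.erase (2 : Fin 3), ∫⁻ x in Bx 1 ∩ Co 1 (ν / 2) {0, 1},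
        ENNReal.ofReal (‖fderiv ℝ g (Function.update x 2 c) (ev j) - L (ev j)‖ ^ p) ≤
          ENNReal.ofReal ε

/-- **(C1B)** -/
theorem specC1B {p : ℝ} (hp : 1 ≤ p) : ∃ D > 0, ∀ (C θ ν τ ε : ℝ) (L : V →L[ℝ] V) (Λ : Set V)
    (f : V → V), 0 < C → 0 < θ → 0 < ν → ν ≤ 1 / 4 → τ < θ → 0 < ε → St.IsBoundedDomain Λ →
    ConFlatB p C θ ν τ ε L Λ f → FlatC p (D * C) θ ν τ (D * ε) L Λ f := by
  have hp0 : 0 ≤ p := by linarith
  have h2p : (0:ℝ) < 2 ^ p := by positivity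
  refine ⟨2 ^ p + 1 + 3 * 2 ^ p, by positivity, ?_⟩
  intro C θ ν τ ε L Λ f hC hθ hν hν4 hτ hε hΛ hcon
  obtain ⟨c, h, hcθ, hbd, hE1, hE2, hmid⟩ := hcon
  have hab := abs_le.1 hcθ
  have hc0 : 0 < c := by linarith [hab.1]
  have hc2 : c < 2 * θ := by linarith [hab.2]
  have hQΩ : ∀ x ∈ core2 ν, Function.update x 2 c ∈ Bx (fl θ) := fun x hx =>
    core_mem hν hc0 hc2 hx
  obtain ⟨g, hg, hgbd, hgE, -, hgp⟩ := smooth_box hp (fun i => fl_pos' hθ i) hΛ h 2 c hbd
    (e₀ := C * ν * θ) (by positivity) (ι := Empty) (κ := Unit)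
    (fun i => i.elim) (fun i => i.elim) (fun i => i.elim)
    (fun _ => core2 ν) (fun _ => ε)
    (fun i => i.elim) (fun i => i.elim) (fun K _ _ => Set.toFinite _)
    (fun i => i.elim) (fun _ => isCompact_Icc) (fun _ => hQΩ) (fun K _ _ => Set.toFinite _)
    (fun _ => hε)
  have hbound : ∀ b : ℝ, C * ν * θ ≤ b → 2 ^ p * b + C * ν * θ ≤ (2 ^ p + 1 + 3 * 2 ^ p) * b := by
    intro b hb
    have hb0 : 0 ≤ b := le_trans (by positivity) hb
    have : 0 ≤ 3 * 2 ^ p * b := by positivity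
    nlinarith
  refine ⟨c, g, hcθ, hg, hgbd, ?_, ?_, ?_⟩
  · have h1 := hgE univ
    rw [inter_univ] at h1
    calc En p g Finset.univ (Bx (fl θ)) ≤ ENNReal.ofReal (2 ^ p) * ENNReal.ofReal (C * θ) +
          ENNReal.ofReal (C * ν * θ) := h1.trans (by gcongr)
      _ = ENNReal.ofReal (2 ^ p * (C * θ) + C * ν * θ) := by
          rw [← ENNReal.ofReal_mul h2p.le, ← ENNReal.ofReal_add (by positivity) (by positivity)]
      _ ≤ ENNReal.ofReal ((2 ^ p + 1 + 3 * 2 ^ p) * (C * θ)) := by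
          apply ENNReal.ofReal_le_ofReal
          refine hbound _ ?_
          have : C * θ * ν ≤ C * θ * 1 := by gcongr; linarith
          linarith
      _ = _ := by congr 1; ring
  · calc En p g Finset.univ (Bx (fl θ) ∩ Fr (fl θ) (2 * ν) {0, 1})
        ≤ ENNReal.ofReal (2 ^ p) * ENNReal.ofReal (C * ν * θ) + ENNReal.ofReal (C * ν * θ) :=
          (hgE _).trans (by gcongr)
      _ = ENNReal.ofReal (2 ^ p * (C * ν * θ) + C * ν * θ) := by
          rw [← ENNReal.ofReal_mul h2p.le, ← ENNReal.ofReal_add (by positivity) (by positivity)]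
      _ ≤ ENNReal.ofReal ((2 ^ p + 1 + 3 * 2 ^ p) * (C * ν * θ)) :=
          ENNReal.ofReal_le_ofReal (hbound _ le_rfl)
      _ = _ := by congr 1; ring
  · refine (tri_map hp0 (isOpen_box _) h.cont g (measurable_update 2 c) _
      ((measurableSet_Bx _).inter (measurableSet_Co' _ _ _))
      (fun x hx => hQΩ x (core_sub hx)) fun j => L (ev j)).trans ?_
    have e1 : ∑ j ∈ Finset.univ.erase (2 : Fin 3), ∫⁻ x in Bx 1 ∩ Co 1 (ν / 2) {0, 1},
        ENNReal.ofReal (‖fderiv ℝ g (Function.update x 2 c) (ev j) -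
          lineDeriv ℝ h.toFun (Function.update x 2 c) (ev j)‖ ^ p) ≤ ENNReal.ofReal (2 * ε) := by
      calc _ ≤ ∑ j ∈ Finset.univ.erase (2 : Fin 3), ENNReal.ofReal ε :=
            Finset.sum_le_sum fun j hj => (lintegral_mono_set core_sub).trans
              (hgp () j (Finset.ne_of_mem_erase hj))
        _ = _ := by
            rw [Finset.sum_const]
            have : (Finset.univ.erase (2 : Fin 3)).card = 2 := by decide
            rw [this, nsmul_eq_mul, ENNReal.ofReal_mul (by norm_num)]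
            norm_num
    calc _ ≤ ENNReal.ofReal (2 ^ p) * (ENNReal.ofReal (2 * ε) + ENNReal.ofReal ε) :=
          mul_le_mul' le_rfl (add_le_add e1 hmid)
      _ = ENNReal.ofReal (2 ^ p * (2 * ε + ε)) := by
          rw [← ENNReal.ofReal_add (by positivity) hε.le, ← ENNReal.ofReal_mul h2p.le]
      _ ≤ _ := by
          apply ENNReal.ofReal_le_ofReal
          have : 0 ≤ (2 ^ p + 1) * ε := by positivity
          nlinarith

end Vale.Agent.P073.H190
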