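import Vale.Agent.P073.H190.ConB

/-!
# P073: conical outputs with three dimensional energies, rank one (every exponent `p ≥ 1`)
-/

namespace Vale.Agent.P073.H190

open MeasureTheory Set Filter Topology Metric Vale.Agent.P073.LOC Vale.Agent.P073.H235
open Vale.Agent.P073.H761 Vale.Agent.P073.H253
open Vale.Agent.P073.St (V Mat)
open Vale.Agent.P073.SQ (ev)
open _root_.P073 (ConHomeo)
open scoped ContDiff ENNReal

/-! ### Lines -/

theorem deriv_seg (h : V → V) (a d : V) (t : ℝ) :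
    deriv (fun s : ℝ => h (a + s • d)) t = lineDeriv ℝ h (a + t • d) d := by
  unfold lineDeriv
  have : (fun s : ℝ => h (a + t • d + s • d)) = fun s : ℝ => (fun r : ℝ => h (a + r • d)) (t + s) := by
    funext s
    simp only
    congr 1
    rw [add_smul, add_assoc]
  rw [this, deriv_comp_const_add (fun r : ℝ => h (a + r • d)) t 0, add_zero]

theorem lpt_eq (c₁ c₂ a t b : ℝ) :
    lpt c₁ c₂ a + t • ((b - a) • ev 0) = lpt c₁ c₂ (a + t * (b - a)) := by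
  funext i
  fin_cases i <;> simp [lpt, ev]

/-- change of variables on the line `x 1 = c₁`, `x 2 = c₂` -/
theorem seg_line {p : ℝ} (hp : 0 ≤ p) (g h : V → V) (c₁ c₂ : ℝ) {a b : ℝ} (hab : a < b) :
    ∫⁻ u in Icc a b, ENNReal.ofReal (‖fderiv ℝ g (lpt c₁ c₂ u) (ev 0) -
        lineDeriv ℝ h (lpt c₁ c₂ u) (ev 0)‖ ^ p) =
      ENNReal.ofReal ((b - a) ^ (1 - p)) *
        ∫⁻ t in Icc (0:ℝ) 1, ENNReal.ofReal (‖fderiv ℝ g (lpt c₁ c₂ a + t • ((b - a) • ev 0))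
          ((b - a) • ev 0) - deriv (fun s => h (lpt c₁ c₂ a + s • ((b - a) • ev 0))) t‖ ^ p) := by
  have hba : 0 < b - a := by linarith
  have himg : (fun t : ℝ => a + t * (b - a)) '' Icc 0 1 = Icc a b := by
    ext u
    constructor
    · rintro ⟨t, ⟨h0, h1⟩, rfl⟩
      constructor
      · show a ≤ a + t * (b - a)
        nlinarith
      · show a + t * (b - a) ≤ b
        nlinarith
    · rintro ⟨h0, h1⟩
      refine ⟨(u - a) / (b - a), ⟨?_, ?_⟩, ?_⟩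
      · exact div_nonneg (by linarith) hba.le
      · rw [div_le_one hba]; linarith
      · show a + (u - a) / (b - a) * (b - a) = u
        rw [div_mul_cancel₀ _ hba.ne']; ring
  rw [← himg, lintegral_image_eq_lintegral_abs_deriv_mul measurableSet_Icc
    (f' := fun _ => b - a) (fun t _ => by
      have := ((hasDerivAt_id t).mul_const (b - a)).const_add a
      simpa using this.hasDerivWithinAt) (fun s _ t _ hst => by
      have h1 : s * (b - a) = t * (b - a) := by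
        have : a + s * (b - a) = a + t * (b - a) := hst
        linarith
      exact mul_right_cancel₀ hba.ne' h1),
    ← lintegral_const_mul' _ _ ENNReal.ofReal_ne_top]
  refine lintegral_congr fun t => ?_
  have e1 : (b - a) ^ (1 - p) * (b - a) ^ p = b - a := by
    rw [← Real.rpow_add hba, sub_add_cancel, Real.rpow_one]
  rw [deriv_seg, lpt_eq, map_smul, lineDeriv_smul, ← smul_sub, norm_smul,
    Real.norm_of_nonneg hba.le, abs_of_pos hba, Real.mul_rpow hba.le (norm_nonneg _),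
    ← ENNReal.ofReal_mul (by positivity), ← ENNReal.ofReal_mul (by positivity), ← mul_assoc, e1]

/-- `LineOK` is stable -/
theorem lineOK_perturb {p ε M τ a b e : ℝ} {w : V} {G G' : ℝ → V} (hp : 0 ≤ p) (hM : 1 ≤ M)
    (hε : 0 ≤ ε) (he : 0 ≤ e) (h : LineOK p ε M τ a b w G)
    (hG : AEMeasurable G (volume.restrict (Icc a b)))
    (hGG : ∫⁻ u in Icc a b, ENNReal.ofReal (‖G' u - G u‖ ^ p) ≤ ENNReal.ofReal e) :
    LineOK p (2 ^ p * (M ^ (p + 1) * e + ε)) M τ a b w G' := by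
  obtain ⟨ρ, h1, h2, h3, h4, h5, h6⟩ := h
  refine ⟨ρ, h1, h2, h3, h4, h5, ?_⟩
  have hM0 : 0 < M := by linarith
  have h2p : (0:ℝ) < 2 ^ p := by positivity
  have hρ : ∀ u, 0 < ρ u := fun u => lt_of_lt_of_le (by positivity) (h2 u).1
  have hpt : ∀ u, ENNReal.ofReal (‖(ρ u)⁻¹ • G' u - w‖ ^ p * ρ u) ≤
      ENNReal.ofReal (2 ^ p * M ^ (p + 1)) * ENNReal.ofReal (‖G' u - G u‖ ^ p) +
      ENNReal.ofReal (2 ^ p) * ENNReal.ofReal (‖(ρ u)⁻¹ • G u - w‖ ^ p * ρ u) := by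
    intro u
    have hu := hρ u
    have hinv : (ρ u)⁻¹ ≤ M := by
      rw [inv_le_comm₀ hu hM0]
      have := (h2 u).1
      rwa [one_div] at this
    rw [← ENNReal.ofReal_mul (by positivity), ← ENNReal.ofReal_mul (by positivity),
      ← ENNReal.ofReal_add (by positivity) (by positivity)]
    refine ENNReal.ofReal_le_ofReal ?_
    have e1 : (ρ u)⁻¹ • G' u - w = (ρ u)⁻¹ • (G' u - G u) + ((ρ u)⁻¹ • G u - w) := by
      rw [smul_sub]; abel
    have e2 : ‖(ρ u)⁻¹ • G' u - w‖ ≤ M * ‖G' u - G u‖ + ‖(ρ u)⁻¹ • G u - w‖ := by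
      rw [e1]
      refine (norm_add_le _ _).trans (add_le_add ?_ le_rfl)
      rw [norm_smul, Real.norm_of_nonneg (by positivity)]
      gcongr
    set A := M * ‖G' u - G u‖ with hA
    set B := ‖(ρ u)⁻¹ • G u - w‖ with hB
    have hA0 : 0 ≤ A := by positivity
    have hB0 : 0 ≤ B := norm_nonneg _
    have e3 : (A + B) ^ p ≤ 2 ^ p * (A ^ p + B ^ p) := by
      rcases le_total A B with hAB | hAB
      · calc (A + B) ^ p ≤ (2 * B) ^ p := by
              apply Real.rpow_le_rpow (by positivity) (by linarith) hp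
          _ = 2 ^ p * B ^ p := Real.mul_rpow (by norm_num) hB0
          _ ≤ _ := by gcongr; have := Real.rpow_nonneg hA0 p; linarith
      · calc (A + B) ^ p ≤ (2 * A) ^ p := by
              apply Real.rpow_le_rpow (by positivity) (by linarith) hp
          _ = 2 ^ p * A ^ p := Real.mul_rpow (by norm_num) hA0
          _ ≤ _ := by gcongr; have := Real.rpow_nonneg hB0 p; linarith
    calc ‖(ρ u)⁻¹ • G' u - w‖ ^ p * ρ u ≤ (A + B) ^ p * ρ u := by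
          gcongr
      _ ≤ 2 ^ p * (A ^ p + B ^ p) * ρ u := by gcongr
      _ = 2 ^ p * (A ^ p * ρ u) + 2 ^ p * (B ^ p * ρ u) := by ring
      _ ≤ 2 ^ p * (A ^ p * M) + 2 ^ p * (B ^ p * ρ u) := by
          gcongr
          exact (h2 u).2
      _ = 2 ^ p * M ^ (p + 1) * ‖G' u - G u‖ ^ p + 2 ^ p * (B ^ p * ρ u) := by
          rw [hA, Real.mul_rpow hM0.le (norm_nonneg _), Real.rpow_add hM0, Real.rpow_one]
          ring
  calc ∫⁻ u in Icc a b, ENNReal.ofReal (‖(ρ u)⁻¹ • G' u - w‖ ^ p * ρ u)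
      ≤ ∫⁻ u in Icc a b, (ENNReal.ofReal (2 ^ p * M ^ (p + 1)) *
          ENNReal.ofReal (‖G' u - G u‖ ^ p) +
        ENNReal.ofReal (2 ^ p) * ENNReal.ofReal (‖(ρ u)⁻¹ • G u - w‖ ^ p * ρ u)) :=
        lintegral_mono hpt
    _ = (∫⁻ u in Icc a b, ENNReal.ofReal (2 ^ p * M ^ (p + 1)) *
          ENNReal.ofReal (‖G' u - G u‖ ^ p)) +
        ∫⁻ u in Icc a b, ENNReal.ofReal (2 ^ p) *
          ENNReal.ofReal (‖(ρ u)⁻¹ • G u - w‖ ^ p * ρ u) := by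
        refine lintegral_add_right' _ ?_
        have m1 : AEMeasurable (fun u => (ρ u)⁻¹ • G u - w) (volume.restrict (Icc a b)) :=
          (h1.inv.aemeasurable.smul hG).sub_const w
        exact (((m1.norm.pow_const p).mul h1.aemeasurable).ennreal_ofReal).const_mul _
    _ = ENNReal.ofReal (2 ^ p * M ^ (p + 1)) *
          (∫⁻ u in Icc a b, ENNReal.ofReal (‖G' u - G u‖ ^ p)) +
        ENNReal.ofReal (2 ^ p) *
          ∫⁻ u in Icc a b, ENNReal.ofReal (‖(ρ u)⁻¹ • G u - w‖ ^ p * ρ u) := by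
        rw [lintegral_const_mul' _ _ ENNReal.ofReal_ne_top,
          lintegral_const_mul' _ _ ENNReal.ofReal_ne_top]
    _ ≤ ENNReal.ofReal (2 ^ p * M ^ (p + 1)) * ENNReal.ofReal e +
        ENNReal.ofReal (2 ^ p) * ENNReal.ofReal ε := by gcongr
    _ = ENNReal.ofReal (2 ^ p * (M ^ (p + 1) * e + ε)) := by
        rw [← ENNReal.ofReal_mul (by positivity), ← ENNReal.ofReal_mul h2p.le,
          ← ENNReal.ofReal_add (by positivity) (by positivity)]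
        congr 1; ring

/-! ### Rank one -/

/-- the compact core of the plane `x 1 = c₁` -/
def core1 (θ₂ ν₁ : ℝ) : Set V :=
  Icc ![ν₁ / 8, 0, ν₁ / 8 * (2 * θ₂)] ![1 - ν₁ / 8, 1, (1 - ν₁ / 8) * (2 * θ₂)]

theorem core1_sub {θ₂ ν₁ : ℝ} : Bx (fl θ₂) ∩ Co (fl θ₂) (ν₁ / 2) {0, 2} ⊆ core1 θ₂ ν₁ := by
  rintro x ⟨hx, hc⟩
  have h0 := hc 0 (by simp)
  have h2 := hc 2 (by simp)
  have e0 : fl θ₂ 0 = 1 := rfl
  have e2 : fl θ₂ 2 = 2 * θ₂ := rfl
  rw [e0] at h0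
  rw [e2] at h2
  have h1 := hx 1
  have e1 : fl θ₂ 1 = 1 := rfl
  rw [e1] at h1
  have q1 : ν₁ / 2 / 4 = ν₁ / 8 := by ring
  rw [q1] at h0 h2
  constructor
  · intro i
    fin_cases i
    · show ν₁ / 8 ≤ x 0
      linarith [h0.1]
    · exact h1.1.le
    · exact h2.1
  · intro i
    fin_cases i
    · show x 0 ≤ 1 - ν₁ / 8
      linarith [h0.2]
    · exact h1.2.le
    · exact h2.2

theorem core1_mem {θ₁ θ₂ ν₁ c₁ : ℝ} (hθ₂ : 0 < θ₂) (hν : 0 < ν₁) (hc : 0 < c₁)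
    (hc' : c₁ < 2 * θ₁) {x : V} (hx : x ∈ core1 θ₂ ν₁) :
    Function.update x 1 c₁ ∈ Bx (bm θ₁ θ₂) := by
  have h0 : ν₁ / 8 ≤ x 0 := hx.1 0
  have h0' : x 0 ≤ 1 - ν₁ / 8 := hx.2 0
  have h2 : ν₁ / 8 * (2 * θ₂) ≤ x 2 := hx.1 2
  have h2' : x 2 ≤ (1 - ν₁ / 8) * (2 * θ₂) := hx.2 2
  intro i
  fin_cases i
  · show 0 < Function.update x 1 c₁ 0 ∧ Function.update x 1 c₁ 0 < 1
    rw [Function.update_of_ne (by decide)]
    constructor <;> linarith
  · show 0 < Function.update x 1 c₁ 1 ∧ Function.update x 1 c₁ 1 < 2 * θ₁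
    rw [Function.update_self]
    exact ⟨hc, hc'⟩
  · show 0 < Function.update x 1 c₁ 2 ∧ Function.update x 1 c₁ 2 < 2 * θ₂
    rw [Function.update_of_ne (by decide)]
    have : 0 < ν₁ / 8 * (2 * θ₂) := by positivity
    constructor
    · linarith
    · nlinarith

theorem lpt_mem {θ₁ θ₂ c₁ c₂ u : ℝ} (h1 : 0 < c₁) (h1' : c₁ < 2 * θ₁) (h2 : 0 < c₂)
    (h2' : c₂ < 2 * θ₂) (hu : 0 < u) (hu' : u < 1) : lpt c₁ c₂ u ∈ Bx (bm θ₁ θ₂) := by
  intro i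
  fin_cases i
  · exact ⟨hu, hu'⟩
  · exact ⟨h1, h1'⟩
  · exact ⟨h2, h2'⟩

theorem continuous_lpt (c₁ c₂ : ℝ) : Continuous (lpt c₁ c₂) := by
  refine continuous_pi fun i => ?_
  fin_cases i
  · exact continuous_id
  · exact continuous_const
  · exact continuous_const

theorem bm_pos {θ₁ θ₂ : ℝ} (h1 : 0 < θ₁) (h2 : 0 < θ₂) (i : Fin 3) : 0 < bm θ₁ θ₂ i := by
  fin_cases i
  · exact one_pos
  · show 0 < 2 * θ₁
    positivity
  · show 0 < 2 * θ₂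
    positivity

/-- rank one: the conical output with three dimensional energies; as helper253's `ConBeamT` -/
def ConBeamTB (p C M θ₁ θ₂ ν₁ ν τ ε : ℝ) (L : V →L[ℝ] V) (Λ : Set V) (f : V → V) : Prop :=
  ∃ (c₁ c₂ : ℝ) (h : ConHomeo (Bx (bm θ₁ θ₂)) Λ),
    |c₁ - θ₁| ≤ τ ∧ |c₂ - θ₂| ≤ τ ∧
    BdClose (Bx (bm θ₁ θ₂)) (cmp (bm θ₁ θ₂) f) h.toFun ∧
    En p h.toFun Finset.univ (Bx (bm θ₁ θ₂)) ≤ ENNReal.ofReal (C * θ₁ * θ₂) ∧
    En p h.toFun Finset.univ (Bx (bm θ₁ θ₂) ∩ Fr (bm θ₁ θ₂) (3 * ν₁) {0, 2}) ≤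
      ENNReal.ofReal (C * ν₁ * θ₁ * θ₂) ∧
    -- the plane `x 1 = c₁`
    ∑ j ∈ Finset.univ.erase (1 : Fin 3), ∫⁻ x in Bx (fl θ₂) ∩ Co (fl θ₂) (ν₁ / 2) {0, 2},
      ENNReal.ofReal (‖lineDeriv ℝ h.toFun (Function.update x 1 c₁) (ev j)‖ ^ p) ≤
        ENNReal.ofReal (C * θ₂) ∧
    ∑ j ∈ Finset.univ.erase (1 : Fin 3),
      ∫⁻ x in Bx (fl θ₂) ∩ Co (fl θ₂) (ν₁ / 2) {0, 2} ∩ Fr (fl θ₂) (3 * ν) {0},
      ENNReal.ofReal (‖lineDeriv ℝ h.toFun (Function.update x 1 c₁) (ev j)‖ ^ p) ≤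
        ENNReal.ofReal (C * ν * θ₂) ∧
    -- the line `x 1 = c₁`, `x 2 = c₂`
    LineOK p ε M τ (ν / 8) (1 - ν / 8) (L (ev 0))
      (fun u => lineDeriv ℝ h.toFun (lpt c₁ c₂ u) (ev 0))

/-- **producer, rank one** -/
def SpecConBeamTB (p : ℝ) (L : V →L[ℝ] V) : Prop :=
  ∃ C > 0, ∀ ε > 0, ∃ M ≥ 1, ∀ ν, 0 < ν → ν ≤ 1 / 4 → ∀ θ₂, 0 < θ₂ → θ₂ ≤ 1 / 4 →
    ∀ ν₁, 0 < ν₁ → ν₁ ≤ ν / 4 → ∃ θ₀ > 0, ∀ θ₁, 0 < θ₁ → θ₁ ≤ θ₀ → ∀ τ > 0, ∃ κ > 0,
    ∀ (Λ : Set V) (f : V → V) (F : V → Mat), Near p κ L Λ f F →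
      ConBeamTB p C M θ₁ θ₂ ν₁ ν τ ε L Λ f

theorem measurableSet_Fr (a : V) (ν : ℝ) (J : Finset (Fin 3)) : MeasurableSet (Fr a ν J) := by
  have : Fr a ν J = ⋃ i ∈ J, {x : V | x i ≤ ν * a i ∨ (1 - ν) * a i ≤ x i} := by
    ext x; simp [Fr]
  rw [this]
  refine Finset.measurableSet_biUnion _ fun i _ => ?_
  exact (measurableSet_le (measurable_pi_apply i) measurable_const).union
    (measurableSet_le measurable_const (measurable_pi_apply i))

/-- **(C2B)** -/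
theorem specC2B {p : ℝ} (hp : 1 ≤ p) : ∃ D > 0, ∀ (C M θ₁ θ₂ ν₁ ν τ ε : ℝ) (L : V →L[ℝ] V)
    (Λ : Set V) (f : V → V), 0 < C → 1 ≤ M → 0 < θ₁ → 0 < θ₂ → 0 < ν₁ → ν₁ ≤ ν → ν ≤ 1 / 4 →
    τ < θ₁ → τ < θ₂ → 0 < ε → St.IsBoundedDomain Λ → ConBeamTB p C M θ₁ θ₂ ν₁ ν τ ε L Λ f →
    ∃ (c₁ c₂ : ℝ) (g : V → V), |c₁ - θ₁| ≤ τ ∧ |c₂ - θ₂| ≤ τ ∧
      BeamT p (D * C) M θ₁ θ₂ ν₁ ν (3 * ν₁) (3 * ν) τ (D * ε) c₁ c₂ L Λ f g := by
  have hp0 : 0 ≤ p := by linarith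
  have h2p : (0:ℝ) < 2 ^ p := by positivity
  refine ⟨1 + 3 * 2 ^ p, by positivity, ?_⟩
  intro C M θ₁ θ₂ ν₁ ν τ ε L Λ f hC hM hθ₁ hθ₂ hν₁ hνν hν4 hτ₁ hτ₂ hε hΛ hcon
  have hν : 0 < ν := by linarith
  have hM0 : 0 < M := by linarith
  have hM1 : 0 < M ^ (p + 1) := by positivity
  obtain ⟨c₁, c₂, h, hc₁, hc₂, hbd, hE1, hE2, hP1, hP2, hL⟩ := hcon
  have a1 := abs_le.1 hc₁
  have a2 := abs_le.1 hc₂
  have p1 : 0 < c₁ := by linarith [a1.1]
  have p1' : c₁ < 2 * θ₁ := by linarith [a1.2]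
  have p2 : 0 < c₂ := by linarith [a2.1]
  have p2' : c₂ < 2 * θ₂ := by linarith [a2.2]
  have hQΩ : ∀ x ∈ core1 θ₂ ν₁, Function.update x 1 c₁ ∈ Bx (bm θ₁ θ₂) := fun x hx =>
    core1_mem hθ₂ hν₁ p1 p1' hx
  -- the segment
  set α := ν / 8 with hα
  set β := 1 - ν / 8 with hβ
  have hαβ : α < β := by rw [hα, hβ]; linarith
  have hβα : 0 < β - α := by linarith
  have hmem : ∀ u ∈ Icc α β, lpt c₁ c₂ u ∈ Bx (bm θ₁ θ₂) := by
    rintro u ⟨h1, h2⟩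
    exact lpt_mem p1 p1' p2 p2' (by rw [hα] at h1; linarith) (by rw [hβ] at h2; linarith)
  have hd0 : (β - α) • (ev 0 : V) ≠ 0 := by
    intro h0
    have := congrFun h0 0
    simp [ev] at this
    linarith
  have hsegΩ : segment ℝ (lpt c₁ c₂ α) (lpt c₁ c₂ α + (β - α) • ev 0) ⊆ Bx (bm θ₁ θ₂) := by
    rw [segment_eq_image']
    rintro _ ⟨t, ht, rfl⟩
    show lpt c₁ c₂ α + t • (lpt c₁ c₂ α + (β - α) • ev 0 - lpt c₁ c₂ α) ∈ _
    rw [add_sub_cancel_left, lpt_eq]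
    refine hmem _ ⟨?_, ?_⟩
    · nlinarith [ht.1]
    · nlinarith [ht.2]
  set e' := ε / M ^ (p + 1) with he'
  have he'0 : 0 < e' := by positivity
  obtain ⟨g, hg, hgbd, hgE, hgs, hgp⟩ := smooth_box hp (fun i => bm_pos hθ₁ hθ₂ i) hΛ h 1 c₁ hbd
    (e₀ := C * ν₁ * θ₁ * θ₂) (by positivity) (ι := Unit) (κ := Unit)
    (fun _ => lpt c₁ c₂ α) (fun _ => (β - α) • ev 0) (fun _ => e' / (β - α) ^ (1 - p))
    (fun _ => core1 θ₂ ν₁) (fun _ => C * ν * θ₂)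
    (fun _ => hd0) (fun _ => hsegΩ) (fun K _ _ => Set.toFinite _)
    (fun _ => by positivity) (fun _ => isCompact_Icc) (fun _ => hQΩ) (fun K _ _ => Set.toFinite _)
    (fun _ => by positivity)
  have hbound : ∀ b : ℝ, C * ν₁ * θ₁ * θ₂ ≤ b →
      2 ^ p * b + C * ν₁ * θ₁ * θ₂ ≤ (1 + 3 * 2 ^ p) * b := by
    intro b hb
    have hb0 : 0 ≤ b := le_trans (by positivity) hb
    have : 0 ≤ 2 ^ p * b := by positivity
    nlinarith
  have hplane : ∀ (S : Set V) (b : ℝ), MeasurableSet S →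
      S ⊆ Bx (fl θ₂) ∩ Co (fl θ₂) (ν₁ / 2) {0, 2} → C * ν * θ₂ ≤ b →
      ∑ j ∈ Finset.univ.erase (1 : Fin 3), ∫⁻ x in S,
        ENNReal.ofReal (‖lineDeriv ℝ h.toFun (Function.update x 1 c₁) (ev j)‖ ^ p) ≤
          ENNReal.ofReal b →
      En2 p g (Finset.univ.erase 1) 1 c₁ S ≤ ENNReal.ofReal ((1 + 3 * 2 ^ p) * b) := by
    intro S b hS hSsub hb hSb
    have hb0 : 0 ≤ b := le_trans (by positivity) hb
    have h1 := tri_map hp0 (isOpen_box _) h.cont g (measurable_update 1 c₁)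
      (Finset.univ.erase 1) hS (fun x hx => hQΩ x (core1_sub (hSsub hx))) fun _ => 0
    simp only [sub_zero] at h1
    unfold En2
    refine h1.trans ?_
    have e1 : ∑ j ∈ Finset.univ.erase (1 : Fin 3), ∫⁻ x in S,
        ENNReal.ofReal (‖fderiv ℝ g (Function.update x 1 c₁) (ev j) -
          lineDeriv ℝ h.toFun (Function.update x 1 c₁) (ev j)‖ ^ p) ≤ ENNReal.ofReal (2 * b) := by
      calc _ ≤ ∑ j ∈ Finset.univ.erase (1 : Fin 3), ENNReal.ofReal b :=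
            Finset.sum_le_sum fun j hj => (lintegral_mono_set (hSsub.trans core1_sub)).trans
              ((hgp () j (Finset.ne_of_mem_erase hj)).trans (ENNReal.ofReal_le_ofReal hb))
        _ = _ := by
            rw [Finset.sum_const]
            have : (Finset.univ.erase (1 : Fin 3)).card = 2 := by decide
            rw [this, nsmul_eq_mul, ENNReal.ofReal_mul (by norm_num)]
            norm_num
    calc _ ≤ ENNReal.ofReal (2 ^ p) * (ENNReal.ofReal (2 * b) + ENNReal.ofReal b) :=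
          mul_le_mul' le_rfl (add_le_add e1 hSb)
      _ = ENNReal.ofReal (2 ^ p * (2 * b + b)) := by
          rw [← ENNReal.ofReal_add (by positivity) hb0, ← ENNReal.ofReal_mul h2p.le]
      _ ≤ _ := by
          apply ENNReal.ofReal_le_ofReal
          nlinarith
  refine ⟨c₁, c₂, g, hc₁, hc₂, hg, hgbd, ?_, ?_, ?_, ?_, ?_⟩
  · have h1 := hgE univ
    rw [inter_univ] at h1
    calc En p g Finset.univ (Bx (bm θ₁ θ₂)) ≤ ENNReal.ofReal (2 ^ p) *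
          ENNReal.ofReal (C * θ₁ * θ₂) + ENNReal.ofReal (C * ν₁ * θ₁ * θ₂) :=
          h1.trans (by gcongr)
      _ = ENNReal.ofReal (2 ^ p * (C * θ₁ * θ₂) + C * ν₁ * θ₁ * θ₂) := by
          rw [← ENNReal.ofReal_mul h2p.le, ← ENNReal.ofReal_add (by positivity) (by positivity)]
      _ ≤ ENNReal.ofReal ((1 + 3 * 2 ^ p) * (C * θ₁ * θ₂)) := by
          apply ENNReal.ofReal_le_ofReal
          refine hbound _ ?_
          have : C * θ₁ * θ₂ * ν₁ ≤ C * θ₁ * θ₂ * 1 := by gcongr; linarith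
          linarith
      _ = _ := by congr 1; ring
  · calc En p g Finset.univ (Bx (bm θ₁ θ₂) ∩ Fr (bm θ₁ θ₂) (3 * ν₁) {0, 2})
        ≤ ENNReal.ofReal (2 ^ p) * ENNReal.ofReal (C * ν₁ * θ₁ * θ₂) +
          ENNReal.ofReal (C * ν₁ * θ₁ * θ₂) := (hgE _).trans (by gcongr)
      _ = ENNReal.ofReal (2 ^ p * (C * ν₁ * θ₁ * θ₂) + C * ν₁ * θ₁ * θ₂) := by
          rw [← ENNReal.ofReal_mul h2p.le, ← ENNReal.ofReal_add (by positivity) (by positivity)]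
      _ ≤ ENNReal.ofReal ((1 + 3 * 2 ^ p) * (C * ν₁ * θ₁ * θ₂)) :=
          ENNReal.ofReal_le_ofReal (hbound _ le_rfl)
      _ = _ := by congr 1; ring
  · refine (hplane _ (C * θ₂) ((measurableSet_Bx _).inter (measurableSet_Co' _ _ _)) Subset.rfl ?_
      hP1).trans (le_of_eq (by congr 1; ring))
    have : C * θ₂ * ν ≤ C * θ₂ * 1 := by gcongr; linarith
    linarith
  · exact (hplane _ (C * ν * θ₂) (((measurableSet_Bx _).inter (measurableSet_Co' _ _ _)).inter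
      (measurableSet_Fr _ _ _)) inter_subset_left le_rfl hP2).trans
      (le_of_eq (by congr 1; ring))
  · have hGm : AEMeasurable (fun u => lineDeriv ℝ h.toFun (lpt c₁ c₂ u) (ev 0))
        (volume.restrict (Icc α β)) := by
      have m1 := (H880.measurable_lineDeriv_on (isOpen_box (bm θ₁ θ₂)) h.cont (ev 0)).comp
        (continuous_lpt c₁ c₂).measurable
      refine ⟨_, m1, ?_⟩
      filter_upwards [ae_restrict_mem measurableSet_Icc] with u hu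
      rw [Function.comp_apply, indicator_of_mem (hmem u hu)]
    have hs := hgs ()
    have h1 : ∫⁻ u in Icc α β, ENNReal.ofReal (‖fderiv ℝ g (lpt c₁ c₂ u) (ev 0) -
        lineDeriv ℝ h.toFun (lpt c₁ c₂ u) (ev 0)‖ ^ p) ≤ ENNReal.ofReal e' := by
      rw [seg_line hp0 g h.toFun c₁ c₂ hαβ]
      refine (mul_le_mul' le_rfl hs).trans (le_of_eq ?_)
      rw [← ENNReal.ofReal_mul (by positivity)]
      congr 1
      field_simp
    have h2 := lineOK_perturb hp0 hM hε.le he'0.le hL hGm h1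
    obtain ⟨ρ, q1, q2, q3, q4, q5, q6⟩ := h2
    refine ⟨ρ, q1, q2, q3, q4, q5, q6.trans (ENNReal.ofReal_le_ofReal ?_)⟩
    have : M ^ (p + 1) * e' = ε := by rw [he']; field_simp
    rw [this]
    nlinarith

end Vale.Agent.P073.H190
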