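import Vale.Agent.P073.H190.ConB
import Vale.Agent.P073.H239.LocB
import Vale.Agent.P073.H582.ConC5

/-!
# P073: `SpecC1B`, `SpecC5B` of block B10
-/

namespace Vale.Agent.P073.H190

open MeasureTheory Set Filter Topology Metric Vale.Agent.P073.LOC Vale.Agent.P073.H235
open Vale.Agent.P073.St (V Mat)
open Vale.Agent.P073.SQ (ev)
open scoped ContDiff ENNReal

/-- **[C1B]**, literally -/
theorem spec239C1B : H239.SpecC1B := by
  intro p hp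
  obtain ⟨D, hD, hmain⟩ := specC1B hp
  refine ⟨D, hD, ?_⟩
  intro C θ ν τ ε L Λ f hC hθ hν hν4 hτ hε hΛ _ hcon
  exact hmain C θ ν τ ε L Λ f hC hθ hν hν4 hτ hε hΛ hcon

/-- **[C5B]**, literally -/
theorem spec239C5B : H239.SpecC5B := by
  intro p L hp hC1 hC3 hcon
  obtain ⟨D, hD, hC1⟩ := hC1 p hp
  obtain ⟨C, hC, hcon⟩ := hcon
  refine H582.specFlat_of_outC1 hp hC3 ⟨D * C, by positivity, fun ν hν hν4 => ?_⟩
  obtain ⟨θ₀, hθ₀, hcon⟩ := hcon ν hν hν4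
  refine ⟨θ₀, hθ₀, fun θ hθ hθle τ hτ hτθ ε hε => ?_⟩
  obtain ⟨κ, hκ, hcon⟩ := hcon θ hθ hθle τ hτ (ε / D) (by positivity)
  refine ⟨κ, hκ, fun Λ f F hN => ?_⟩
  obtain ⟨c, g, h1, h2, h3, h4, h5, h6⟩ := hC1 C θ ν τ (ε / D) L Λ f hC hθ hν hν4 hτθ
    (by positivity) hN.dom hN.cont (hcon Λ f F hN)
  refine ⟨c, g, h1, h2, h3, h4, h5, ?_⟩
  rwa [mul_div_cancel₀ _ hD.ne'] at h6

/-- rank two, every exponent -/
theorem specFlat_of_conFlatB {p : ℝ} {L : V →L[ℝ] V} (hp : 1 ≤ p) (hC3 : SpecC3)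
    (h : H239.SpecConFlatB p L) : SpecFlat p L :=
  spec239C5B p L hp spec239C1B hC3 h

end Vale.Agent.P073.H190
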