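import Vale.Agent.P073.H190.TvpS
import Vale.Agent.P073.H926.RTDat
import Vale.Agent.P073.H238.P12A
import Vale.Agent.P073.H238.VarEv

/-!
# P073, H190: **[NUM-P3]**, the weights of the edges in ROUND P of `K3C`

The twin of `H238.dichK`, `H238.tsum_wtP_all` for `KIn3`, all edges of the mesh, the levels of the
processed squares.  `tv_alive`: an edge which is not contained in the ball of radius `8 be` around a
vertex; `tsum_crK_le`: the sum of the weights of the crossings.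
-/

open Set Metric Topology Filter MeasureTheory
open scoped ENNReal

namespace Vale.Agent.P073.H190.Num3

open _root_.P073 _root_.P073.Net _root_.P073.PA691
open Vale.Agent.P073.St (V)
open Vale.Agent.P073.H471 Vale.Agent.P073.H267
open Vale.Agent.P073.H73 (Mesh onSeg)
open Vale.Agent.P073.H193 (Edges)
open Vale.Agent.P073.H926 Vale.Agent.P073.H926.KIn3
open _root_.P073.Croft (varIn onS cross levs)
open _root_.P073.H267 (tvE lenE)
open _root_.P073.H345 (tg tg_ne PK PB_sub_PK PLev)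
open Vale.Agent.P073.H190.Tvp (crK sum_h2_le PE_sub_int)
open _root_.P073.H880.RP (ROut3)
open _root_.P073.H880

variable {c₀ n δ : ℝ} {j : ℕ} {Ω Λ : Set V} {v w : V} {ρ : V → ℝ} {M : Mesh Ω} {h h1 : ConHomeo Ω Λ}
  {J₀ J : Set (ℕ × (Fin 3 → ℤ))} {P Z : Set M.ι} {K : BoxCx Λ w} {E : Edges M}

/-! ### positions -/

section pos

variable (D : KIn3 c₀ n j δ v w ρ M h J₀ J P Z) (C : Cells ρ w K)
include D C

/-- an edge is contained in a cell which is not protected -/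
theorem exists_cell_seg (e : E.ε) : ∃ i, i ∉ P ∧ E.seg e ⊆ M.Q i := by
  obtain ⟨k, hk⟩ := E.own e
  obtain ⟨i, hi, hki⟩ := D.exists_cell C k
  exact ⟨i, hi, hk.trans hki⟩

variable (hn : ∀ x ∈ Ω, ∀ q, h.toFun x ∈ K.cube q → ‖h1.toFun x - h.toFun x‖ ≤ (D.G C).om q)
include hn

/-- **the edges which meet a processed plate** -/
theorem at_PK3 {e : E.ε} {s : K.S} (hs : s ∈ pS C J₀) {x y : V} (hx : x ∈ E.seg e)
    (hxs : h1.toFun x ∈ PK (D.G C) s) (hy : y ∈ E.seg e) :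
    ‖h.toFun y - h1.toFun x‖ ≤ 6 * (D.G C).oS s ∧
      ‖h1.toFun y - h1.toFun x‖ ≤ 11 * (D.G C).oS s := by
  obtain ⟨i, hi, hei⟩ := exists_cell_seg D C e
  exact D.pos_PK C hs hi (D.nearC_of_near3 C hn i) (hei hx) hxs (hei hy)

/-- one processed square for each edge -/
theorem at_PK3_unique {e : E.ε} {s s' : K.S} (hs : s ∈ pS C J₀) {x x' : V}
    (hx : x ∈ E.seg e) (hxs : h1.toFun x ∈ PK (D.G C) s) (hx' : x' ∈ E.seg e)
    (hxs' : h1.toFun x' ∈ PK (D.G C) s') : s = s' := by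
  have h2 := (at_PK3 D C hn hs hx hxs hx').2
  have h3 := (D.G C).oS_τ s
  have h4 : h1.toFun x' ∈ PX (D.G C) s := PX_of_near hxs (by
    have := (D.B C).τ_pos s
    linarith)
  by_contra hne
  exact (disjoint_ss (W := D.W C) hne).notMem_of_mem_left (PX_sub_ss s h4)
    (PX_sub_ss s' (PK_sub_PX s' hxs'))

/-- **the levels near a plate and the processed boxes of round T** -/
theorem dichK3 {e : E.ε} {s : K.S} (hs : s ∈ pS C J₀) {x₁ : V} (hx₁ : x₁ ∈ E.seg e)
    (hx₁s : h1.toFun x₁ ∈ PK (D.G C) s) (β : Bool) :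
    (∀ b ∈ pB C J₀, (h.toFun '' E.seg e ∩ (D.G C).TB false b).Nonempty → b.ax = tg s β) ∨
      ∀ x ∈ E.seg e, ¬ (K.slo s (tg s β) + (D.G C).a s ≤ h1.toFun x (tg s β) ∧
        h1.toFun x (tg s β) ≤ K.shi s (tg s β) - (D.G C).a s) := by
  by_cases hcase : ∀ b ∈ pB C J₀, (h.toFun '' E.seg e ∩ (D.G C).TB false b).Nonempty →
      b.ax = tg s β
  · exact Or.inl hcase
  right
  push Not at hcase
  obtain ⟨b, hb, ⟨_, ⟨x₀, hx₀, rfl⟩, hxb⟩, hax⟩ := hcase
  intro x hx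
  have hp := Geo.p_pos (G := D.G C) s
  have hpa := Geo.p_a (G := D.G C) s
  have hτ := (D.B C).τ_pos s
  have hoτ := (D.G C).oS_τ s
  have hτp := (D.G C).τ_p s
  have h2 := (at_PK3 D C hn hs hx₁ hx₁s hx₀).1
  have h3 := (at_PK3 D C hn hs hx₁ hx₁s hx).2
  have hX : h.toFun x₀ ∈ PX (D.G C) s := PX_of_near hx₁s (by linarith)
  have h7 := H238.TB_side (G := D.G C) (PX_sub_ss s hX) hxb (tg_ne s β) hax
  have j1 := abs_le.1 ((abs_sub_le_norm _ _ (tg s β)).trans h2)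
  have j3 := abs_le.1 ((abs_sub_le_norm _ _ (tg s β)).trans h3)
  rintro ⟨h8, h9⟩
  rcases h7 with h7 | h7 <;> linarith

end pos

/-! ### edges away from the vertices -/

section alive

variable (D : KIn3 c₀ n j δ v w ρ M h J₀ J P Z) (C : Cells ρ w K)
include D C

/-- the numbers at the edge `e` of the tiling -/
theorem num_inl (e : K.G) : 4096 * ω3T δ C (.inl e) ≤ (D.G C).oG e ∧
    1000 * (D.G C).oG e ≤ (D.G C).uT e ∧ 2 * (D.G C).uT e ≤ (D.G C).lam e ∧
    8 * (D.G C).lam e ≤ (D.G C).be (K.a e) ∧ 8 * (D.G C).lam e ≤ (D.G C).be (K.b e) := by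
  have h1 := D.ω3T_oT C (.inl e)
  have h2 := D.ω3T_pos C (.inl e)
  have h3 : H238.oT (D.G C) (.inl e) = (D.G C).oG e := rfl
  rw [h3] at h1
  exact ⟨by linarith, (D.G C).oG_uT e, (D.G C).uT_lam e, (D.G C).lam_a e, (D.G C).lam_b e⟩

omit D C in
/-- the distance of two points in the sup norm, by coordinates -/
theorem mem_ball_of {x y : V} {r : ℝ} (hr : 0 ≤ r) (h : ∀ k, |x k - y k| ≤ r) :
    x ∈ closedBall y r := by
  rw [mem_closedBall, dist_eq_norm, pi_norm_le_iff_of_nonneg hr]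
  intro k
  rw [Pi.sub_apply, Real.norm_eq_abs]
  exact h k

/-- **position of the edges which meet a box at an edge of the tiling** -/
theorem at_inl {e₀ : E.ε} {e : K.G} (he : (.inl e : TBx K) ∈ pB C J₀)
    (hm : (h.toFun '' E.seg e₀ ∩ (D.G C).TB false (.inl e)).Nonempty)
    (ha : ∃ x ∈ E.seg e₀, h.toFun x ∉ closedBall (K.w (K.a e)) (8 * (D.G C).be (K.a e)))
    (hb : ∃ x ∈ E.seg e₀, h.toFun x ∉ closedBall (K.w (K.b e)) (8 * (D.G C).be (K.b e))) :
    ∀ x ∈ E.seg e₀, K.w (K.a e) (K.dir e) + 7 * (D.G C).be (K.a e) ≤ h.toFun x (K.dir e) ∧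
      h.toFun x (K.dir e) ≤ K.w (K.b e) (K.dir e) - 7 * (D.G C).be (K.b e) := by
  obtain ⟨_, ⟨x₀, hx₀, rfl⟩, hxb⟩ := hm
  obtain ⟨i, hi, hei⟩ := exists_cell_seg D C e₀
  have hosc : ∀ x ∈ E.seg e₀, ∀ k, |h.toFun x₀ k - h.toFun x k| ≤ ω3T δ C (.inl e) := fun x hx k =>
    (abs_sub_le_norm _ _ k).trans (D.osc_T C he hi (hei hx₀) (hei hx) hxb)
  obtain ⟨n1, n2, n3, n4, n5⟩ := num_inl D C e
  have n0 := D.ω3T_pos C (.inl e)
  have hba := (D.G C).be_pos (K.a e)
  have hbb := (D.G C).be_pos (K.b e)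
  have hoe := (D.G C).uT_pos e
  rw [Geo.mem_inl] at hxb
  simp only [Bool.false_eq_true, if_false] at hxb
  obtain ⟨⟨h3, h4⟩, h5⟩ := hxb
  intro x hx
  have hxk := abs_le.1 (hosc x hx (K.dir e))
  constructor
  · obtain ⟨y, hy, hyb⟩ := ha
    by_contra hcon
    push Not at hcon
    refine hyb (mem_ball_of (by linarith) fun k => ?_)
    have hyk := abs_le.1 (hosc y hy k)
    by_cases hk : k = K.dir e
    · subst hk
      rw [abs_le]
      constructor <;> linarith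
    · have h6 := abs_le.1 (h5 k hk)
      rw [abs_le]
      constructor <;> linarith
  · obtain ⟨y, hy, hyb⟩ := hb
    by_contra hcon
    push Not at hcon
    refine hyb (mem_ball_of (by linarith) fun k => ?_)
    have hyk := abs_le.1 (hosc y hy k)
    by_cases hk : k = K.dir e
    · subst hk
      rw [abs_le]
      constructor <;> linarith
    · have h6 := abs_le.1 (h5 k hk)
      have h7 : K.w (K.b e) k = K.w (K.a e) k := edge_coord (TM.wb_mem K e) hk
      rw [h7, abs_le]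
      constructor <;> linarith

/-- an edge which meets a box at a hanging vertex is close to the vertex -/
theorem at_inr {e₀ : E.ε} {b : Hang K} (hb : (.inr b : TBx K) ∈ pB C J₀)
    (hm : (h.toFun '' E.seg e₀ ∩ (D.G C).TB false (.inr b)).Nonempty) :
    h.toFun '' E.seg e₀ ⊆ closedBall (K.w b.i) (8 * (D.G C).be b.i) := by
  obtain ⟨_, ⟨x₀, hx₀, rfl⟩, hxb⟩ := hm
  obtain ⟨i, hi, hei⟩ := exists_cell_seg D C e₀
  have hosc : ∀ x ∈ E.seg e₀, ∀ k, |h.toFun x₀ k - h.toFun x k| ≤ ω3T δ C (.inr b) := fun x hx k =>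
    (abs_sub_le_norm _ _ k).trans (D.osc_T C hb hi (hei hx₀) (hei hx) hxb)
  have n1 := D.ω3T_oT C (.inr b)
  have n0 := D.ω3T_pos C (.inr b)
  have n2 : H238.oT (D.G C) (.inr b) = (D.G C).oW b.i := rfl
  rw [n2] at n1
  have n3 := (D.G C).oW_be b.i
  have n4 := (D.G C).p_be b.s b.i (Geo.hang_mem b)
  have n5 := (D.G C).τ_p b.s
  have n6 := (D.B C).τ_pos b.s
  have hbe := (D.G C).be_pos b.i
  rw [Geo.mem_inr] at hxb
  simp only [Bool.false_eq_true, if_false] at hxb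
  obtain ⟨h3, ⟨h4, h4'⟩, h5⟩ := hxb
  rintro _ ⟨x, hx, rfl⟩
  refine mem_ball_of (by linarith) fun k => ?_
  have hxk := abs_le.1 (hosc x hx k)
  rcases Geo.fin3_cases b.k_n b.k_l b.l_n.symm k with rfl | rfl | rfl
  · have h6 := b.side
    unfold Hang.u at h4 h4'
    split_ifs at h4 h4' h6 with hβ
    · rw [h6, abs_le]; constructor <;> linarith
    · rw [h6, abs_le]; constructor <;> linarith
  · have h6 := b.nrm
    have h7 := abs_le.1 h5
    rw [h6, abs_le]; constructor <;> linarith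
  · have h7 := abs_le.1 h3
    rw [abs_le]; constructor <;> linarith

variable (hn : ∀ x ∈ Ω, ∀ q, h.toFun x ∈ K.cube q → ‖h1.toFun x - h.toFun x‖ ≤ (D.G C).om q)
include hn

/-- closeness of the two maps on an edge which meets a processed box of round T -/
theorem near_TB {e₀ : E.ε} {b : TBx K} (hb : b ∈ pB C J₀)
    (hm : (h.toFun '' E.seg e₀ ∩ (D.G C).TB false b).Nonempty) :
    ∀ x ∈ E.seg e₀, ‖h1.toFun x - h.toFun x‖ ≤ 4 * H238.oT (D.G C) b := by
  obtain ⟨_, ⟨x₀, hx₀, rfl⟩, hxb⟩ := hm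
  obtain ⟨i, hi, hei⟩ := exists_cell_seg D C e₀
  intro x hx
  obtain ⟨q, hq⟩ := K.cover _ (h.mapsTo (E.seg_sub_Ω e₀ hx))
  obtain ⟨q₀, hq₀⟩ := K.cover _ (h.mapsTo (E.seg_sub_Ω e₀ hx₀))
  have h2 := (D.rt_cell C hi ⟨_, mem_image_of_mem _ (hei hx₀), D.rt_TBN C b hb hxb⟩
    x₀ (hei hx₀) x (hei hx) q₀ q hq₀ hq).2
  have h3 := (D.rt_om0 C hxb hq₀).2.1
  have h4 := hn x (E.seg_sub_Ω e₀ hx) q hq
  linarith

/-- **the map after round T on an edge which meets a box at an edge of the tiling** -/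
theorem at_inl1 {e₀ : E.ε} {e : K.G} (he : (.inl e : TBx K) ∈ pB C J₀)
    (hm : (h.toFun '' E.seg e₀ ∩ (D.G C).TB false (.inl e)).Nonempty)
    (ha : ∃ x ∈ E.seg e₀, h.toFun x ∉ closedBall (K.w (K.a e)) (8 * (D.G C).be (K.a e)))
    (hb : ∃ x ∈ E.seg e₀, h.toFun x ∉ closedBall (K.w (K.b e)) (8 * (D.G C).be (K.b e))) :
    ∀ x ∈ E.seg e₀, K.w (K.a e) (K.dir e) + 6 * (D.G C).be (K.a e) ≤ h1.toFun x (K.dir e) ∧
      h1.toFun x (K.dir e) ≤ K.w (K.b e) (K.dir e) - 6 * (D.G C).be (K.b e) := by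
  intro x hx
  obtain ⟨h2, h3⟩ := at_inl D C he hm ha hb x hx
  have h4 := near_TB D C hn he hm x hx
  have h5 : H238.oT (D.G C) (.inl e) = (D.G C).oG e := rfl
  rw [h5] at h4
  obtain ⟨-, n2, n3, n4, n5⟩ := num_inl D C e
  have hoe := (D.G C).uT_pos e
  have h6 := abs_le.1 ((abs_sub_le_norm _ _ (K.dir e)).trans h4)
  constructor <;> linarith

/-- **the variation of the coordinate of a met box**: from the variation of the clamped
coordinate -/
theorem tv_alive {e₀ : E.ε} {T : ℝ≥0∞}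
    (htv : ∀ e : K.G, (.inl e : TBx K) ∈ pB C J₀ → ∀ lo hi : ℝ,
      (D.G C).tlo true (.inl e) (K.dir e) + 50 * ω3T δ C (.inl e) ≤ lo → lo ≤ hi →
      hi ≤ (D.G C).thi true (.inl e) (K.dir e) - 50 * ω3T δ C (.inl e) →
      eVariationOn (fun t : ℝ => H238.K3.clm lo hi
        (h1.toFun (E.a e₀ + t • (E.b e₀ - E.a e₀)) (K.dir e))) (Icc 0 1) ≤ T)
    (hoff : (∀ b ∈ pB C J₀, ¬ (h.toFun '' E.seg e₀ ∩ (D.G C).TB false b).Nonempty) →
      ∀ l, tvE E h1.toFun e₀ l ≤ T)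
    (hal : ∀ i : K.W, ∃ x ∈ E.seg e₀, h.toFun x ∉ closedBall (K.w i) (8 * (D.G C).be i))
    {l : Fin 3}
    (hl : ∀ b ∈ pB C J₀, (h.toFun '' E.seg e₀ ∩ (D.G C).TB false b).Nonempty → b.ax = l) :
    tvE E h1.toFun e₀ l ≤ T := by
  by_cases hex : ∃ b ∈ pB C J₀, (h.toFun '' E.seg e₀ ∩ (D.G C).TB false b).Nonempty
  · obtain ⟨b, hb, hm⟩ := hex
    have hbl := hl b hb hm
    rcases b with e | q
    · have hdl : K.dir e = l := hbl
      have hcl := at_inl1 D C hn hb hm (hal _) (hal _)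
      obtain ⟨n1, n2, n3, n4, n5⟩ := num_inl D C e
      have n0 := D.ω3T_pos C (.inl e)
      have hba := (D.G C).be_pos (K.a e)
      have hbb := (D.G C).be_pos (K.b e)
      have hlo : (D.G C).tlo true (.inl e) (K.dir e) = K.w (K.a e) (K.dir e) +
          (D.G C).be (K.a e) := by simp only [Geo.tlo, if_true]
      have hhi : (D.G C).thi true (.inl e) (K.dir e) = K.w (K.b e) (K.dir e) -
          (D.G C).be (K.b e) := by simp only [Geo.thi, if_true]
      have h0 := hcl _ (left_mem_segment ℝ (E.a e₀) (E.b e₀))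
      refine le_trans (le_of_eq ?_) (htv e hb _ _ le_rfl (by rw [hlo, hhi]; linarith) le_rfl)
      rw [← hdl]
      unfold _root_.P073.H267.tvE
      refine @eVariationOn.eq_of_eqOn ℝ _ ℝ _ _ _ _ ?_
      intro t ht
      have hx : E.a e₀ + t • (E.b e₀ - E.a e₀) ∈ E.seg e₀ := by
        rw [Edges.seg, segment_eq_image']
        exact ⟨t, ht, rfl⟩
      obtain ⟨h2, h3⟩ := hcl _ hx
      show h1.toFun (E.a e₀ + t • (E.b e₀ - E.a e₀)) (K.dir e) = H238.K3.clm _ _ _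
      unfold H238.K3.clm
      rw [min_eq_right (by rw [hhi]; linarith), max_eq_right (by rw [hlo]; linarith)]
    · obtain ⟨x, hx, hxb⟩ := hal q.i
      exact absurd (at_inr D C hb hm (mem_image_of_mem _ hx)) hxb
  · push Not at hex
    exact hoff (fun b hb => by rw [not_nonempty_iff_eq_empty]; exact hex b hb) l

end alive

/-! ### the weights -/

section weights

variable (D : KIn3 c₀ n j δ v w ρ M h J₀ J P Z) (C : Cells ρ w K)
include D C

omit D C in
/-- no crossings in a plate which is not met -/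
theorem crK_empty {S : Rad K} {W : Wid K S} {B : Boxes W} {G : Geo B} (L : PLev G) {e : E.ε}
    {s : K.S} (hs : ∀ x ∈ E.seg e, h1.toFun x ∉ PK G s) (β : Bool) :
    crK L h1 (E.a e) (E.b e) s β = ∅ := by
  rw [eq_empty_iff_forall_notMem]
  rintro t ⟨ht, htP, -⟩
  refine hs (E.a e + t • (E.b e - E.a e)) ?_ htP
  rw [Edges.seg, segment_eq_image']
  exact ⟨t, ht, rfl⟩

variable (hn : ∀ x ∈ Ω, ∀ q, h.toFun x ∈ K.cube q → ‖h1.toFun x - h.toFun x‖ ≤ (D.G C).om q)
include hn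

/-- the weights of an edge at a processed plate, one direction -/
theorem wt_oneK (L : PLev (D.G C)) {e : E.ε} {s : K.S} (hs : s ∈ pS C J₀) {x₁ : V}
    (hx₁ : x₁ ∈ E.seg e) (hx₁s : h1.toFun x₁ ∈ PK (D.G C) s) {A A' εe : ℝ} {T : ℝ≥0∞} (β : Bool)
    (hcnt : ENNReal.ofReal (L.om s β) * cnt (crK L h1 (E.a e) (E.b e) s β) ≤
      ENNReal.ofReal A * (ENNReal.ofReal A' * varIn (onS h1.toFun (E.a e) (E.b e)) (tg s β)
        (PK (D.G C) s) 0 1 + ENNReal.ofReal εe))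
    (htv : (∀ b ∈ pB C J₀, (h.toFun '' E.seg e ∩ (D.G C).TB false b).Nonempty →
      b.ax = tg s β) → tvE E h1.toFun e (tg s β) ≤ T) :
    ENNReal.ofReal (L.om s β) * cnt (crK L h1 (E.a e) (E.b e) s β) ≤
      ENNReal.ofReal A * (ENNReal.ofReal A' * T + ENNReal.ofReal εe) := by
  rcases dichK3 D C hn hs hx₁ hx₁s β with h2 | h2
  · refine hcnt.trans (mul_le_mul_right (add_le_add (mul_le_mul' le_rfl ?_) le_rfl) _)
    exact (H238.varIn_le_evar zero_le_one (Croft.conicalOn_onS h1.conical (E.seg_sub_Ω e))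
      (tg s β) (H669.PK_convex (D.G C) s)).trans (htv h2)
  · have h0 : crK L h1 (E.a e) (E.b e) s β = ∅ := by
      rw [eq_empty_iff_forall_notMem]
      rintro t ⟨ht, -, k, hk, htl⟩
      have hx : E.a e + t • (E.b e - E.a e) ∈ E.seg e := by
        rw [Edges.seg, segment_eq_image']
        exact ⟨t, ht, rfl⟩
      have htl' : h1.toFun (E.a e + t • (E.b e - E.a e)) (tg s β) = L.a s β k := htl
      have h3 := (L.lvs s β).c0
      have h4 := (L.lvs s β).first_le hk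
      have h5 := (L.lvs s β).le_last hk
      refine h2 _ hx ?_
      rw [htl']
      constructor <;> linarith
    rw [h0]
    simp [cnt]

/-- **the weights of an edge** -/
theorem tsum_crK_le (L : PLev (D.G C)) {e : E.ε} {A A' εe : ℝ} {T : ℝ≥0∞}
    (hcnt : ∀ s ∈ pS C J₀, ∀ β, ENNReal.ofReal (L.om s β) * cnt (crK L h1 (E.a e) (E.b e) s β) ≤
      ENNReal.ofReal A * (ENNReal.ofReal A' * varIn (onS h1.toFun (E.a e) (E.b e)) (tg s β)
        (PK (D.G C) s) 0 1 + ENNReal.ofReal εe))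
    (htv : ∀ l, (∀ b ∈ pB C J₀, (h.toFun '' E.seg e ∩ (D.G C).TB false b).Nonempty →
      b.ax = l) → tvE E h1.toFun e l ≤ T) :
    ∑' o : (D.dat C).S₀ × Bool, ENNReal.ofReal (L.om o.1.1 o.2) *
      cnt (crK L h1 (E.a e) (E.b e) o.1.1 o.2) ≤
      2 * (ENNReal.ofReal A * (ENNReal.ofReal A' * T + ENNReal.ofReal εe)) := by
  classical
  by_cases hex : ∃ s ∈ (D.dat C).S₀, ∃ x ∈ E.seg e, h1.toFun x ∈ PK (D.G C) s
  · obtain ⟨s, hs, x, hx, hxs⟩ := hex
    rw [tsum_eq_sum (s := ({(⟨s, hs⟩, true), (⟨s, hs⟩, false)} :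
      Finset ((D.dat C).S₀ × Bool))) (fun i hi => ?_)]
    · rw [Finset.sum_pair (by simp), two_mul]
      exact add_le_add (wt_oneK D C hn L hs hx hxs true (hcnt s hs true) (htv _))
        (wt_oneK D C hn L hs hx hxs false (hcnt s hs false) (htv _))
    · obtain ⟨⟨s', hs'⟩, β⟩ := i
      rw [crK_empty L (fun y hy hys => hi ?_)]
      · simp [cnt]
      · have h1 := at_PK3_unique D C hn hs hx hxs hy hys
        dsimp only at h1
        subst h1
        cases β <;> simp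
  · push Not at hex
    rw [ENNReal.tsum_eq_zero.2 fun i => ?_]
    · exact zero_le
    · rw [crK_empty L (hex i.1.1 i.1.2)]
      simp [cnt]

/-- one processed square for each edge, the boxes of the exchange -/
theorem PE_unique {e : E.ε} {s s' : K.S} (hs : s ∈ (D.dat C).S₀)
    (h2 : ((D.dat C).PE (D.G C) s ∩ h1.toFun '' E.seg e).Nonempty)
    (h3 : ((D.dat C).PE (D.G C) s' ∩ h1.toFun '' E.seg e).Nonempty) : s = s' := by
  obtain ⟨_, h4, x, hx, rfl⟩ := h2
  obtain ⟨_, h5, x', hx', rfl⟩ := h3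
  exact at_PK3_unique D C hn hs hx (D.PE_sub_PK C s h4) hx' (D.PE_sub_PK C s' h5)

/-- **the weights of the crossings of the map after the exchange** -/
theorem tsum_h2_le {h2 : ConHomeo Ω Λ} {L : PLev (D.G C)} {ι : Type} {F : ι → Set V} {i : ι}
    (O : ROut3 (D.G C) E (D.dat C) h1 h2 L.lv F) {e : E.ε} (hi : F i = E.seg e)
    {A A' εe : ℝ} {T : ℝ≥0∞}
    (hcnt : ∀ s ∈ pS C J₀, ∀ β, ENNReal.ofReal (L.om s β) * cnt (crK L h1 (E.a e) (E.b e) s β) ≤
      ENNReal.ofReal A * (ENNReal.ofReal A' * varIn (onS h1.toFun (E.a e) (E.b e)) (tg s β)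
        (PK (D.G C) s) 0 1 + ENNReal.ofReal εe))
    (htv : ∀ l, (∀ b ∈ pB C J₀, (h.toFun '' E.seg e ∩ (D.G C).TB false b).Nonempty →
      b.ax = l) → tvE E h1.toFun e l ≤ T)
    {r : ℝ} (hr : 1 ≤ r) (hom : ∀ s ∈ (D.dat C).S₀, ∀ β, L.om s β ≤ r * L.om s (!β)) :
    ∑' o : (D.dat C).S₀ × Bool, ENNReal.ofReal (L.om o.1.1 o.2) *
      cnt (cross (onS h2.toFun (E.a e) (E.b e)) (tg o.1.1 o.2)
        (levs (L.N o.1.1 o.2) (L.a o.1.1 o.2)) (PK (D.G C) o.1.1)) ≤
      ENNReal.ofReal r * (2 * (ENNReal.ofReal A * (ENNReal.ofReal A' * T +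
        ENNReal.ofReal εe))) := by
  refine (sum_h2_le O (fun s _ β => D.dat_ht_le C s β) (E.ne e) hi (E.seg_sub_Ω e)
    (fun s hs s' _ h3 h4 => PE_unique D C hn hs h3 h4) hr hom).trans ?_
  exact mul_le_mul' le_rfl (tsum_crK_le D C hn L hcnt htv)

end weights

end Vale.Agent.P073.H190.Num3
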