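import Vale.Agent.P073.H579.RTS
import Vale.Agent.P073.H190.NumP3

/-!
# P073, H190: edges which miss the boxes of ROUND T

`evar_eq_of_image`: two maps with the same image of a segment have the same variations on it.
`img_edge_off`: the image of an edge which misses the boxes, after the insertion and the staircase.
-/

open Set Metric Topology Filter
open scoped ENNReal

namespace Vale.Agent.P073.H190.ImgE

open _root_.P073 _root_.P073.Net _root_.P073.PA691
open Vale.Agent.P073.St (V)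

section path

variable {Ω Λ Λ' : Set V}

/-- **the variation along a segment depends on its image only** -/
theorem evar_eq_of_image (h g : ConHomeo Ω Λ) {a b : V} (hab : a ≠ b)
    (hs : segment ℝ a b ⊆ Ω) (him : g.toFun '' segment ℝ a b = h.toFun '' segment ℝ a b)
    {F : Type*} [PseudoEMetricSpace F] (f : V → F) :
    eVariationOn (fun t : ℝ => f (g.toFun (a + t • (b - a)))) (Icc 0 1) =
      eVariationOn (fun t : ℝ => f (h.toFun (a + t • (b - a)))) (Icc 0 1) := by
  obtain ⟨k, hk⟩ : ∃ k, a k ≠ b k := by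
    by_contra hcon
    push Not at hcon
    exact hab (funext hcon)
  have hk' : b k - a k ≠ 0 := sub_ne_zero.2 (Ne.symm hk)
  set e : ℝ → V := fun t => a + t • (b - a) with he
  set par : V → ℝ := fun x => (x k - a k) / (b k - a k) with hpar
  have hpe : ∀ t, par (e t) = t := by
    intro t
    simp only [hpar, he, Pi.add_apply, Pi.smul_apply, Pi.sub_apply, smul_eq_mul]
    rw [add_sub_cancel_left, mul_div_assoc, div_self hk', mul_one]
  have hseg : ∀ t ∈ Icc (0:ℝ) 1, e t ∈ segment ℝ a b := by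
    intro t ht
    rw [segment_eq_image']
    exact ⟨t, ht, rfl⟩
  have hex : ∀ x ∈ segment ℝ a b, ∃ t ∈ Icc (0:ℝ) 1, e t = x := by
    intro x hx
    rw [segment_eq_image'] at hx
    obtain ⟨t, ht, rfl⟩ := hx
    exact ⟨t, ht, rfl⟩
  set φ : ℝ → ℝ := fun t => par (h.invFun (g.toFun (e t))) with hφ
  have key : ∀ t ∈ Icc (0:ℝ) 1, φ t ∈ Icc (0:ℝ) 1 ∧ h.toFun (e (φ t)) = g.toFun (e t) := by
    intro t ht
    obtain ⟨x, hx, hxt⟩ : g.toFun (e t) ∈ h.toFun '' segment ℝ a b := by
      rw [← him]; exact mem_image_of_mem _ (hseg t ht)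
    obtain ⟨s, hs1, rfl⟩ := hex x hx
    have h1 : φ t = s := by
      show par (h.invFun (g.toFun (e t))) = s
      rw [← hxt, h.left_inv (hs hx), hpe]
    rw [h1]
    exact ⟨hs1, hxt⟩
  have hec : Continuous e := by
    show Continuous fun t : ℝ => a + t • (b - a)
    fun_prop
  have hφc : ContinuousOn φ (Icc 0 1) := by
    have h1 : ContinuousOn (fun t => g.toFun (e t)) (Icc 0 1) :=
      g.cont.comp hec.continuousOn fun t ht => hs (hseg t ht)
    have h2 : ContinuousOn (fun t => h.invFun (g.toFun (e t))) (Icc 0 1) :=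
      h.cont_inv.comp h1 fun t ht => g.mapsTo (hs (hseg t ht))
    have h3 : Continuous par := by
      show Continuous fun x : V => (x k - a k) / (b k - a k)
      fun_prop
    exact h3.comp_continuousOn h2
  have hei : ∀ t t' : ℝ, e t = e t' → t = t' := fun t t' h1 => by
    rw [← hpe t, ← hpe t', h1]
  have hφi : InjOn φ (Icc 0 1) := by
    intro t ht t' ht' h1
    have h2 : g.toFun (e t) = g.toFun (e t') := by
      rw [← (key t ht).2, ← (key t' ht').2, h1]
    exact hei _ _ (g.injOn (hs (hseg t ht)) (hs (hseg t' ht')) h2)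
  have hφs : φ '' Icc (0:ℝ) 1 = Icc 0 1 := by
    refine Subset.antisymm (fun _ h1 => ?_) fun s hs1 => ?_
    · obtain ⟨t, ht, rfl⟩ := h1
      exact (key t ht).1
    · obtain ⟨x, hx, hxt⟩ : h.toFun (e s) ∈ g.toFun '' segment ℝ a b := by
        rw [him]; exact mem_image_of_mem _ (hseg s hs1)
      obtain ⟨t, ht, rfl⟩ := hex x hx
      refine ⟨t, ht, ?_⟩
      show par (h.invFun (g.toFun (e t))) = s
      rw [hxt, h.left_inv (hs (hseg s hs1)), hpe]
  have e1 : eVariationOn (fun t : ℝ => f (g.toFun (e t))) (Icc 0 1) =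
      eVariationOn ((fun s : ℝ => f (h.toFun (e s))) ∘ φ) (Icc 0 1) := by
    refine @eVariationOn.eq_of_eqOn ℝ _ F _ _ _ _ ?_
    intro t ht
    show f (g.toFun (e t)) = f (h.toFun (e (φ t)))
    rw [(key t ht).2]
  have e2 : eVariationOn ((fun s : ℝ => f (h.toFun (e s))) ∘ φ) (Icc 0 1) =
      eVariationOn (fun s : ℝ => f (h.toFun (e s))) (Icc 0 1) := by
    rcases hφc.strictMonoOn_of_injOn_Icc' zero_le_one hφi with hm | hm
    · rw [eVariationOn.comp_eq_of_monotoneOn _ _ hm.monotoneOn, hφs]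
    · rw [eVariationOn.comp_eq_of_antitoneOn _ _ hm.antitoneOn, hφs]
  exact e1.trans e2

open Vale.Agent.P073.H73 (Mesh onSeg)
open Vale.Agent.P073.H193 (Edges)

/-- the variation of the coordinates of an edge depends on its image only -/
theorem tvE_eq_of_image {M : Mesh Ω} {E : Edges M} {h g : ConHomeo Ω Λ} {e : E.ε}
    (him : g.toFun '' E.seg e = h.toFun '' E.seg e) (l : Fin 3) :
    _root_.P073.H267.tvE E g.toFun e l = _root_.P073.H267.tvE E h.toFun e l :=
  evar_eq_of_image h g (E.ne e) (E.seg_sub_Ω e) him fun y => y l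

/-- the coordinates of an edge, by its length -/
theorem tvE_le_lenE {M : Mesh Ω} {E : Edges M} {h g : ConHomeo Ω Λ} {e : E.ε}
    (him : g.toFun '' E.seg e = h.toFun '' E.seg e) (l : Fin 3) :
    _root_.P073.H267.tvE E g.toFun e l ≤ _root_.P073.H267.lenE E h.toFun e := by
  rw [tvE_eq_of_image him l]
  exact H581.evar_coord_le_len _ _ l

end path

/-! ### edges which miss the boxes -/

section img

open _root_.P073.H579 _root_.P073.H236
open _root_.P073.H345 (IsQ)
open Vale.Agent.P073.H471 Vale.Agent.P073.H267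
open Vale.Agent.P073.H73 (Mesh)
open Vale.Agent.P073.H193 (Edges)
open Vale.Agent.P073.H579 (TStageW)
open Vale.Agent.P073.H669 (TLv)

variable {Ω Λ : Set V} {v : V} {K : BoxCx Λ v} {S₀ : Rad K} {Wd : Wid K S₀} {B : Boxes Wd}
  {G : Geo B} {M : Mesh Ω} {E : Edges M} {h h' : ConHomeo Ω Λ} {ω : TBx K → ℝ}
  {T : TBx K → Finset (ℝ × ℝ)} {η : ℝ} {ξ : Type*} {A : ξ → Set V} {C : Set ℝ} {εE : E.ε → ℝ}
  {δ : TBx K → ℝ} {L : TLv G E h ω T η A C εE δ} {c : TBx K → ℝ} {hc0 : ∀ b, 0 < c b}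
  {hc : ∀ b, c b ≤ δ b / 8} {Pr W : Set M.ι} {Act₀ : Set M.κ} {G₀ : Set (TBx K)} {κ : V → V}
  {g : ConHomeo Ω Λ}

/-- after the insertion -/
theorem img_edge_off (D : St2W L hc0 hc Pr W Act₀ G₀ h' κ g) {e : E.ε}
    (hm : ∀ x ∈ E.seg e, ∀ b ∈ G₀, h.toFun x ∉ G.TB false b) :
    g.toFun '' E.seg e = h.toFun '' E.seg e := by
  have h1 : h'.toFun '' E.seg e = h.toFun '' E.seg e :=
    image_congr fun x hx => (D.O.off x (E.seg_sub_Ω e hx) fun b hb h2 =>
      hm x hx b hb (interior_subset h2)).self_of_nhds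
  rw [D.edge e, D.isQ.pre_eq_off D.fam h' (E.seg_sub_Ω e) (fun b => ?_), h1]
  rw [Set.disjoint_left, h1]
  rintro y hy ⟨x, hx, rfl⟩
  exact hm x hx b.1 b.2 (L.K_sub hc0 hc b.1 hy)

/-- **after ROUND T**: the field `imge` of `TOut3` -/
theorem imge_of (D : St2W L hc0 hc Pr W Act₀ G₀ h' κ g) {S : ConHomeo Λ Λ}
    (hS : ∀ y ∈ Λ, (∀ b ∈ G₀, y ∉ G.TB false b) → S.toFun y = y) {e : E.ε}
    (hm : ∀ x ∈ E.seg e, ∀ b ∈ G₀, h.toFun x ∉ G.TB false b) :
    (g.trans S).toFun '' E.seg e = h.toFun '' E.seg e := by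
  have h1 := img_edge_off D hm
  rw [← h1]
  refine image_congr fun x hx => ?_
  show S.toFun (g.toFun x) = g.toFun x
  obtain ⟨x', hx', h2⟩ : g.toFun x ∈ h.toFun '' E.seg e := by
    rw [← h1]; exact mem_image_of_mem _ hx
  exact hS _ (g.mapsTo (E.seg_sub_Ω e hx)) fun b hb => by rw [← h2]; exact hm x' hx' b hb

end img

end Vale.Agent.P073.H190.ImgE
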