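import Vale.Agent.P073.H228.EdgeP5A

/-!
# P073, H190, [EDGE-P]: the interior of `PB (7 / 8)` and the moves `MvB`
-/

open Set Metric Topology Filter
open scoped ENNReal

set_option linter.unusedSectionVars false

namespace P073.H228.EP

open P073 P073.Net P073.PA691 P073.H142 P073.H345 P073.H236 P073.H579
open Vale.Agent.P073.St (V)
open Vale.Agent.P073.H471 Vale.Agent.P073.H267 Vale.Agent.P073.H267.Geo

variable {Λ : Set V} {v : V} {K : BoxCx Λ v} {S : Rad K} {W : Wid K S} {B : Boxes W}
  {G : Geo B} {S₀ : Set K.S} {y y' : V} {s : K.S} {Xw : K.S → Bool → Set (ℝ × ℝ)}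
  {d η : K.S → ℝ} {c : ℝ}

/-- **the interior of a plate box** -/
theorem mem_intPB : y ∈ interior (G.PB c s) ↔
    (∀ k, k ≠ K.nrm s → K.slo s k + c * G.p s < y k ∧ y k < K.shi s k - c * G.p s) ∧
      |y (K.nrm s) - K.slo s (K.nrm s)| < B.τ s := by
  have h0 := fun z : V => Geo.mem_PB (G := G) (c := c) (s := s) (y := z)
  constructor
  · intro h
    obtain ⟨ε, hε, hb⟩ := Metric.isOpen_iff.1 isOpen_interior y h
    have key : ∀ (k : Fin 3) (t : ℝ), |t| < ε →
        Function.update y k (y k + t) ∈ G.PB c s := by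
      intro k t ht
      refine interior_subset (hb ?_)
      rw [mem_ball, dist_pi_lt_iff hε]
      intro l
      by_cases hl : l = k
      · subst hl
        rw [Function.update_self, Real.dist_eq]
        have e : y l + t - y l = t := by ring
        rwa [e]
      · rw [Function.update_of_ne hl, dist_self]
        exact hε
    have h2 : |ε / 2| < ε := by rw [abs_of_pos (by positivity)]; linarith
    have h2' : |-(ε / 2)| < ε := by rw [abs_neg]; exact h2
    constructor
    · intro k hk
      have a1 := ((h0 _).1 (key k (ε / 2) h2)).1 k hk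
      have a2 := ((h0 _).1 (key k (-(ε / 2)) h2')).1 k hk
      rw [Function.update_self] at a1 a2
      constructor <;> linarith
    · have a1 := ((h0 _).1 (key (K.nrm s) (ε / 2) h2)).2
      have a2 := ((h0 _).1 (key (K.nrm s) (-(ε / 2)) h2')).2
      rw [Function.update_self] at a1 a2
      have b1 := abs_le.1 a1
      have b2 := abs_le.1 a2
      rw [abs_lt]
      constructor <;> linarith
  · rintro ⟨h1, h2⟩
    have ho : IsOpen {z : V | (∀ k, k ≠ K.nrm s → K.slo s k + c * G.p s < z k ∧
        z k < K.shi s k - c * G.p s) ∧ |z (K.nrm s) - K.slo s (K.nrm s)| < B.τ s} := by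
      simp only [ofPred_and, ofPred_forall]
      refine IsOpen.inter (isOpen_iInter_of_finite fun k => isOpen_iInter_of_finite fun _ =>
        IsOpen.inter ?_ ?_) ?_
      · exact isOpen_lt continuous_const (continuous_apply k)
      · exact isOpen_lt (continuous_apply k) continuous_const
      · exact isOpen_lt (by fun_prop) continuous_const
    exact mem_interior.2 ⟨_, fun z hz => (h0 z).2 ⟨fun k hk => ⟨(hz.1 k hk).1.le,
      (hz.1 k hk).2.le⟩, hz.2.le⟩, ho, h1, h2⟩

/-- the moves respect the interiors of the plate boxes -/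
theorem MvB.int_PB (h : MvB G S₀ Xw d η y y') (hc : 3 / 4 ≤ c) (hc1 : c ≤ 1)
    (hy : y ∈ interior (G.PB c s)) : y' ∈ interior (G.PB c s) := by
  rcases h with rfl | ⟨s', hs', h1, h2, h3, h4⟩
  · exact hy
  have hPK : y ∈ PK G s := PB_sub_PK hc s (interior_subset hy)
  obtain rfl := PK_unique hPK h1
  obtain ⟨a1, a2⟩ := mem_intPB.1 hy
  refine mem_intPB.2 ⟨fun k hk => ?_, by rw [h3]; exact a2⟩
  have e := tg_bt s hk
  rw [← e] at hk ⊢
  rcases (h4 (bt s k)).1 with b1 | ⟨-, b1⟩
  · rw [b1]
    exact a1 _ hk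
  · have hp := G.p_pos s
    have hpa := G.p_a s
    have hcp : c * G.p s ≤ G.p s := mul_le_of_le_one_left hp.le hc1
    have b2 := b1.1
    have b3 := b1.2
    constructor <;> linarith

/-- the moves respect the interiors of the plate boxes, backwards -/
theorem MvB.int_PB' (h : MvB G S₀ Xw d η y y') (hc : 3 / 4 ≤ c) (hc1 : c ≤ 1)
    (hy : y' ∈ interior (G.PB c s)) : y ∈ interior (G.PB c s) := by
  rcases h with rfl | ⟨s', hs', h1, h2, h3, h4⟩
  · exact hy
  have hPK : y' ∈ PK G s := PB_sub_PK hc s (interior_subset hy)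
  obtain rfl := PK_unique hPK h2
  obtain ⟨a1, a2⟩ := mem_intPB.1 hy
  refine mem_intPB.2 ⟨fun k hk => ?_, by rw [← h3]; exact a2⟩
  have e := tg_bt s hk
  rw [← e] at hk ⊢
  rcases (h4 (bt s k)).1 with b1 | ⟨b1, -⟩
  · rw [← b1]
    exact a1 _ hk
  · have hp := G.p_pos s
    have hpa := G.p_a s
    have hcp : c * G.p s ≤ G.p s := mul_le_of_le_one_left hp.le hc1
    have b2 := b1.1
    have b3 := b1.2
    constructor <;> linarith

end P073.H228.EP
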