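import Vale.Agent.P073.H190.RelIn
import Vale.Agent.P073.H523.TopP

/-!
# P073, H190, [EDGE-P]: the number of the fade of the second staircases

`S4.fade_le`: `4 * e / τ ≤ 2 * muP / τ` for the second staircases of `S4`; `S4.fade_num`: the number
`q (m + q)` of `hkGO_rel_w` and `hkGO_rel_far`.
-/

open Set Metric Topology Filter
open scoped ENNReal

set_option linter.unusedSectionVars false

namespace Vale.Agent.P073.H267.K3

open _root_.P073 _root_.P073.Net _root_.P073.PA691 _root_.P073.H236 _root_.P073.H579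
open _root_.P073.H345 (PK tg PLev)
open _root_.P073.H880.RP
open _root_.P073.H919 (sfam esg bw_pos esg_pos)
open _root_.P073.H237.Cov (pst)
open Vale.Agent.P073.St (V)
open Vale.Agent.P073.H471 Vale.Agent.P073.H267
open Vale.Agent.P073.H73 (Mesh)
open Vale.Agent.P073.H193 (Edges Cyc edges)
open Vale.Agent.P073.H926
open Vale.Agent.P073.H238.K3

variable {c₀ n δ : ℝ} {j : ℕ} {Ω Λ : Set V} {v w : V} {ρ : V → ℝ} {M : Mesh Ω} {h : ConHomeo Ω Λ}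
  {J₀ J : Set (ℕ × (Fin 3 → ℤ))} {P Z : Set M.ι} {K : BoxCx Λ w}
  {D : KIn3 c₀ n j δ v w ρ M h J₀ J P Z} {C : Cells ρ w K} {C₀ μT : ℝ}
  {X : S1 D C C₀ μT} {Y₂ : S2 X} {Ys : Set M.κ} {sc : Sharp} {Y₃ : S3 Y₂ Ys sc}

/-- the half gaps of the second staircases -/
theorem S4.e_le_muP (Y₄ : S4 Y₃) (β : Bool) (s : (D.dat C).S₀) :
    (sfam (Y₃.F β) (fun s => Y₄.q s * Y₄.r s) Y₄.p0 Y₄.p1).e s ≤ Y₂.muP s.1 / 2 := by
  have h1 := bw_pos (Y₃.F β) s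
  have h2 := Y₄.p0 s
  have hB := Y₃.ps.B β s
  have h3 : pst Y₃.Lt s.1 β ≤ Y₂.muP s.1 := Y₂.pst_le_mu s.1 β
  have e1 : stp ((Y₃.F β).B s).N ((Y₃.F β).B s).al ((Y₃.F β).B s).be =
      pst Y₃.Lt s.1 β := by
    rw [hB.N, hB.al, hB.be]
    rfl
  change esg (Y₃.F β) (fun s => Y₄.q s * Y₄.r s) s ≤ _
  unfold esg
  rw [e1]
  have h4 := mul_pos h2 h1
  linarith

theorem S4.fade_le (Y₄ : S4 Y₃) (β : Bool) (s : (D.dat C).S₀) :
    4 * (sfam (Y₃.F β) (fun s => Y₄.q s * Y₄.r s) Y₄.p0 Y₄.p1).e s / (D.B C).τ s.1 ≤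
      2 * Y₂.muP s.1 / (D.B C).τ s.1 := by
  have h1 := (D.B C).τ_pos s.1
  have h2 := Y₄.e_le_muP β s
  rw [div_le_div_iff_of_pos_right h1]
  linarith

/-- **the number of the fade** -/
theorem S4.fade_num {s : K.S} {m : ℝ} (hm : m ≤ 4) (h : 2 * Y₂.muP s ≤ (D.B C).τ s) :
    2 * Y₂.muP s / (D.B C).τ s * (m + 2 * Y₂.muP s / (D.B C).τ s) ≤
      10 * Y₂.muP s / (D.B C).τ s := by
  have h1 := (D.B C).τ_pos s
  have h2 : 0 < Y₂.muP s := by
    have h3 := Y₂.Lw.δμ s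
    have h4 := Y₂.Lw.δ0 s
    linarith
  have h3 : 0 < 2 * Y₂.muP s / (D.B C).τ s := by positivity
  have h4 : 2 * Y₂.muP s / (D.B C).τ s ≤ 1 := (div_le_one h1).2 h
  have h5 : 10 * Y₂.muP s / (D.B C).τ s = 2 * Y₂.muP s / (D.B C).τ s * 5 := by ring
  rw [h5]
  exact mul_le_mul_of_nonneg_left (by linarith) h3.le

end Vale.Agent.P073.H267.K3
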