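import Vale.Agent.P073.H237.SharpDefs
import Vale.Agent.P073.H236.Stair2
import Vale.Agent.P073.H155.Sq
import Vale.Agent.P073.ConicalStrata2

/-!
# P073, SHARP2 (X1): charts of the unit square with base corner `(0,0)`
-/

open Set Metric Topology Filter

namespace Vale.Agent.P073.H190

open _root_.P073 _root_.P073.H31 _root_.P073.H237 _root_.P073.H155

/-- conical maps on compact convex subsets of the plane are Lipschitz -/
theorem exists_lip_cmp {E F : Type*} [NormedAddCommGroup E] [NormedSpace ℝ E]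
    [FiniteDimensional ℝ E] [NormedAddCommGroup F] [NormedSpace ℝ F] {h : E → F}
    (H : ConicalOn h univ) (hc : Continuous h) {K : Set E} (hK : IsCompact K) :
    ∃ C : ℝ, 0 < C ∧ ∀ x ∈ K, ∀ y ∈ K, ‖h x - h y‖ ≤ C * ‖x - y‖ := by
  choose δ hδ _ M hM using fun x : E => exists_lipschitz_near isOpen_univ H hc.continuousOn
    (mem_univ x)
  obtain ⟨T, hT⟩ := hK.elim_nhds_subcover' (fun x _ => ball x (δ x))
    (fun x _ => ball_mem_nhds x (hδ x))
  obtain ⟨ε, hε, hL⟩ := lebesgue_number_lemma_of_metric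
    (c := fun x : {x // x ∈ T} => ball (x.1 : E) (δ x.1)) hK
    (fun x => isOpen_ball) (by
      intro y hy
      obtain ⟨x, hx, hxy⟩ := mem_iUnion₂.1 (hT hy)
      exact mem_iUnion.2 ⟨⟨x, hx⟩, hxy⟩)
  obtain ⟨B, hB⟩ := (hK.image_of_continuousOn hc.continuousOn).isBounded.exists_norm_le
  have hS : (0:ℝ) ≤ ∑ x ∈ T, (M x.1 : ℝ) := Finset.sum_nonneg fun x _ => (M _).2
  have hBε : 0 ≤ 2 * |B| / ε := by positivity
  refine ⟨(∑ x ∈ T, (M x.1 : ℝ)) + 2 * |B| / ε + 1, by positivity,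
    fun x hx y hy => ?_⟩
  by_cases hxy : ‖x - y‖ < ε
  · obtain ⟨z, hz⟩ := hL x hx
    have h1 := (hM z.1).dist_le_mul x (hz (mem_ball_self hε)) y
      (hz (by rw [mem_ball, dist_comm, dist_eq_norm]; exact hxy))
    rw [dist_eq_norm, dist_eq_norm] at h1
    refine h1.trans (mul_le_mul_of_nonneg_right ?_ (norm_nonneg _))
    have h2 : (M z.1 : ℝ) ≤ ∑ x ∈ T, (M x.1 : ℝ) :=
      Finset.single_le_sum (f := fun x : K => (M x.1 : ℝ)) (fun x _ => (M _).2) z.2
    linarith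
  · push Not at hxy
    have h1 : ‖h x‖ ≤ |B| := (hB _ ⟨x, hx, rfl⟩).trans (le_abs_self B)
    have h2 : ‖h y‖ ≤ |B| := (hB _ ⟨y, hy, rfl⟩).trans (le_abs_self B)
    calc ‖h x - h y‖ ≤ ‖h x‖ + ‖h y‖ := norm_sub_le _ _
      _ ≤ 2 * |B| / ε * ε := by rw [div_mul_cancel₀ _ hε.ne']; linarith
      _ ≤ 2 * |B| / ε * ‖x - y‖ := mul_le_mul_of_nonneg_left hxy hBε
      _ ≤ _ := mul_le_mul_of_nonneg_right (by linarith) (norm_nonneg _)

/-- conical homeomorphisms of the square are Lipschitz -/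
theorem exists_lip_Rct {f : ℝ × ℝ → ℝ × ℝ} (hc : ContinuousOn f Rct) (hk : ConicalOn f Rct) :
    ∃ C : ℝ, 0 < C ∧ ∀ x ∈ Rct, ∀ y ∈ Rct, dist (f x) (f y) ≤ C * dist x y := by
  have pid : PLc fun x : ℝ × ℝ => x := PLc.id
  set pr : ℝ × ℝ → ℝ × ℝ := fun x => (cl1 x.1, cl1 x.2) with hpr
  have hp : PLc pr := pid.fst.cl1.prodMk pid.snd.cl1
  have c01 : ∀ t : ℝ, cl1 t ∈ Icc (0:ℝ) 1 := fun t => by
    unfold cl1
    exact ⟨le_max_left _ _, max_le zero_le_one (min_le_left _ _)⟩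
  have hm : MapsTo pr univ Rct := fun x _ => ⟨c01 _, c01 _⟩
  have hfix : ∀ x ∈ Rct, pr x = x := fun x hx => by
    refine Prod.ext ?_ ?_
    · exact cl1_eq_self hx.1.1 hx.1.2
    · exact cl1_eq_self hx.2.1 hx.2.2
  have hk' : ConicalOn (fun x => f (pr x)) univ := hk.comp hp.k hm hp.c.continuousOn
  have hc' : Continuous fun x => f (pr x) := by
    rw [← continuousOn_univ]
    exact hc.comp hp.c.continuousOn hm
  obtain ⟨C, hC, h⟩ := exists_lip_cmp hk' hc' Rct_compact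
  refine ⟨C, hC, fun x hx y hy => ?_⟩
  have := h x hx y hy
  rw [hfix x hx, hfix y hy] at this
  rwa [dist_eq_norm, dist_eq_norm]

/-- the path around the square, in the positive direction, starting at the corner `(0,0)` -/
noncomputable def pc (t : ℝ) : ℝ × ℝ := (cl1 t - cl1 (t - 2), cl1 (t - 1) - cl1 (t - 3))

theorem pc_a {t : ℝ} (h0 : 0 ≤ t) (h1 : t ≤ 1) : pc t = (t, 0) := by
  unfold pc
  rw [cl1_eq_self h0 h1, cl1_eq_zero (by linarith), cl1_eq_zero (by linarith),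
    cl1_eq_zero (by linarith)]
  simp

theorem pc_b {t : ℝ} (h0 : 1 ≤ t) (h1 : t ≤ 2) : pc t = (1, t - 1) := by
  unfold pc
  rw [cl1_eq_one h0, cl1_eq_zero (by linarith), cl1_eq_self (by linarith) (by linarith),
    cl1_eq_zero (by linarith)]
  simp

theorem pc_c {t : ℝ} (h0 : 2 ≤ t) (h1 : t ≤ 3) : pc t = (3 - t, 1) := by
  unfold pc
  rw [cl1_eq_one (by linarith), cl1_eq_self (by linarith) (by linarith),
    cl1_eq_one (by linarith), cl1_eq_zero (by linarith)]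
  refine Prod.ext ?_ ?_
  · show 1 - (t - 2) = 3 - t
    ring
  · simp

theorem pc_d {t : ℝ} (h0 : 3 ≤ t) (h1 : t ≤ 4) : pc t = (0, 4 - t) := by
  unfold pc
  rw [cl1_eq_one (by linarith), cl1_eq_one (by linarith), cl1_eq_one (by linarith),
    cl1_eq_self (by linarith) (by linarith)]
  refine Prod.ext ?_ ?_
  · simp
  · show 1 - (t - 3) = 4 - t
    ring

theorem plc_pc : PLc pc := by
  have pid : PLc fun x : ℝ => x := PLc.id
  exact (pid.cl1.sub (pid.sub (PLc.const 2)).cl1).prodMk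
    ((pid.sub (PLc.const 1)).cl1.sub (pid.sub (PLc.const 3)).cl1)

theorem cases4 {t : ℝ} (h0 : 0 ≤ t) (h1 : t ≤ 4) : (0 ≤ t ∧ t ≤ 1) ∨ (1 ≤ t ∧ t ≤ 2) ∨
    (2 ≤ t ∧ t ≤ 3) ∨ (3 ≤ t ∧ t ≤ 4) := by
  rcases le_total t 1 with h | h
  · exact Or.inl ⟨h0, h⟩
  rcases le_total t 2 with h' | h'
  · exact Or.inr (Or.inl ⟨h, h'⟩)
  rcases le_total t 3 with h2 | h2
  · exact Or.inr (Or.inr (Or.inl ⟨h', h2⟩))
  · exact Or.inr (Or.inr (Or.inr ⟨h2, h1⟩))

theorem pc_injOn : InjOn pc (Ico 0 4) := by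
  intro s hs t ht hst
  have hs4 := hs.2
  have ht4 := ht.2
  rcases cases4 hs.1 hs.2.le with h | h | h | h <;>
    rcases cases4 ht.1 ht.2.le with h' | h' | h' | h'
  · rw [pc_a h.1 h.2, pc_a h'.1 h'.2, Prod.mk.injEq] at hst; linarith [hst.1]
  · rw [pc_a h.1 h.2, pc_b h'.1 h'.2, Prod.mk.injEq] at hst; linarith [hst.1, hst.2]
  · rw [pc_a h.1 h.2, pc_c h'.1 h'.2, Prod.mk.injEq] at hst; linarith [hst.1, hst.2]
  · rw [pc_a h.1 h.2, pc_d h'.1 h'.2, Prod.mk.injEq] at hst; linarith [hst.1, hst.2]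
  · rw [pc_b h.1 h.2, pc_a h'.1 h'.2, Prod.mk.injEq] at hst; linarith [hst.1, hst.2]
  · rw [pc_b h.1 h.2, pc_b h'.1 h'.2, Prod.mk.injEq] at hst; linarith [hst.1, hst.2]
  · rw [pc_b h.1 h.2, pc_c h'.1 h'.2, Prod.mk.injEq] at hst; linarith [hst.1, hst.2]
  · rw [pc_b h.1 h.2, pc_d h'.1 h'.2, Prod.mk.injEq] at hst; linarith [hst.1, hst.2]
  · rw [pc_c h.1 h.2, pc_a h'.1 h'.2, Prod.mk.injEq] at hst; linarith [hst.1, hst.2]
  · rw [pc_c h.1 h.2, pc_b h'.1 h'.2, Prod.mk.injEq] at hst; linarith [hst.1, hst.2]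
  · rw [pc_c h.1 h.2, pc_c h'.1 h'.2, Prod.mk.injEq] at hst; linarith [hst.1, hst.2]
  · rw [pc_c h.1 h.2, pc_d h'.1 h'.2, Prod.mk.injEq] at hst; linarith [hst.1, hst.2]
  · rw [pc_d h.1 h.2, pc_a h'.1 h'.2, Prod.mk.injEq] at hst; linarith [hst.1, hst.2]
  · rw [pc_d h.1 h.2, pc_b h'.1 h'.2, Prod.mk.injEq] at hst; linarith [hst.1, hst.2]
  · rw [pc_d h.1 h.2, pc_c h'.1 h'.2, Prod.mk.injEq] at hst; linarith [hst.1, hst.2]
  · rw [pc_d h.1 h.2, pc_d h'.1 h'.2, Prod.mk.injEq] at hst; linarith [hst.1, hst.2]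

theorem pc_image : pc '' Icc 0 4 = bR := by
  refine Subset.antisymm ?_ ?_
  · rintro _ ⟨t, ht, rfl⟩
    rcases cases4 ht.1 ht.2 with h | h | h | h
    · rw [pc_a h.1 h.2]
      exact ⟨⟨⟨h.1, h.2⟩, le_rfl, zero_le_one⟩, Or.inr (Or.inr (Or.inl rfl))⟩
    · rw [pc_b h.1 h.2]
      exact ⟨⟨⟨zero_le_one, le_rfl⟩, by show (0:ℝ) ≤ t - 1; linarith,
        by show t - 1 ≤ (1:ℝ); linarith⟩, Or.inr (Or.inl rfl)⟩
    · rw [pc_c h.1 h.2]
      exact ⟨⟨⟨by show (0:ℝ) ≤ 3 - t; linarith, by show 3 - t ≤ (1:ℝ); linarith⟩,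
        zero_le_one, le_rfl⟩, Or.inr (Or.inr (Or.inr rfl))⟩
    · rw [pc_d h.1 h.2]
      exact ⟨⟨⟨le_rfl, zero_le_one⟩, by show (0:ℝ) ≤ 4 - t; linarith,
        by show 4 - t ≤ (1:ℝ); linarith⟩, Or.inl rfl⟩
  · rintro ⟨a, b⟩ ⟨⟨⟨ha0, ha1⟩, hb0, hb1⟩, h⟩
    simp only at ha0 ha1 hb0 hb1 h
    rcases h with h | h | h | h
    · refine ⟨4 - b, ⟨by linarith, by linarith⟩, ?_⟩
      rw [pc_d (by linarith) (by linarith), h]; simp
    · refine ⟨1 + b, ⟨by linarith, by linarith⟩, ?_⟩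
      rw [pc_b (by linarith) (by linarith), h]; simp
    · refine ⟨a, ⟨by linarith, by linarith⟩, ?_⟩
      rw [pc_a ha0 ha1, h]
    · refine ⟨3 - a, ⟨by linarith, by linarith⟩, ?_⟩
      rw [pc_c (by linarith) (by linarith), h]; simp

/-- the parameter of a point of an edge -/
noncomputable def par (e : Fin 4) (t : ℝ) : ℝ :=
  match e with
  | 0 => t
  | 1 => 1 + t
  | 2 => 3 - t
  | 3 => 4 - t

theorem pc_par (e : Fin 4) {t : ℝ} (ht : t ∈ Icc (0:ℝ) 1) : pc (par e t) = ed e t := by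
  have h0 := ht.1
  have h1 := ht.2
  fin_cases e
  · exact pc_a h0 h1
  · show pc (1 + t) = (1, t)
    rw [pc_b (by linarith) (by linarith)]; simp
  · show pc (3 - t) = (t, 1)
    rw [pc_c (by linarith) (by linarith)]; simp
  · show pc (4 - t) = (0, t)
    rw [pc_d (by linarith) (by linarith)]; simp

theorem par_mem (e : Fin 4) {t : ℝ} (ht : t ∈ Icc (0:ℝ) 1) : par e t ∈ Icc (0:ℝ) 4 := by
  have h0 := ht.1
  have h1 := ht.2
  fin_cases e
  · exact ⟨h0, by show t ≤ 4; linarith⟩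
  · exact ⟨by show (0:ℝ) ≤ 1 + t; linarith, by show 1 + t ≤ 4; linarith⟩
  · exact ⟨by show (0:ℝ) ≤ 3 - t; linarith, by show 3 - t ≤ 4; linarith⟩
  · exact ⟨by show (0:ℝ) ≤ 4 - t; linarith, by show 4 - t ≤ 4; linarith⟩

theorem par_div (e : Fin 4) (t : ℝ) : par e t / 4 = tpBL e t := by
  fin_cases e <;> rfl

/-- nodes in the source -/
noncomputable def nx (m : ℝ) (i : ℕ) : ℝ := match i with
  | 0 => 0
  | 1 => m
  | 2 => 4 - m
  | _ => 4

/-- nodes in the target -/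
noncomputable def nv (m : ℝ) (i : ℕ) : ℝ := match i with
  | 0 => 0
  | 1 => 3 / 2 + m / 4
  | 2 => 5 / 2 - m / 4
  | _ => 4

/-- **[CHART]** -/
theorem specChart : SpecChart := by
  intro m hm hm'
  have hx : H236.Inc 3 (nx m) := by
    intro j hj
    interval_cases j
    · exact hm
    · show m < 4 - m
      linarith
    · show 4 - m < 4
      linarith
  have hv : H236.Inc 3 (nv m) := by
    intro j hj
    interval_cases j
    · show 0 < 3 / 2 + m / 4
      linarith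
    · show 3 / 2 + m / 4 < 5 / 2 - m / 4
      linarith
    · show 5 / 2 - m / 4 < 4
      linarith
  set τ := H236.pl 3 (nx m) (nv m) with hτ
  have hτm : StrictMono τ := H236.pl_strictMono hx hv
  have hτc : Continuous τ := H236.pl_continuous _ _ _
  have hτk : ConicalOn τ univ := H236.pl_conicalOn _ _ _
  have τ0 : τ 0 = 0 := H236.pl_apply (i := 0) hx (by norm_num)
  have τ4 : τ 4 = 4 := H236.pl_apply (i := 3) hx le_rfl
  have τmid : ∀ T ∈ Icc m (4 - m), τ T = 3 / 2 + T / 4 := by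
    intro T hT
    rw [hτ, H236.pl_piece hx (i := 1) (by norm_num) hT.1 hT.2]
    show (3 / 2 + m / 4) + (5 / 2 - m / 4 - (3 / 2 + m / 4)) / (4 - m - m) * (T - m) = _
    have : (4 - m - m) ≠ 0 := by linarith
    field_simp
    ring
  have hmaps : MapsTo τ (Icc 0 4) (Icc 0 4) := by
    intro T hT
    have h1 := hτm.monotone hT.1
    have h2 := hτm.monotone hT.2
    rw [τ0] at h1
    rw [τ4] at h2
    exact ⟨h1, h2⟩
  have hI : ConicalSet (Icc (0:ℝ) 4) := Convex.conicalSet (convex_Icc _ _)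
  have gc : ContinuousOn (fun T => pb (τ T)) (Icc 0 4) :=
    (continuous_pb.comp hτc).continuousOn
  have gk : ConicalOn (fun T => pb (τ T)) (Icc 0 4) :=
    ConicalOn.comp (Y := Icc (0:ℝ) 4) (conicalOn_pb hI) (hτk.mono hI (subset_univ _)) hmaps
      hτc.continuousOn
  have gi : InjOn (fun T => pb (τ T)) (Ico 0 4) := by
    intro s hs t ht hst
    have e : ∀ T ∈ Ico (0:ℝ) 4, τ T ∈ Ico (0:ℝ) 4 := by
      intro T hT
      refine ⟨(hmaps ⟨hT.1, hT.2.le⟩).1, ?_⟩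
      have := hτm hT.2
      rwa [τ4] at this
    exact hτm.injective (pb_injOn (e s hs) (e t ht) hst)
  have g0 : (fun T => pb (τ T)) 0 = (fun T => pb (τ T)) 4 := by
    simp only [τ0, τ4]
    exact pb_zero
  have gim : (fun T => pb (τ T)) '' Icc 0 4 = bR := by
    have h1 : τ '' Icc 0 4 = Icc 0 4 := by
      refine Subset.antisymm (image_subset_iff.2 hmaps) ?_
      have := intermediate_value_Icc (by norm_num : (0:ℝ) ≤ 4) hτc.continuousOn
      rwa [τ0, τ4] at this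
    have h2 : (fun T => pb (τ T)) '' Icc 0 4 = pb '' (τ '' Icc 0 4) := by rw [image_image]
    rw [h2, h1, pb_image]
  obtain ⟨φ, hφ⟩ := exists_circle (by norm_num : (0:ℝ) < 4) (f := pc) (g := fun T => pb (τ T))
    plc_pc.c.continuousOn (plc_pc.kOn hI) pc_injOn (by
      rw [pc_a le_rfl zero_le_one, pc_d (by norm_num) le_rfl]; norm_num) gc gk gi g0
  let φ' : ConHomeo bR bR := φ.cast pc_image gim
  let κ : ConHomeo Rct Rct :=
    (ConHomeo.coneAt rayBase_bR rayBase_bR φ').cast cone_bR cone_bR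
  have hκ : EqOn κ.toFun φ.toFun bR := fun x hx =>
    ConHomeo.coneAt_eqOn rayBase_bR rayBase_bR φ' hx
  obtain ⟨K, hK, hl⟩ := exists_lip_Rct κ.cont κ.conical
  obtain ⟨K', hK', hl'⟩ := exists_lip_Rct κ.cont_inv κ.conical_inv
  refine ⟨K + K', by positivity, κ, ?_, ?_, fun x hx y hy => (hl x hx y hy).trans ?_,
    fun x hx y hy => (hl' x hx y hy).trans ?_⟩
  · rw [image_congr hκ]
    exact φ'.image_eq
  · intro e t ht hme
    have hp := par_mem e ht
    have h1 : ed e t ∈ bR := by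
      rw [← pc_image, ← pc_par e ht]
      exact mem_image_of_mem _ hp
    have h2 : par e t ∈ Icc m (4 - m) := by
      have h0 := ht.1
      have h1 := ht.2
      fin_cases e
      · have := hme (Or.inl rfl)
        exact ⟨this, by show t ≤ 4 - m; linarith⟩
      · exact ⟨by show m ≤ 1 + t; linarith, by show 1 + t ≤ 4 - m; linarith⟩
      · exact ⟨by show m ≤ 3 - t; linarith, by show 3 - t ≤ 4 - m; linarith⟩
      · have := hme (Or.inr rfl)
        exact ⟨by show m ≤ 4 - t; linarith, by show 4 - t ≤ 4 - m; linarith⟩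
    rw [hκ h1, ← pc_par e ht, hφ _ hp, τmid _ h2, pb_c (by linarith [hp.1]) (by linarith [hp.2]),
      ← par_div]
    congr 1
    ring
  · gcongr
    linarith
  · gcongr
    linarith

/-- the rotation of the square by the angle `π` -/
noncomputable def rot : ConHomeo Rct Rct :=
  mkCon (f := fun x : ℝ × ℝ => (1 - x.1, 1 - x.2)) (g := fun x : ℝ × ℝ => (1 - x.1, 1 - x.2))
    (((PLc.const 1).sub (PLc.fst PLc.id)).prodMk ((PLc.const 1).sub (PLc.snd PLc.id)))
    (((PLc.const 1).sub (PLc.fst PLc.id)).prodMk ((PLc.const 1).sub (PLc.snd PLc.id)))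
    Rct_convex.conicalSet
    (fun x hx => ⟨⟨by show 0 ≤ 1 - x.1; linarith [hx.1.2], by show 1 - x.1 ≤ 1; linarith [hx.1.1]⟩,
      by show 0 ≤ 1 - x.2; linarith [hx.2.2], by show 1 - x.2 ≤ 1; linarith [hx.2.1]⟩)
    (fun x hx => ⟨⟨by show 0 ≤ 1 - x.1; linarith [hx.1.2], by show 1 - x.1 ≤ 1; linarith [hx.1.1]⟩,
      by show 0 ≤ 1 - x.2; linarith [hx.2.2], by show 1 - x.2 ≤ 1; linarith [hx.2.1]⟩)
    (fun x _ => by simp) (fun x _ => by simp)

theorem rot_apply (x : ℝ × ℝ) : rot.toFun x = (1 - x.1, 1 - x.2) := rfl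

theorem rot_dist (x y : ℝ × ℝ) : dist (rot.toFun x) (rot.toFun y) = dist x y := by
  rw [rot_apply, rot_apply, Prod.dist_eq, Prod.dist_eq]
  congr 1
  · exact dist_sub_left 1 x.1 y.1
  · exact dist_sub_left 1 x.2 y.2

theorem rot_bR : rot.toFun '' bR = bR := by
  have h : ∀ x ∈ bR, rot.toFun x ∈ bR := by
    rintro ⟨a, b⟩ ⟨hx, h⟩
    refine ⟨rot.mapsTo hx, ?_⟩
    rw [rot_apply]
    simp only at h ⊢
    rcases h with h | h | h | h
    · right; left; rw [h, sub_zero]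
    · left; rw [h, sub_self]
    · right; right; right; rw [h, sub_zero]
    · right; right; left; rw [h, sub_self]
  refine Subset.antisymm (image_subset_iff.2 h) fun x hx => ⟨rot.toFun x, h x hx, ?_⟩
  rw [rot_apply, rot_apply]
  simp

/-- the opposite edge -/
def op (e : Fin 4) : Fin 4 := match e with
  | 0 => 2
  | 1 => 3
  | 2 => 0
  | 3 => 1

theorem rot_ed (e : Fin 4) (t : ℝ) : rot.toFun (ed e t) = ed (op e) (1 - t) := by
  rw [rot_apply]
  fin_cases e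
  · show ((1 - t, 1 - 0) : ℝ × ℝ) = (1 - t, 1); simp
  · show ((1 - 1, 1 - t) : ℝ × ℝ) = (0, 1 - t); simp
  · show ((1 - t, 1 - 1) : ℝ × ℝ) = (1 - t, 0); simp
  · show ((1 - 0, 1 - t) : ℝ × ℝ) = (1, 1 - t); simp

theorem tp_op (e : Fin 4) (t : ℝ) : tpBL (op e) (1 - t) = tpTR e t := by
  fin_cases e
  · show (3 - (1 - t)) / 4 = (2 + t) / 4; ring
  · show (4 - (1 - t)) / 4 = (3 + t) / 4; ring
  · show (1 - t) / 4 = (1 - t) / 4; rfl
  · show (1 + (1 - t)) / 4 = (2 - t) / 4; ring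

/-- charts with base corner `(1,1)` -/
theorem chartTR_of {m K : ℝ} {κ : ConHomeo Rct Rct} (h : ChartBL m K κ) :
    ChartTR m K (rot.trans κ) := by
  refine ⟨?_, ?_, ?_, ?_⟩
  · show (fun x => κ.toFun (rot.toFun x)) '' bR = bR
    rw [← image_image, rot_bR, h.bd]
  · intro e t ht hme
    show κ.toFun (rot.toFun (ed e t)) = _
    rw [rot_ed, h.top (op e) (1 - t) ⟨by linarith [ht.2], by linarith [ht.1]⟩, tp_op]
    intro he
    have : e = 1 ∨ e = 2 := by
      fin_cases e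
      · rcases he with he | he <;> exact absurd he (by decide)
      · left; rfl
      · right; rfl
      · rcases he with he | he <;> exact absurd he (by decide)
    linarith [hme this]
  · intro x hx y hy
    show dist (κ.toFun (rot.toFun x)) (κ.toFun (rot.toFun y)) ≤ _
    rw [← rot_dist x y]
    exact h.lip _ (rot.mapsTo hx) _ (rot.mapsTo hy)
  · intro x hx y hy
    show dist (rot.toFun (κ.invFun x)) (rot.toFun (κ.invFun y)) ≤ _
    rw [rot_dist]
    exact h.lip' x hx y hy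

/-- **[CHART]**, base corner `(1,1)` -/
theorem specChartTR {m : ℝ} (hm : 0 < m) (hm' : m < 1 / 4) :
    ∃ K : ℝ, 0 < K ∧ ∃ κ : ConHomeo Rct Rct, ChartTR m K κ := by
  obtain ⟨K, hK, κ, h⟩ := specChart m hm hm'
  exact ⟨K, hK, _, chartTR_of h⟩

end Vale.Agent.P073.H190
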