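import Vale.Agent.P073.H237.SharpDefs
import Vale.Agent.P073.H236.Stair2

/-!
# P073, SHARP2 (X4): piecewise affine homeomorphisms of the line with given nodes
-/

open Set Metric Topology Filter

namespace Vale.Agent.P073.H190

open _root_.P073 _root_.P073.H236 _root_.P073.H237

/-- **[NODES]** -/
theorem specNodes : SpecNodes := by
  intro n x y L η hn hL hx0 hy0 hxn hyn hx hy hs hη
  have hslp : ∀ j < n, slp x y j ≤ L := fun j hj => by
    unfold slp
    rw [div_le_iff₀ (sub_pos.2 (hx j hj))]
    exact hs j hj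
  refine ⟨pl n x y, pl n y x, ⟨pl_strictMono hx hy, pl_pl hx hy, pl_pl hy hx,
    pl_continuous n x y, pl_continuous n y x, pl_conicalOn n x y, pl_conicalOn n y x, ?_, ?_,
    abs_pl_sub_le hx (fun j hj => (hy j hj).le) hL hslp⟩, ?_, ?_⟩
  · rw [← hx0, pl_apply hx (Nat.zero_le n), hy0, hx0]
  · rw [← hxn, pl_apply hx le_rfl, hyn, hxn]
  · intro t _
    exact abs_pl_sub_self_le hx hη t
  · intro i hi t ht
    rw [pl_piece hx hi ht.1 ht.2]
    unfold slp
    ring

end Vale.Agent.P073.H190
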