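import Vale.Agent.P073.H237.SharpDefs
import Vale.Agent.P073.H236.Clip

/-!
# P073, SHARP2 (X3): four boundary maps extend to the square by clip maps
-/

open Set Metric Topology Filter

namespace Vale.Agent.P073.H190

open _root_.P073 _root_.P073.H31 _root_.P073.H237

/-- the cut-off -/
noncomputable def mu (b η s : ℝ) : ℝ := η * max 0 (1 - s / b)

section

variable {b η s s' : ℝ}

theorem mu_nonneg (hη : 0 ≤ η) : 0 ≤ mu b η s := mul_nonneg hη (le_max_left _ _)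

theorem mu_zero : mu b η 0 = η := by
  unfold mu
  rw [zero_div, sub_zero, max_eq_right zero_le_one, mul_one]

theorem mu_of_ge (hb : 0 < b) (hs : b ≤ s) : mu b η s = 0 := by
  unfold mu
  have : 1 ≤ s / b := by rwa [le_div_iff₀ hb, one_mul]
  rw [max_eq_left (by linarith), mul_zero]

theorem abs_mu_sub_le (hb : 0 < b) (hη : 0 ≤ η) (hηb : η ≤ b) :
    |mu b η s - mu b η s'| ≤ |s - s'| := by
  unfold mu
  rw [← mul_sub, abs_mul, abs_of_nonneg hη]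
  have h1 : |max 0 (1 - s / b) - max 0 (1 - s' / b)| ≤ |s - s'| / b := by
    refine (abs_max_sub_max_le_max 0 (1 - s / b) 0 (1 - s' / b)).trans ?_
    rw [sub_self, abs_zero]
    refine max_le (by positivity) (le_of_eq ?_)
    have : 1 - s / b - (1 - s' / b) = -((s - s') / b) := by ring
    rw [this, abs_neg, abs_div, abs_of_pos hb]
  calc η * |max 0 (1 - s / b) - max 0 (1 - s' / b)| ≤ η * (|s - s'| / b) := by gcongr
    _ ≤ b * (|s - s'| / b) := by gcongr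
    _ = |s - s'| := by field_simp

/-- the shear of one coordinate `t`, depending on the other one `s` -/
noncomputable def sh (k₀ k₁ : ℝ → ℝ) (b η s t : ℝ) : ℝ :=
  H236.cl k₁ (mu b η (1 - s)) (H236.cl k₀ (mu b η s) t)

/-- its inverse -/
noncomputable def sh' (k₀ k₁ : ℝ → ℝ) (b η s t : ℝ) : ℝ :=
  H236.cl k₀ (mu b η s) (H236.cl k₁ (mu b η (1 - s)) t)

variable {k₀ k₀' k₁ k₁' : ℝ → ℝ} {L t t' : ℝ}

theorem PL1.mono' (h : PL1 L k₀ k₀') : Monotone k₀' := by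
  intro s t hst
  by_contra hcon
  have := h.mono (not_le.1 hcon)
  rw [h.inv', h.inv'] at this
  linarith

theorem sh_inv (hη : 0 ≤ η) (h₀ : PL1 L k₀ k₀') (h₁ : PL1 L k₁ k₁') (s t : ℝ) :
    sh' k₀' k₁' b η s (sh k₀ k₁ b η s t) = t := by
  unfold sh sh'
  rw [H236.cl_cl h₁.mono h₁.inv (PL1.mono' h₁) (mu_nonneg hη),
    H236.cl_cl h₀.mono h₀.inv (PL1.mono' h₀) (mu_nonneg hη)]

theorem PL1.strictMono' (h : PL1 L k₀ k₀') : StrictMono k₀' := by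
  intro s t hst
  by_contra hcon
  have := h.mono.monotone (not_lt.1 hcon)
  rw [h.inv', h.inv'] at this
  linarith

theorem sh_inv' (hη : 0 ≤ η) (h₀ : PL1 L k₀ k₀') (h₁ : PL1 L k₁ k₁') (s t : ℝ) :
    sh k₀ k₁ b η s (sh' k₀' k₁' b η s t) = t := by
  unfold sh sh'
  rw [H236.cl_cl (PL1.strictMono' h₀) h₀.inv' h₀.mono.monotone (mu_nonneg hη),
    H236.cl_cl (PL1.strictMono' h₁) h₁.inv' h₁.mono.monotone (mu_nonneg hη)]

theorem sh_fix (hη : 0 ≤ η) (h₀ : k₀ t = t) (h₁ : k₁ t = t) : sh k₀ k₁ b η s t = t := by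
  unfold sh
  rw [H236.cl_fix (mu_nonneg hη) h₀, H236.cl_fix (mu_nonneg hη) h₁]

theorem sh'_fix (hη : 0 ≤ η) (h₀ : k₀ t = t) (h₁ : k₁ t = t) : sh' k₀ k₁ b η s t = t := by
  unfold sh'
  rw [H236.cl_fix (mu_nonneg hη) h₁, H236.cl_fix (mu_nonneg hη) h₀]

theorem PL1.zero' (h : PL1 L k₀ k₀') : k₀' 0 = 0 := by
  have := h.inv 0
  rwa [h.zero] at this

theorem PL1.one' (h : PL1 L k₀ k₀') : k₀' 1 = 1 := by
  have := h.inv 1
  rwa [h.one] at this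

theorem sh_mem (hη : 0 ≤ η) (h₀ : PL1 L k₀ k₀') (h₁ : PL1 L k₁ k₁') (ht : t ∈ Icc (0:ℝ) 1) :
    sh k₀ k₁ b η s t ∈ Icc (0:ℝ) 1 := by
  have hm : Monotone (sh k₀ k₁ b η s) := fun u v huv =>
    H236.cl_mono h₁.mono.monotone _ (H236.cl_mono h₀.mono.monotone _ huv)
  have e0 : sh k₀ k₁ b η s 0 = 0 := sh_fix hη h₀.zero h₁.zero
  have e1 : sh k₀ k₁ b η s 1 = 1 := sh_fix hη h₀.one h₁.one
  constructor
  · rw [← e0]; exact hm ht.1
  · rw [← e1]; exact hm ht.2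

theorem sh'_mem (hη : 0 ≤ η) (h₀ : PL1 L k₀ k₀') (h₁ : PL1 L k₁ k₁') (ht : t ∈ Icc (0:ℝ) 1) :
    sh' k₀' k₁' b η s t ∈ Icc (0:ℝ) 1 := by
  have hm : Monotone (sh' k₀' k₁' b η s) := fun u v huv =>
    H236.cl_mono (PL1.mono' h₀) _ (H236.cl_mono (PL1.mono' h₁) _ huv)
  have e0 : sh' k₀' k₁' b η s 0 = 0 := sh'_fix hη (PL1.zero' h₀) (PL1.zero' h₁)
  have e1 : sh' k₀' k₁' b η s 1 = 1 := sh'_fix hη (PL1.one' h₀) (PL1.one' h₁)
  constructor
  · rw [← e0]; exact hm ht.1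
  · rw [← e1]; exact hm ht.2

theorem sh_low (hb : 0 < b) (hs : s ≤ 1 - b) : sh k₀ k₁ b η s t = H236.cl k₀ (mu b η s) t := by
  unfold sh
  rw [mu_of_ge hb (by linarith : b ≤ 1 - s), H236.cl_zero]

theorem sh_high (hb : 0 < b) (hs : b ≤ s) :
    sh k₀ k₁ b η s t = H236.cl k₁ (mu b η (1 - s)) t := by
  unfold sh
  rw [mu_of_ge hb hs, H236.cl_zero]

theorem sh_mid (hb : 0 < b) (hs : b ≤ s) (hs' : s ≤ 1 - b) : sh k₀ k₁ b η s t = t := by
  rw [sh_low hb hs', mu_of_ge hb hs, H236.cl_zero]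

/-- the Lipschitz bound -/
theorem sh_lip (hb : 0 < b) (hb' : b < 1 / 4) (hη : 0 ≤ η) (hηb : η ≤ b) (h₀ : PL1 L k₀ k₀')
    (h₁ : PL1 L k₁ k₁') (hL : 1 ≤ L) (s s' t t' : ℝ) :
    |sh k₀ k₁ b η s t - sh k₀ k₁ b η s' t'| ≤ L * |t - t'| + |s - s'| := by
  have low : ∀ s s' t t' : ℝ, s ≤ 1 / 2 → s' ≤ 1 / 2 →
      |sh k₀ k₁ b η s t - sh k₀ k₁ b η s' t'| ≤ L * |t - t'| + |s - s'| := by
    intro s s' t t' hs hs'
    rw [sh_low hb (by linarith), sh_low hb (by linarith)]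
    exact (H236.abs_cl_sub_cl_le hL (h₀.lip t t')).trans
      (add_le_add le_rfl (abs_mu_sub_le hb hη hηb))
  have high : ∀ s s' t t' : ℝ, 1 / 2 ≤ s → 1 / 2 ≤ s' →
      |sh k₀ k₁ b η s t - sh k₀ k₁ b η s' t'| ≤ L * |t - t'| + |s - s'| := by
    intro s s' t t' hs hs'
    rw [sh_high hb (by linarith), sh_high hb (by linarith)]
    refine (H236.abs_cl_sub_cl_le hL (h₁.lip t t')).trans ?_
    have h1 := abs_mu_sub_le (s := 1 - s) (s' := 1 - s') hb hη hηb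
    have h2 : |1 - s - (1 - s')| = |s - s'| := by
      rw [abs_sub_comm s s']
      congr 1
      ring
    rw [h2] at h1
    exact add_le_add le_rfl h1
  have cross : ∀ s s' t t' : ℝ, s ≤ 1 / 2 → 1 / 2 ≤ s' →
      |sh k₀ k₁ b η s t - sh k₀ k₁ b η s' t'| ≤ L * |t - t'| + |s - s'| := by
    intro s s' t t' hs hs'
    have h1 := low s (1 / 2) t t hs le_rfl
    have h2 := high (1 / 2) s' t t' le_rfl hs'
    have h3 := abs_sub_le (sh k₀ k₁ b η s t) (sh k₀ k₁ b η (1 / 2) t) (sh k₀ k₁ b η s' t')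
    rw [sub_self, abs_zero, mul_zero, zero_add, abs_of_nonpos (by linarith : s - 1 / 2 ≤ 0)] at h1
    rw [abs_of_nonpos (by linarith : 1 / 2 - s' ≤ 0)] at h2
    rw [abs_of_nonpos (by linarith : s - s' ≤ 0)]
    linarith
  rcases le_total s (1 / 2) with h1 | h1
  · rcases le_total s' (1 / 2) with h2 | h2
    · exact low s s' t t' h1 h2
    · exact cross s s' t t' h1 h2
  · rcases le_total s' (1 / 2) with h2 | h2
    · rw [abs_sub_comm, abs_sub_comm t, abs_sub_comm s]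
      exact cross s' s t' t h2 h1
    · exact high s s' t t' h1 h2

end

/-! ### Conicality -/

theorem plc_mu {E : Type*} [NormedAddCommGroup E] [NormedSpace ℝ E] {f : E → ℝ} (hf : PLc f)
    (b η : ℝ) : PLc fun x => mu b η (f x) :=
  (((PLc.const 0).max ((PLc.const 1).sub (hf.divc b))).cmul η)

theorem plc_cl {E : Type*} [NormedAddCommGroup E] [NormedSpace ℝ E] {k : ℝ → ℝ} (hk : PLc k)
    {m f : E → ℝ} (hm : PLc m) (hf : PLc f) : PLc fun x => H236.cl k (m x) (f x) :=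
  (hf.sub hm).max ((hf.add hm).min (hk.comp hf))

theorem plc_sh {E : Type*} [NormedAddCommGroup E] [NormedSpace ℝ E] {k₀ k₁ : ℝ → ℝ} (h₀ : PLc k₀)
    (h₁ : PLc k₁) (b η : ℝ) {f g : E → ℝ} (hf : PLc f) (hg : PLc g) :
    PLc fun x => sh k₀ k₁ b η (f x) (g x) :=
  plc_cl h₁ (plc_mu ((PLc.const 1).sub hf) b η) (plc_cl h₀ (plc_mu hf b η) hg)

theorem plc_sh' {E : Type*} [NormedAddCommGroup E] [NormedSpace ℝ E] {k₀ k₁ : ℝ → ℝ} (h₀ : PLc k₀)
    (h₁ : PLc k₁) (b η : ℝ) {f g : E → ℝ} (hf : PLc f) (hg : PLc g) :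
    PLc fun x => sh' k₀ k₁ b η (f x) (g x) :=
  plc_cl h₀ (plc_mu hf b η) (plc_cl h₁ (plc_mu ((PLc.const 1).sub hf) b η) hg)

theorem conicalSet_Rct : ConicalSet Rct :=
  ((convex_Icc (0:ℝ) 1).prod (convex_Icc (0:ℝ) 1)).conicalSet

/-- **[SHEAR]** -/
theorem specShear : SpecShear := by
  intro L η b hL hb hb' hη hηb T T' hT hTη
  have hc : ∀ e, PLc (T e) := fun e => ⟨(hT e).c, (hT e).k⟩
  have hc' : ∀ e, PLc (T' e) := fun e => ⟨(hT e).c', (hT e).k'⟩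
  have pid : PLc fun x : ℝ × ℝ => x := PLc.id
  -- the horizontal map
  let H : ConHomeo Rct Rct := mkCon
    (f := fun x : ℝ × ℝ => (sh (T 0) (T 2) b η x.2 x.1, x.2))
    (g := fun x : ℝ × ℝ => (sh' (T' 0) (T' 2) b η x.2 x.1, x.2))
    ((plc_sh (hc 0) (hc 2) b η pid.snd pid.fst).prodMk pid.snd)
    ((plc_sh' (hc' 0) (hc' 2) b η pid.snd pid.fst).prodMk pid.snd) conicalSet_Rct
    (fun x hx => ⟨sh_mem hη (hT 0) (hT 2) hx.1, hx.2⟩)
    (fun x hx => ⟨sh'_mem hη (hT 0) (hT 2) hx.1, hx.2⟩)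
    (fun x _ => by
      show (sh' (T' 0) (T' 2) b η x.2 (sh (T 0) (T 2) b η x.2 x.1), x.2) = x
      rw [sh_inv hη (hT 0) (hT 2)])
    (fun x _ => by
      show (sh (T 0) (T 2) b η x.2 (sh' (T' 0) (T' 2) b η x.2 x.1), x.2) = x
      rw [sh_inv' hη (hT 0) (hT 2)])
  -- the vertical map
  let W : ConHomeo Rct Rct := mkCon
    (f := fun x : ℝ × ℝ => (x.1, sh (T 3) (T 1) b η x.1 x.2))
    (g := fun x : ℝ × ℝ => (x.1, sh' (T' 3) (T' 1) b η x.1 x.2))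
    (pid.fst.prodMk (plc_sh (hc 3) (hc 1) b η pid.fst pid.snd))
    (pid.fst.prodMk (plc_sh' (hc' 3) (hc' 1) b η pid.fst pid.snd)) conicalSet_Rct
    (fun x hx => ⟨hx.1, sh_mem hη (hT 3) (hT 1) hx.2⟩)
    (fun x hx => ⟨hx.1, sh'_mem hη (hT 3) (hT 1) hx.2⟩)
    (fun x _ => by
      show (x.1, sh' (T' 3) (T' 1) b η x.1 (sh (T 3) (T 1) b η x.1 x.2)) = x
      rw [sh_inv hη (hT 3) (hT 1)])
    (fun x _ => by
      show (x.1, sh (T 3) (T 1) b η x.1 (sh' (T' 3) (T' 1) b η x.1 x.2)) = x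
      rw [sh_inv' hη (hT 3) (hT 1)])
  have hS : ∀ x, (H.trans W).toFun x = (sh (T 0) (T 2) b η x.2 x.1,
      sh (T 3) (T 1) b η (sh (T 0) (T 2) b η x.2 x.1) x.2) := fun x => rfl
  have fH0 : ∀ s, sh (T 0) (T 2) b η s 0 = 0 := fun s => sh_fix hη (hT 0).zero (hT 2).zero
  have fH1 : ∀ s, sh (T 0) (T 2) b η s 1 = 1 := fun s => sh_fix hη (hT 0).one (hT 2).one
  have fW0 : ∀ s, sh (T 3) (T 1) b η s 0 = 0 := fun s => sh_fix hη (hT 3).zero (hT 1).zero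
  have fW1 : ∀ s, sh (T 3) (T 1) b η s 1 = 1 := fun s => sh_fix hη (hT 3).one (hT 1).one
  have a0 : ∀ e e' t, t ∈ Icc (0:ℝ) 1 → sh (T e) (T e') b η 0 t = T e t := by
    intro e e' t ht
    rw [sh_low hb (by linarith), mu_zero, H236.cl_eq (hTη e t ht)]
  have a1 : ∀ e e' t, t ∈ Icc (0:ℝ) 1 → sh (T e) (T e') b η 1 t = T e' t := by
    intro e e' t ht
    rw [sh_high hb (by linarith), sub_self, mu_zero, H236.cl_eq (hTη e' t ht)]
  refine ⟨H.trans W, ⟨?_, ?_, ?_, ?_⟩, ?_, ?_, ?_⟩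
  · intro x _ hx2
    rw [hS, hx2, fW0]
  · intro x _ hx2
    rw [hS, hx2, fW1]
  · intro x _ hx1
    rw [hS, hx1, fH0]
  · intro x _ hx1
    rw [hS, hx1, fH1]
  · intro e t ht
    rw [hS]
    fin_cases e
    · show (sh (T 0) (T 2) b η 0 t, sh (T 3) (T 1) b η (sh (T 0) (T 2) b η 0 t) 0) = (T 0 t, 0)
      rw [fW0, a0 0 2 t ht]
    · show (sh (T 0) (T 2) b η t 1, sh (T 3) (T 1) b η (sh (T 0) (T 2) b η t 1) t) = (1, T 1 t)
      rw [fH1, a1 3 1 t ht]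
    · show (sh (T 0) (T 2) b η 1 t, sh (T 3) (T 1) b η (sh (T 0) (T 2) b η 1 t) 1) = (T 2 t, 1)
      rw [fW1, a1 0 2 t ht]
    · show (sh (T 0) (T 2) b η t 0, sh (T 3) (T 1) b η (sh (T 0) (T 2) b η t 0) t) = (0, T 3 t)
      rw [fH0, a0 3 1 t ht]
  · intro x _ h1 h2 h3 h4
    rw [hS, sh_mid hb h3 h4, sh_mid hb h1 h2]
  · intro x _ y _
    rw [hS, hS, Prod.dist_eq]
    have hd1 : |x.1 - y.1| ≤ dist x y := by
      rw [Prod.dist_eq, ← Real.dist_eq]; exact le_max_left _ _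
    have hd2 : |x.2 - y.2| ≤ dist x y := by
      rw [Prod.dist_eq, ← Real.dist_eq]; exact le_max_right _ _
    have e1 := sh_lip hb hb' hη hηb (hT 0) (hT 2) hL x.2 y.2 x.1 y.1
    have e2 := sh_lip hb hb' hη hηb (hT 3) (hT 1) hL (sh (T 0) (T 2) b η x.2 x.1)
      (sh (T 0) (T 2) b η y.2 y.1) x.2 y.2
    have hL0 : 0 ≤ L := by linarith
    have e3 : L * |x.1 - y.1| ≤ L * dist x y := by gcongr
    have e4 : L * |x.2 - y.2| ≤ L * dist x y := by gcongr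
    have hd0 : 0 ≤ dist x y := dist_nonneg
    have e5 : dist x y ≤ L * dist x y := by nlinarith
    refine max_le ?_ ?_
    · rw [Real.dist_eq]
      show |sh (T 0) (T 2) b η x.2 x.1 - sh (T 0) (T 2) b η y.2 y.1| ≤ _
      nlinarith
    · rw [Real.dist_eq]
      show |sh (T 3) (T 1) b η (sh (T 0) (T 2) b η x.2 x.1) x.2 -
        sh (T 3) (T 1) b η (sh (T 0) (T 2) b η y.2 y.1) y.2| ≤ _
      nlinarith

end Vale.Agent.P073.H190
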