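import Vale.Agent.P073.H190.TvpQ
import Vale.Agent.P073.H581.T5d

/-!
# P073, H190, [TV-P] (R): all edges at once
-/

open Set Metric Filter Topology
open scoped NNReal ENNReal

namespace Vale.Agent.P073.H190.Tvp

open _root_.P073 _root_.P073.H345 _root_.P073.H236 _root_.P073.PA691
open Vale.Agent.P073.St (V)
open Vale.Agent.P073.H471 Vale.Agent.P073.H267
open _root_.P073.H880.RP (thinL ROut3 Dat)
open _root_.P073.H880
open Vale.Agent.P073.H73 (Mesh)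
open Vale.Agent.P073.H193 (Edges)
open _root_.P073.Croft (levs onS cross)
open _root_.P073.Net (cnt)

variable {Ω Λ : Set V} {v : V} {K : BoxCx Λ v} {S : Rad K} {W : Wid K S} {B : Boxes W} {G : Geo B}
  {M : Mesh Ω} {E : Edges M} {D : Dat K M} {h1 h2 : ConHomeo Ω Λ} {L : PLev G}
  {ι : Type} {F : ι → Set V}

/-- the exchange does not move points into or out of a plate -/
theorem mem_PK_h2 (O : ROut3 G E D h1 h2 L.lv F) (ht : ∀ s ∈ D.S₀, ∀ β, D.ht s β ≤ B.τ s / 2)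
    {x : V} (hx : x ∈ Ω) (s : K.S) : h2.toFun x ∈ PK G s ↔ h1.toFun x ∈ PK G s := by
  by_cases h : ∃ s' ∈ D.S₀, h1.toFun x ∈ interior (D.PE G s')
  · obtain ⟨s', hs', h3⟩ := h
    have hsub : D.PE G s' ⊆ PK G s' :=
      (PE_sub_int (ht s' hs')).trans (interior_subset.trans (PB_sub_PK (by norm_num) s'))
    have h4 : h1.toFun x ∈ PK G s' := hsub (interior_subset h3)
    have h5 : h2.toFun x ∈ PK G s' := hsub ((O.box s' hs' x hx).2 (interior_subset h3))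
    constructor
    · intro h6; rw [PK_unique h6 h5]; exact h4
    · intro h6; rw [PK_unique h6 h4]; exact h5
  · push Not at h
    rw [O.off x hx h]

/-- one number per square, below given numbers of the edges which meet it -/
theorem exists_perSq (h : ConHomeo Ω Λ) {r : E.ε → ℝ} (hr : ∀ e, 0 < r e) :
    ∃ t : K.S → ℝ, (∀ s, 0 < t s) ∧ ∀ s e, (PK G s ∩ h.toFun '' E.seg e).Nonempty → t s ≤ r e := by
  have h1 : ∀ s : K.S, ∃ t > 0, ∀ e ∈ {e : E.ε | (h.toFun '' E.seg e ∩ PK G s).Nonempty},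
      t ≤ r e := fun s =>
    exists_lower (Croft.finite_image_inter h (fun e => E.seg_sub_Ω e)
      (fun X hX hXc => E.fin X hX hXc) (H669.PK_compact G s) (H669.PK_sub G s))
      (f := r) fun e _ => hr e
  choose t ht0 ht using h1
  exact ⟨t, ht0, fun s e he => ht s e (by rwa [mem_ofPred_eq, inter_comm])⟩

/-- the coordinates of an edge have finite variation -/
theorem tv_lt_top (h : ConHomeo Ω Λ) (e : E.ε) :
    ∑ l, eVariationOn (fun t => onS h.toFun (E.a e) (E.b e) t l) (Icc 0 1) < ⊤ := by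
  refine ENNReal.sum_lt_top.2 fun l _ => ?_
  exact (H581.evar_coord_le_len _ _ l).trans_lt
    (_root_.P073.Net.conical_len_lt_top zero_le_one (Croft.conicalOn_onS h.conical (E.seg_sub_Ω e)))

/-- a small factor -/
theorem exists_fac {A : ℝ≥0∞} (hA : A < ⊤) {w δ : ℝ} (hw : 0 ≤ w) (hδ : 0 < δ) :
    ∃ r : ℝ, 0 < r ∧ r ≤ 1 ∧ ∀ r', 0 ≤ r' → r' ≤ r → ENNReal.ofReal (w * r') * A ≤ ENNReal.ofReal δ := by
  refine ⟨min 1 (δ / ((w + 1) * (A.toReal + 1))), by positivity, min_le_left _ _,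
    fun r' h0 h1 => ?_⟩
  have hA0 := ENNReal.toReal_nonneg (a := A)
  have h2 : r' ≤ δ / ((w + 1) * (A.toReal + 1)) := h1.trans (min_le_right _ _)
  rw [le_div_iff₀ (by positivity)] at h2
  rw [← ENNReal.ofReal_toReal hA.ne, ← ENNReal.ofReal_mul (by positivity)]
  refine ENNReal.ofReal_le_ofReal ?_
  have h3 : 0 ≤ r' * (w + A.toReal + 1) := by positivity
  nlinarith

/-- **[TV-P], all edges.** -/
theorem exists_tvP (hΛ : IsOpen Λ) (O : ROut3 G E D h1 h2 L.lv F)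
    (ht : ∀ s ∈ D.S₀, ∀ β, D.ht s β ≤ B.τ s / 2) (hFe : ∀ e, ∃ i, F i = E.seg e)
    {C C' : ℝ} (hC : 0 ≤ C) (hC' : 0 ≤ C') {δ m : E.ε → ℝ} (hδ : ∀ e, 0 < δ e)
    (hm0 : ∀ e, 0 ≤ m e) (hm1 : ∀ e, m e ≤ 1)
    (hm : ∀ e, ENNReal.ofReal ((2 * C + 3 * C' + 3) * m e) *
      ∑ l, eVariationOn (fun t => onS h1.toFun (E.a e) (E.b e) t l) (Icc 0 1) ≤
        ENNReal.ofReal (δ e / 4)) :
    ∃ cT : K.S → ℝ, (∀ s, 0 < cT s) ∧ ∃ ϑ : K.S → ℝ, (∀ s, 0 < ϑ s) ∧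
    ∃ ι₀ : E.ε → ℝ, (∀ e, 0 < ι₀ e) ∧
    ∀ (c : K.S → Bool → ℝ) (c0 : ∀ s β, 0 < c s β) (c1 : ∀ s β, c s β ≤ L.c s β),
      (∀ s ∈ D.S₀, ∀ β, c s β ≤ cT s) →
      ∀ κ : Bool → V → V, (∀ β, IsQ (fun s : D.S₀ => (thinL L c c0 c1).bx β s.1) (κ β)) →
      ∀ h3 : ConHomeo Ω Λ,
      (∀ e, h3.toFun '' E.seg e = H579.Pre (κ true ∘ κ false) Λ h2 (E.seg e)) →
      (∀ x ∈ E.verts, κ true (κ false (h3.toFun x)) = h2.toFun x) →
      ∃ (γ : E.ε → ℝ → ℝ) (c₁ : E.ε → ℝ),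
        ∀ (Fm : Bool → BFam 3 D.S₀ Λ) (T : Bool → ConHomeo Λ Λ),
        _root_.P073.H142.PS3 (thinL L c c0 c1) D.S₀ Fm T → ∀ e,
        ArcP L D.S₀ c c0 c1 Fm T κ (fun s => D.PE G s.1) (onS h2.toFun (E.a e) (E.b e))
          (onS h1.toFun (E.a e) (E.b e)) (onS h3.toFun (E.a e) (E.b e)) (γ e) (c₁ e) ∧
        ∀ i' ee : ℝ, 0 ≤ i' → i' ≤ ι₀ e → 0 ≤ ee →
        (∀ s : D.S₀, (PK G s.1 ∩ h1.toFun '' E.seg e).Nonempty → ∀ β,
          (Fm β).e s / ((Fm β).B s).c ≤ ϑ s.1) →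
        (∀ s : D.S₀, (PK G s.1 ∩ h1.toFun '' E.seg e).Nonempty → ∀ β,
          4 * (Fm β).D s / B.τ s.1 ≤ m e) →
        ∀ {J : Type} (I : Finset J) (f : J → ℝ → ℝ) (g : ℝ → ℝ),
        (∀ t ∈ Icc (0:ℝ) 1, CtlAt G (fun s : D.S₀ => D.PE G s.1)
          (onS h2.toFun (E.a e) (E.b e)) (onS h1.toFun (E.a e) (E.b e)) (γ e)
          (ArcP.H T (onS h3.toFun (E.a e) (E.b e))) C C' i' ee I f g t) →
        eVariationOn g (Icc 0 1) ≤
          ENNReal.ofReal (1 + 4 * C + 9 * C') * ∑ i ∈ I, eVariationOn (f i) (Icc 0 1) +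
          ENNReal.ofReal (C + C' + i') * ∑' o : D.S₀ × Bool,
          ENNReal.ofReal (L.om o.1.1 o.2) * cnt (cross (onS h2.toFun (E.a e) (E.b e))
            (tg o.1.1 o.2) (levs (L.N o.1.1 o.2) (L.a o.1.1 o.2)) (PK G o.1.1)) +
          ENNReal.ofReal (δ e + ee) := by
  -- the numbers of the edges
  have hfe : ∀ e : E.ε, ∃ d : ℝ, 0 < d ∧ 3 * (5 * C + 6 * C' + 6) * d ≤ δ e / 4 := by
    intro e
    have := hδ e
    refine ⟨δ e / (12 * (5 * C + 6 * C' + 6)), by positivity, le_of_eq ?_⟩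
    field_simp
    ring
  choose d hd0 hd using hfe
  have hϑe : ∀ e : E.ε, ∃ r : ℝ, 0 < r ∧ r ≤ 1 ∧ ∀ r', 0 ≤ r' → r' ≤ r →
      ENNReal.ofReal (C * r') *
        ∑ l, eVariationOn (fun t => onS h2.toFun (E.a e) (E.b e) t l) (Icc 0 1) ≤
      ENNReal.ofReal (δ e / 4) := fun e =>
    exists_fac (tv_lt_top h2 e) hC (by have := hδ e; positivity)
  choose ϑe h10 h11 h12 using hϑe
  have hιe : ∀ e : E.ε, ∃ r : ℝ, 0 < r ∧ r ≤ 1 ∧ ∀ r', 0 ≤ r' → r' ≤ r →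
      ENNReal.ofReal (3 * r') *
        ∑ l, eVariationOn (fun t => onS h2.toFun (E.a e) (E.b e) t l) (Icc 0 1) ≤
      ENNReal.ofReal (δ e / 4) := fun e =>
    exists_fac (tv_lt_top h2 e) (by norm_num) (by have := hδ e; positivity)
  choose ιe h20 h21 h22 using hιe
  choose fi hfi using hFe
  have hae : ∀ e : E.ε, _ := fun e =>
    exists_arcP hΛ O ht (E.ne e) (hfi e) (E.seg_sub_Ω e) (hd0 e) one_pos
  choose ce hce0 _ hce using hae
  obtain ⟨cT, hcT0, hcT⟩ := exists_perSq (G := G) (E := E) h2 (r := fun e => ce e / 2)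
    (fun e => by have := hce0 e; positivity)
  obtain ⟨ϑ, hϑ0, hϑ⟩ := exists_perSq (G := G) (E := E) h2 (r := ϑe) h10
  refine ⟨cT, hcT0, ϑ, hϑ0, ιe, h20, fun c c0 c1 hc κ hκ h3 himg hvert => ?_⟩
  have hx : ∀ e : E.ε, _ := fun e => hce e c c0 c1
    (fun s hs hne β => (hc s hs β).trans (hcT s e hne)) κ hκ h3 (himg e)
    (hvert _ (Or.inl ⟨e, rfl⟩)) (hvert _ (Or.inr ⟨e, rfl⟩))
  choose γ hγ1 hγ2 hγ3 using hx
  refine ⟨γ, ce, fun Fm T hP e => ⟨hγ1 e Fm T hP, fun i' ee hi0 hi1 hee hθ hμ J I f g hg => ?_⟩⟩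
  have hmet : ∀ s : D.S₀, (PK G s.1 ∩ onS h2.toFun (E.a e) (E.b e) '' Icc 0 1).Nonempty →
      (PK G s.1 ∩ h2.toFun '' E.seg e).Nonempty ∧ (PK G s.1 ∩ h1.toFun '' E.seg e).Nonempty := by
    rintro s ⟨y, hy, hy2⟩
    rw [onS_image] at hy2
    refine ⟨⟨y, hy, hy2⟩, ?_⟩
    obtain ⟨x, hx, rfl⟩ := hy2
    exact ⟨h1.toFun x, (mem_PK_h2 O ht (E.seg_sub_Ω e hx) s.1).1 hy, x, hx, rfl⟩
  have hi1' : i' ≤ 1 := hi1.trans (h21 e)
  have key := (hγ1 e Fm T hP).evar_le2 hC hC' hi0 hee (h10 e).le (h11 e) (hm0 e) (hd0 e).le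
    (hγ2 e) (fun s hs β => (hθ s (hmet s hs).2 β).trans (hϑ s.1 e (hmet s hs).1))
    (fun s hs β => hμ s (hmet s hs).2 β) hg
  refine key.trans (add_le_add le_rfl ?_)
  have hδe := hδ e
  have k1 : ENNReal.ofReal (C * ϑe e + 3 * i') *
      ∑ l, eVariationOn (fun t => onS h2.toFun (E.a e) (E.b e) t l) (Icc 0 1) ≤
      ENNReal.ofReal (δ e / 4) + ENNReal.ofReal (δ e / 4) := by
    rw [ENNReal.ofReal_add (mul_nonneg hC (h10 e).le) (by positivity), add_mul]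
    exact add_le_add (h12 e _ (h10 e).le le_rfl) (h22 e _ hi0 hi1)
  have k2 : ENNReal.ofReal ((2 * C + 3 * C' + 3 * i') * m e) *
      ∑ l, eVariationOn (fun t => onS h1.toFun (E.a e) (E.b e) t l) (Icc 0 1) ≤
      ENNReal.ofReal (δ e / 4) := by
    refine le_trans (mul_le_mul' (ENNReal.ofReal_le_ofReal ?_) le_rfl) (hm e)
    exact mul_le_mul_of_nonneg_right (by linarith) (hm0 e)
  have k3 : ENNReal.ofReal (3 * ((C * ϑe e + 3 * i') +
      (2 * C + 3 * C' + (2 * C + 3 * C' + 3 * i') * m e)) * d e + ee) ≤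
      ENNReal.ofReal (δ e / 4 + ee) := by
    refine ENNReal.ofReal_le_ofReal (add_le_add_left ?_ ee)
    refine le_trans ?_ (hd e)
    have e1 : C * ϑe e ≤ C * 1 := mul_le_mul_of_nonneg_left (h11 e) hC
    have e2 : (2 * C + 3 * C' + 3 * i') * m e ≤ (2 * C + 3 * C' + 3 * 1) * 1 :=
      mul_le_mul (by linarith) (hm1 e) (hm0 e) (by positivity)
    have e3 := (hd0 e).le
    refine mul_le_mul_of_nonneg_right ?_ e3
    linarith
  refine (add_le_add (add_le_add k1 k2) k3).trans (le_of_eq ?_)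
  rw [← ENNReal.ofReal_add (by positivity) (by positivity),
    ← ENNReal.ofReal_add (by positivity) (by positivity),
    ← ENNReal.ofReal_add (by positivity) (by positivity)]
  congr 1
  ring

/-- the numbers `m` of `exists_tvP` -/
theorem exists_mE (h1 : ConHomeo Ω Λ) {w : ℝ} (hw : 0 ≤ w) {δ : E.ε → ℝ} (hδ : ∀ e, 0 < δ e) :
    ∃ m : E.ε → ℝ, (∀ e, 0 < m e) ∧ (∀ e, m e ≤ 1) ∧ ∀ e, ENNReal.ofReal (w * m e) *
      ∑ l, eVariationOn (fun t => onS h1.toFun (E.a e) (E.b e) t l) (Icc 0 1) ≤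
        ENNReal.ofReal (δ e / 4) := by
  have h : ∀ e : E.ε, _ := fun e => exists_fac (tv_lt_top h1 e) hw (δ := δ e / 4)
    (by have := hδ e; positivity)
  choose m h0 h2 h3 using h
  exact ⟨m, h0, h2, fun e => h3 e _ (h0 e).le le_rfl⟩

end Vale.Agent.P073.H190.Tvp
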