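import Vale.Agent.P073.H190.TvTop
import Vale.Agent.P073.H880.TopN

/-!
# P073, H190, [TV-P] in 880's slots

`row_tv`: `exists_edge_tv` as a family of slots; `tvι Y₂ e` is the bound for the number `i'`.
-/

open Set Metric Topology Filter
open scoped ENNReal

set_option linter.unusedSectionVars false

namespace Vale.Agent.P073.H267.K3

open _root_.P073 _root_.P073.Net _root_.P073.PA691 _root_.P073.H236 _root_.P073.H579
open _root_.P073.H345 (PK tg PLev)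
open Vale.Agent.P073.St (V)
open Vale.Agent.P073.H471 Vale.Agent.P073.H267
open Vale.Agent.P073.H73 (Mesh)
open Vale.Agent.P073.H193 (Edges Cyc edges)
open Vale.Agent.P073.H304 (Nb In Zmax)
open Vale.Agent.P073.H926
open Vale.Agent.P073.H238.K3
open Vale.Agent.P073.Top880
open Vale.Agent.P073.H190.Tvp
open _root_.P073.Croft (levs onS cross)
open _root_.P073.Net (cnt)

variable {c₀ n δ : ℝ} {j : ℕ} {Ω Λ : Set V} {v w : V} {ρ : V → ℝ} {M : Mesh Ω} {h : ConHomeo Ω Λ}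
  {J₀ J : Set (ℕ × (Fin 3 → ℤ))} {P Z : Set M.ι} {K : BoxCx Λ w}
  {D : KIn3 c₀ n j δ v w ρ M h J₀ J P Z} {C : Cells ρ w K} {C₀ μT : ℝ}
  {X : S1 D C C₀ μT} {Ys : Set M.κ} {sc : Sharp}

open Classical in
/-- the bound for the flats -/
noncomputable def S2.tvc (Y₂ : S2 X) (A A' : ℝ) (dl : (edges M).ε → ℝ) : K.S → ℝ :=
  if H : Y₂.Tv A A' dl then H.choose else fun _ => 1

theorem S2.tvc_pos (Y₂ : S2 X) (A A' : ℝ) (dl : (edges M).ε → ℝ) (s : K.S) :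
    0 < Y₂.tvc A A' dl s := by
  unfold S2.tvc
  split_ifs with H
  · exact H.choose_spec.1 s
  · exact one_pos

open Classical in
/-- the bound for the walls -/
noncomputable def S2.tvϑ (Y₂ : S2 X) (A A' : ℝ) (dl : (edges M).ε → ℝ) : K.S → ℝ :=
  if H : Y₂.Tv A A' dl then H.choose_spec.2.choose else fun _ => 1

theorem S2.tvϑ_pos (Y₂ : S2 X) (A A' : ℝ) (dl : (edges M).ε → ℝ) (s : K.S) :
    0 < Y₂.tvϑ A A' dl s := by
  unfold S2.tvϑ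
  split_ifs with H
  · exact H.choose_spec.2.choose_spec.1 s
  · exact one_pos

open Classical in
/-- the bound for `i'` -/
noncomputable def S2.tvι (Y₂ : S2 X) (A A' : ℝ) (dl : (edges M).ε → ℝ) : (edges M).ε → ℝ :=
  if H : Y₂.Tv A A' dl then H.choose_spec.2.choose_spec.2.choose else fun _ => 1

theorem S2.tvι_pos (Y₂ : S2 X) (A A' : ℝ) (dl : (edges M).ε → ℝ) (e : (edges M).ε) :
    0 < Y₂.tvι A A' dl e := by
  unfold S2.tvι
  split_ifs with H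
  · exact H.choose_spec.2.choose_spec.2.choose_spec.1 e
  · exact one_pos

/-- **[TV-P], one edge, over `S3`** -/
def S3.TvE (Y₂ : S2 X) (Y₃ : S3 Y₂ Ys sc) (A A' ι₀ dl : ℝ) (γ : ℝ → ℝ) (c₁ : ℝ)
    (e : (edges M).ε) : Prop :=
      ArcP Y₂.L (D.dat C).S₀ Y₃.c Y₃.c0 Y₃.c1 Y₃.F Y₃.T3 Y₃.κ
        (fun s => (D.dat C).PE (D.G C) s.1)
        (onS Y₂.h2.toFun ((edges M).a e) ((edges M).b e))
        (onS X.h1.toFun ((edges M).a e) ((edges M).b e))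
        (onS Y₃.h3.toFun ((edges M).a e) ((edges M).b e)) γ c₁ ∧
      ∀ i' ee : ℝ, 0 ≤ i' → i' ≤ ι₀ → 0 ≤ ee →
      ∀ {ζ : Type} (I : Finset ζ) (f : ζ → ℝ → ℝ) (g : ℝ → ℝ),
      (∀ t ∈ Icc (0:ℝ) 1, CtlAt3 (D.G C) Y₃.F (fun _ s => Y₂.muP s.1)
        (fun s => 4096 * Y₂.muP s.1 / (D.B C).τ s.1)
        (fun s : (D.dat C).S₀ => (D.dat C).PE (D.G C) s.1)
        (onS Y₂.h2.toFun ((edges M).a e) ((edges M).b e))
        (onS X.h1.toFun ((edges M).a e) ((edges M).b e))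
        (onS Y₃.h3.toFun ((edges M).a e) ((edges M).b e)) γ
        (ArcP.H Y₃.T2 (onS Y₃.h3.toFun ((edges M).a e) ((edges M).b e))) A A' i' ee I f g t) →
      eVariationOn g (Icc 0 1) ≤
        ENNReal.ofReal (20 + 10 * A + 18 * A') *
        ∑ i ∈ I, eVariationOn (f i) (Icc 0 1) +
        ENNReal.ofReal (A + A' + 2) * ∑' o : (D.dat C).S₀ × Bool,
        ENNReal.ofReal (Y₂.L.om o.1.1 o.2) *
          cnt (cross (onS Y₂.h2.toFun ((edges M).a e) ((edges M).b e))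
          (tg o.1.1 o.2) (levs (Y₂.L.N o.1.1 o.2) (Y₂.L.a o.1.1 o.2)) (PK (D.G C) o.1.1)) +
        ENNReal.ofReal (dl + ee)

theorem S2.tv_spec {Y₂ : S2 X} {A A' : ℝ} {dl : (edges M).ε → ℝ} (H : Y₂.Tv A A' dl)
    (Y₃ : S3 Y₂ Ys sc) (hc : ∀ s β, Y₃.c s β ≤ Y₂.tvc A A' dl s)
    (he : ∀ β (s : (D.dat C).S₀), Y₃.e β s ≤ Y₂.tvϑ A A' dl s.1 * Y₃.c s.1 β)
    (hθ : ∀ (s : (D.dat C).S₀) (β : Bool),
        (6 * (Y₃.F β).D s + Y₂.L.c s.1 β) * (4 / (D.B C).τ s.1) ≤ 1) :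
    ∃ (γ : (edges M).ε → ℝ → ℝ) (c₁ : (edges M).ε → ℝ), ∀ e,
      S3.TvE Y₂ Y₃ A A' (Y₂.tvι A A' dl e) (dl e) (γ e) (c₁ e) e := by
  unfold S2.tvc at hc
  unfold S2.tvϑ at he
  unfold S2.tvι
  rw [dif_pos H] at hc he ⊢
  obtain ⟨γ, c₁, h1⟩ := H.choose_spec.2.choose_spec.2.choose_spec.2 Y₃ hc he hθ
  exact ⟨γ, c₁, h1⟩

/-- the slots of [TV-P] -/
noncomputable def tvSlots (D : KIn3 c₀ n j δ v w ρ M h J₀ J P Z) (C : Cells ρ w K) (C₀ μT : ℝ)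
    (Ys : Set M.κ) (sc : Sharp) {A A' : ℝ} (hA : 0 ≤ A) (hA' : 0 ≤ A') {dl : (edges M).ε → ℝ}
    (hdl : ∀ e, 0 < dl e) : Slots D C C₀ μT Ys sc :=
  { Slots.one with
    m := fun N s => min ((exists_edge_tv D C N.Lh0 hA hA' hdl).choose s) ((D.G C).oS s / 2)
    m0 := fun N s => lt_min ((exists_edge_tv D C N.Lh0 hA hA' hdl).choose_spec.1 s)
      (half_pos (oS_pos' D C s))
    cm := fun Y₂ s _ => Y₂.tvc A A' dl s
    cm0 := fun Y₂ s _ => Y₂.tvc_pos A A' dl s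
    e₁ := fun Y₂ _ c β s => if 0 < c s.1 β then Y₂.tvϑ A A' dl s.1 * c s.1 β else 1
    e₁0 := fun Y₂ _ c _ β s => by
      split_ifs with h
      · exact mul_pos (Y₂.tvϑ_pos A A' dl s.1) h
      · exact one_pos }

/-- **[TV-P] from the slots** -/
theorem row_tv (D : KIn3 c₀ n j δ v w ρ M h J₀ J P Z) (C : Cells ρ w K) (C₀ μT : ℝ)
    (Ys : Set M.κ) (sc : Sharp) {A A' : ℝ} (hA : 0 ≤ A) (hA' : 0 ≤ A') {dl : (edges M).ε → ℝ}
    (hdl : ∀ e, 0 < dl e) :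
    ∃ S : Slots D C C₀ μT Ys sc, ∀ {N : RTn M C J₀} {X : S1 D C C₀ μT} {Y₂ : S2 X}
      {Y₃ : S3 Y₂ Ys sc}, Ok3 S N Y₃ → ∃ (γ : (edges M).ε → ℝ → ℝ) (c₁ : (edges M).ε → ℝ), ∀ e,
        S3.TvE Y₂ Y₃ A A' (Y₂.tvι A A' dl e) (dl e) (γ e) (c₁ e) e := by
  refine ⟨tvSlots D C C₀ μT Ys sc hA hA' hdl, fun {N X Y₂ Y₃} H => ?_⟩
  have hTv : Y₂.Tv A A' dl := (exists_edge_tv D C N.Lh0 hA hA' hdl).choose_spec.2 X H.lip Y₂
    fun s => (H.muP s).trans (min_le_left _ _)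
  have hm : ∀ s, Y₂.muP s ≤ (D.G C).oS s / 2 := fun s => (H.muP s).trans (min_le_right _ _)
  have hJ : ∀ s, Y₂.J s ≤ 8388608 * ω3S δ C s := fun s => by
    have := D.ω3S_pos C s
    rw [H.J s]
    linarith
  refine S2.tv_spec hTv Y₃ (fun s β => H.c s β) (fun β s => ?_) (Y₃.numP hJ hm).2.2.2
  have h1 := H.e β s
  have h2 : (tvSlots D C C₀ μT Ys sc hA hA' hdl).e₁ Y₂ Y₃.h3 Y₃.c β s =
      Y₂.tvϑ A A' dl s.1 * Y₃.c s.1 β := if_pos (Y₃.c0 s.1 β)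
  rw [h2] at h1
  exact h1

end Vale.Agent.P073.H267.K3
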