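import Vale.Agent.P073.H190.TwoX
import Vale.Agent.P073.H267.K3T2
import Vale.Agent.P073.H523.TopP
import Vale.Agent.P073.H236.SlotP
import Vale.Agent.P073.H880.LipM

/-!
# P073, H190, [TV-P] over the stages of `K3C`: `S2.exists_tv`, `exists_edge_tv`

`exists_tvP2` for the two-stage staircases of `S3`; the bounds for the flats and the walls are
chosen from the exchange (`S2`), the bound for `muP` before `h1`.
-/

open Set Metric Topology Filter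
open scoped ENNReal

set_option linter.unusedSectionVars false

namespace Vale.Agent.P073.H267.K3

open _root_.P073 _root_.P073.Net _root_.P073.PA691 _root_.P073.H236 _root_.P073.H579
open _root_.P073.H345 (PK tg PLev)
open _root_.P073.H880.RP
open _root_.P073.H190 (IsS2 PT2)
open Vale.Agent.P073.St (V)
open Vale.Agent.P073.H471 Vale.Agent.P073.H267
open Vale.Agent.P073.H73 (Mesh)
open Vale.Agent.P073.H193 (Edges Cyc edges)
open Vale.Agent.P073.H304 (Nb In Zmax)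
open Vale.Agent.P073.H926
open Vale.Agent.P073.H238.K3
open Vale.Agent.P073.H341 (HtOk ROutZ vFam pxFam)
open Vale.Agent.P073.H190.Tvp
open _root_.P073.Croft (levs onS cross)
open _root_.P073.Net (cnt)

variable {c₀ n δ : ℝ} {j : ℕ} {Ω Λ : Set V} {v w : V} {ρ : V → ℝ} {M : Mesh Ω} {h : ConHomeo Ω Λ}
  {J₀ J : Set (ℕ × (Fin 3 → ℤ))} {P Z : Set M.ι} {K : BoxCx Λ w}
  {D : KIn3 c₀ n j δ v w ρ M h J₀ J P Z} {C : Cells ρ w K} {C₀ μT : ℝ}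
  {X : S1 D C C₀ μT}

/-- **the estimate of the edges from the zones**, with bounds for the flats (`cT`) and the walls
(`ϑ`) which depend on the exchange only -/
def S2.Tv (Y₂ : S2 X) (A A' : ℝ) (dl : (edges M).ε → ℝ) : Prop :=
    ∃ cT : K.S → ℝ, (∀ s, 0 < cT s) ∧ ∃ ϑ : K.S → ℝ, (∀ s, 0 < ϑ s) ∧
    ∃ ι₀ : (edges M).ε → ℝ, (∀ e, 0 < ι₀ e) ∧
    ∀ {Ys : Set M.κ} {sc : Sharp} (Y₃ : S3 Y₂ Ys sc), (∀ s β, Y₃.c s β ≤ cT s) →
      (∀ β (s : (D.dat C).S₀), Y₃.e β s ≤ ϑ s.1 * Y₃.c s.1 β) →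
      (∀ (s : (D.dat C).S₀) (β : Bool),
        (6 * (Y₃.F β).D s + Y₂.L.c s.1 β) * (4 / (D.B C).τ s.1) ≤ 1) →
    ∃ (γ : (edges M).ε → ℝ → ℝ) (c₁ : (edges M).ε → ℝ), ∀ e,
      ArcP Y₂.L (D.dat C).S₀ Y₃.c Y₃.c0 Y₃.c1 Y₃.F Y₃.T3 Y₃.κ
        (fun s => (D.dat C).PE (D.G C) s.1)
        (onS Y₂.h2.toFun ((edges M).a e) ((edges M).b e))
        (onS X.h1.toFun ((edges M).a e) ((edges M).b e))
        (onS Y₃.h3.toFun ((edges M).a e) ((edges M).b e)) (γ e) (c₁ e) ∧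
      ∀ i' ee : ℝ, 0 ≤ i' → i' ≤ ι₀ e → 0 ≤ ee →
      ∀ {ζ : Type} (I : Finset ζ) (f : ζ → ℝ → ℝ) (g : ℝ → ℝ),
      (∀ t ∈ Icc (0:ℝ) 1, CtlAt3 (D.G C) Y₃.F (fun _ s => Y₂.muP s.1)
        (fun s => 4096 * Y₂.muP s.1 / (D.B C).τ s.1)
        (fun s : (D.dat C).S₀ => (D.dat C).PE (D.G C) s.1)
        (onS Y₂.h2.toFun ((edges M).a e) ((edges M).b e))
        (onS X.h1.toFun ((edges M).a e) ((edges M).b e))
        (onS Y₃.h3.toFun ((edges M).a e) ((edges M).b e)) (γ e)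
        (ArcP.H Y₃.T2 (onS Y₃.h3.toFun ((edges M).a e) ((edges M).b e))) A A' i' ee I f g t) →
      eVariationOn g (Icc 0 1) ≤
        ENNReal.ofReal (20 + 10 * A + 18 * A') *
        ∑ i ∈ I, eVariationOn (f i) (Icc 0 1) +
        ENNReal.ofReal (A + A' + 2) * ∑' o : (D.dat C).S₀ × Bool,
        ENNReal.ofReal (Y₂.L.om o.1.1 o.2) *
          cnt (cross (onS Y₂.h2.toFun ((edges M).a e) ((edges M).b e))
          (tg o.1.1 o.2) (levs (Y₂.L.N o.1.1 o.2) (Y₂.L.a o.1.1 o.2)) (PK (D.G C) o.1.1)) +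
        ENNReal.ofReal (dl e + ee)

/-- **[TV-P] over the stages, all edges** -/
theorem S2.exists_tv (Y₂ : S2 X) {A A' : ℝ} (hA : 0 ≤ A) (hA' : 0 ≤ A')
    {dl m : (edges M).ε → ℝ} (hdl : ∀ e, 0 < dl e) (hm0 : ∀ e, 0 ≤ m e) (hm1 : ∀ e, m e ≤ 1)
    (hm : ∀ e, ENNReal.ofReal ((2 * A + 3 * A' + 9) * m e) *
      ∑ l, eVariationOn (fun t => onS X.h1.toFun ((edges M).a e) ((edges M).b e) t l) (Icc 0 1) ≤
        ENNReal.ofReal (dl e / 4))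
    (hμ : ∀ s ∈ (D.dat C).S₀, ∀ e, (PK (D.G C) s ∩ X.h1.toFun '' (edges M).seg e).Nonempty →
      4096 * Y₂.muP s / (D.B C).τ s ≤ m e) : Y₂.Tv A A' dl := by
  have hseg : ∀ e, ∃ i, vFam M (edges M) i = (edges M).seg e := fun e => by
    obtain ⟨i, hi⟩ := Y₂.ex.fam (.inr (.inl e))
    exact ⟨i, hi.symm⟩
  obtain ⟨cT, hcT, ϑ, hϑ, ι₀, hι₀, H⟩ := exists_tvP3 (E := edges M) (L := Y₂.L) D.bΛ.1 Y₂.ex.ex
    (fun s hs β => Y₂.ex.ht.le s hs β) hseg hA hA' zero_le_one hdl hm0 hm1 hm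
  refine ⟨cT, hcT, ϑ, hϑ, ι₀, hι₀, ?_⟩
  intro Ys sc Y₃ hc he hθ
  obtain ⟨γ, c₁, H1⟩ := H Y₃.c Y₃.c0 Y₃.c1 (fun s _ β => hc s β) Y₃.κ Y₃.ins.isQ Y₃.h3
    Y₃.ins.out.img_edge Y₃.ins.out.vert
  refine ⟨γ, c₁, fun e => ?_⟩
  obtain ⟨H2, H3⟩ := H1 Y₃.F Y₃.T3 Y₃.ps e
  refine ⟨H2, ?_⟩
  intro i' ee hi0 hi1 hee ζ I f g hg
  have h1 := H3 i' ee hi0 hi1 hee (fun s _ β => ?_) (fun _ s => Y₂.muP s.1) Y₃.T2 Y₃.pt2
    (fun s hs β => ?_) (fun s => 4096 * Y₂.muP s.1 / (D.B C).τ s.1) (fun s => ?_)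
    (fun s hs => hμ s.1 s.2 e hs) (fun s _ β => ?_) I f g hg
  · refine h1.trans (add_le_add (add_le_add (mul_le_mul' (ENNReal.ofReal_le_ofReal ?_) le_rfl)
      le_rfl) le_rfl)
    linarith
  · have hcs := Y₃.c0 s.1 β
    change Y₃.e β s / Y₃.c s.1 β ≤ ϑ s.1
    rw [div_le_iff₀ hcs]
    exact he β s
  · have h2 := S2.muP0 Y₂ s.1
    have h3 := (D.B C).τ_pos s.1
    refine le_trans ?_ (hμ s.1 s.2 e hs)
    gcongr
    norm_num
  · have h2 := S2.muP0 Y₂ s.1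
    have h3 := (D.B C).τ_pos s.1
    positivity
  · have h2 := hθ s β
    have h3 := (D.B C).τ_pos s.1
    have h4 := (Y₂.L.lvs s.1 β).c0
    have h5 : 0 ≤ (Y₃.F β).D s := by
      have := Y₃.muD β s
      have := S2.muP0 Y₂ s.1
      linarith
    have h6 : (6 * (Y₃.F β).D s + Y₂.L.c s.1 β) * (4 / (D.B C).τ s.1) =
        (24 * (Y₃.F β).D s + 4 * Y₂.L.c s.1 β) / (D.B C).τ s.1 := by ring
    rw [h6, div_le_one h3] at h2
    rw [div_le_one h3]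
    change 0 < Y₂.L.c s.1 β at h4
    linarith

/-- **[TV-P] over the stages, in slot form**: the bound for `muP` is chosen before ROUND T, from
the Lipschitz constants of `h1` (880's `LipH`) -/
theorem exists_edge_tv (D : KIn3 c₀ n j δ v w ρ M h J₀ J P Z) (C : Cells ρ w K) {Lh : M.ι → ℝ}
    (hL : ∀ i, 0 ≤ Lh i) {A A' : ℝ} (hA : 0 ≤ A) (hA' : 0 ≤ A') {dl : (edges M).ε → ℝ}
    (hdl : ∀ e, 0 < dl e) :
    ∃ mP : K.S → ℝ, (∀ s, 0 < mP s) ∧ ∀ {C₀ μT : ℝ} (X : S1 D C C₀ μT), LipH M Lh X.h1.toFun →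
      ∀ Y₂ : S2 X, (∀ s, Y₂.muP s ≤ mP s) → Y₂.Tv A A' dl := by
  obtain ⟨m, hm0, hm1, hm⟩ := _root_.P073.H880.LH.exists_mE' (edges M) hL
    (w := 2 * A + 3 * A' + 9) (by positivity) hdl
  obtain ⟨mP, hmP0, hmP⟩ := Vale.Agent.P073.H236.Slot.exists_mPτ D C (edges M) (N := 4096)
    (by norm_num) hm0
  refine ⟨mP, hmP0, ?_⟩
  intro C₀ μT X hX Y₂ hμ
  exact Y₂.exists_tv hA hA' hdl (fun e => (hm0 e).le) hm1 (hm X.h1.toFun hX)
    fun s _ e he => hmP X.h1.toFun X.out.near3 s e he _ (hμ s)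

end Vale.Agent.P073.H267.K3
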