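import Vale.Agent.P073.H345.PassA
import Vale.Agent.P073.H581.Tve2

/-!
# P073, H190, [TVP] (A): the branch of the insertion map of one variable

`br η m ρ` is the solution `r` of `ph η m r = ρ` for `ρ ≠ 0`.
-/

open Set Filter Topology

namespace Vale.Agent.P073.H190.Tvp

open _root_.P073.H345

/-- the branch, for positive arguments -/
noncomputable def bp (η m ρ : ℝ) : ℝ := max ρ (min (ρ + m) ((ρ + η) / 2))

theorem bp_zero {η m : ℝ} (h0 : 0 ≤ m) (hm : m ≤ η / 2) : bp η m 0 = m := by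
  unfold bp
  rw [zero_add, zero_add, min_eq_left hm, max_eq_right h0]

theorem bp_mono {η m ρ m' ρ' : ℝ} (h1 : ρ ≤ ρ') (h2 : ρ + m ≤ ρ' + m') :
    bp η m ρ ≤ bp η m' ρ' :=
  max_le_max h1 (min_le_min h2 (by linarith))

theorem le_bp (η m ρ : ℝ) : ρ ≤ bp η m ρ := le_max_left _ _

theorem bp_le {η m ρ : ℝ} (h0 : 0 ≤ m) : bp η m ρ ≤ ρ + m :=
  max_le (by linarith) (min_le_left _ _)

theorem bp_of_ge {η m ρ : ℝ} (h : η ≤ ρ) : bp η m ρ = ρ := by
  unfold bp
  exact max_eq_left ((min_le_right _ _).trans (by linarith))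

theorem bp_zero_right {η ρ : ℝ} : bp η 0 ρ = ρ := by
  unfold bp
  rw [add_zero]
  exact max_eq_left (min_le_left _ _)

theorem abs_bp_sub_le (η m ρ m' ρ' : ℝ) : |bp η m ρ - bp η m' ρ'| ≤ |ρ - ρ'| + |m - m'| := by
  unfold bp
  refine (abs_max_sub_max_le_max _ _ _ _).trans (max_le ?_ ?_)
  · linarith [abs_nonneg (m - m')]
  · refine (abs_min_sub_min_le_max _ _ _ _).trans (max_le ?_ ?_)
    · have : ρ + m - (ρ' + m') = (ρ - ρ') + (m - m') := by ring
      rw [this]; exact abs_add_le _ _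
    · have : (ρ + η) / 2 - (ρ' + η) / 2 = (ρ - ρ') / 2 := by ring
      rw [this, abs_div, abs_two]
      have h1 := abs_nonneg (ρ - ρ')
      have h2 := abs_nonneg (m - m')
      linarith

/-- the equation on the positive side -/
theorem eq_bp_of_pos {η m r ρ : ℝ} (hη : 0 < η) (h0 : 0 ≤ m) (hm : m ≤ η / 2)
    (h : ph η m r = ρ) (hρ : 0 < ρ) : r = bp η m ρ := by
  have hr : m < r := by
    by_contra hc
    push Not at hc
    rcases le_total (-m) r with h1 | h1
    · have := (ph_zero_iff h0 hm).2 (abs_le.2 ⟨h1, hc⟩)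
      linarith
    · have := ph_nonneg (η := η) (m := m) (r := -r) (by linarith)
      rw [ph_neg] at this
      linarith
  have hr0 : 0 < r := lt_of_le_of_lt h0 hr
  rcases le_total r η with h1 | h1
  · have h2 := branch_ph h0 hm hr h1
    rw [h] at h2
    unfold bp
    rw [h2]
    have h3 := ph_le (η := η) (m := m) hr0.le
    rw [h] at h3
    exact (max_eq_right h3).symm
  · rw [ph_of_ge hη h1] at h
    rw [bp_of_ge (by linarith), h]

/-- the equation on the negative side -/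
theorem eq_bp_of_neg {η m r ρ : ℝ} (hη : 0 < η) (h0 : 0 ≤ m) (hm : m ≤ η / 2)
    (h : ph η m r = ρ) (hρ : ρ < 0) : r = - bp η m (-ρ) := by
  have h1 : ph η m (-r) = -ρ := by rw [ph_neg, h]
  have h2 := eq_bp_of_pos hη h0 hm h1 (by linarith)
  linarith

/-- in any case the solution is near -/
theorem abs_sub_le_of_ph {η m r ρ : ℝ} (hη : 0 < η) (h0 : 0 ≤ m) (hm : m ≤ η / 2)
    (h : ph η m r = ρ) : |r - ρ| ≤ m := by
  rcases lt_trichotomy ρ 0 with h1 | h1 | h1
  · rw [eq_bp_of_neg hη h0 hm h h1, abs_le]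
    have h2 := le_bp η m (-ρ)
    have h3 := bp_le (η := η) (ρ := -ρ) h0
    constructor <;> linarith
  · subst h1
    rw [sub_zero]
    exact (ph_zero_iff h0 hm).1 h
  · rw [eq_bp_of_pos hη h0 hm h h1, abs_le]
    have h2 := le_bp η m ρ
    have h3 := bp_le (η := η) (ρ := ρ) h0
    constructor <;> linarith

/-- Lipschitz dependence on one side of the level -/
theorem abs_sub_le_of_side {η m r ρ m' r' ρ' : ℝ} (hη : 0 < η) (h0 : 0 ≤ m) (hm : m ≤ η / 2)
    (h : ph η m r = ρ) (h0' : 0 ≤ m') (hm' : m' ≤ η / 2) (h' : ph η m' r' = ρ')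
    (hs : 0 < ρ ∧ 0 < ρ' ∨ ρ < 0 ∧ ρ' < 0) : |r - r'| ≤ |ρ - ρ'| + |m - m'| := by
  rcases hs with ⟨h1, h2⟩ | ⟨h1, h2⟩
  · rw [eq_bp_of_pos hη h0 hm h h1, eq_bp_of_pos hη h0' hm' h' h2]
    exact abs_bp_sub_le _ _ _ _ _
  · rw [eq_bp_of_neg hη h0 hm h h1, eq_bp_of_neg hη h0' hm' h' h2]
    have e : -bp η m (-ρ) - -bp η m' (-ρ') = -(bp η m (-ρ) - bp η m' (-ρ')) := by ring
    rw [e, abs_neg]
    refine (abs_bp_sub_le _ _ _ _ _).trans (le_of_eq ?_)
    have e2 : -ρ - -ρ' = -(ρ - ρ') := by ring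
    rw [e2, abs_neg]

/-- **monotone dependence in the zone of a crossing.** `γ` is monotone on `[s₁, s₂]`, `f` solves
`ph η (M (γ s)) (f s) = ρ (γ s)`, `ρ` increases through `0` at `τ`, the thickness `M` varies
slowly, and `f` is injective on the fibre over `τ`. Then `f` is monotone. -/
theorem monotoneOn_zone {η : ℝ} (hη : 0 < η) {ρ M γ f : ℝ → ℝ} {s₁ s₂ t₁ τ t₂ : ℝ}
    (hs12 : s₁ ≤ s₂) (hM0 : ∀ t, 0 ≤ M t) (hMη : ∀ t, M t ≤ η / 2)
    (hγ : MonotoneOn γ (Icc s₁ s₂)) (hm : MapsTo γ (Icc s₁ s₂) (Icc t₁ t₂))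
    (hγc : ContinuousOn γ (Icc s₁ s₂))
    (hf : ContinuousOn f (Icc s₁ s₂)) (h1 : γ s₁ < τ) (h2 : τ < γ s₂)
    (hρ : StrictMonoOn ρ (Icc t₁ t₂)) (hτ : ρ τ = 0)
    (hρM : MonotoneOn (fun t => ρ t + M t) (Icc t₁ t₂))
    (hρM' : MonotoneOn (fun t => ρ t - M t) (Icc t₁ t₂))
    (heq : ∀ s ∈ Icc s₁ s₂, ph η (M (γ s)) (f s) = ρ (γ s))
    (hinj : InjOn f (Icc s₁ s₂ ∩ γ ⁻¹' {τ})) : MonotoneOn f (Icc s₁ s₂) := by
  have hτm : τ ∈ Icc t₁ t₂ := by
    have a1 := hm (left_mem_Icc.2 hs12)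
    have a2 := hm (right_mem_Icc.2 hs12)
    exact ⟨a1.1.trans h1.le, h2.le.trans a2.2⟩
  -- the sides
  have hpos : ∀ s ∈ Icc s₁ s₂, τ < γ s → f s = bp η (M (γ s)) (ρ (γ s)) := by
    intro s hs h
    refine eq_bp_of_pos hη (hM0 _) (hMη _) (heq s hs) ?_
    rw [← hτ]; exact hρ hτm (hm hs) h
  have hneg : ∀ s ∈ Icc s₁ s₂, γ s < τ → f s = -bp η (M (γ s)) (-ρ (γ s)) := by
    intro s hs h
    refine eq_bp_of_neg hη (hM0 _) (hMη _) (heq s hs) ?_
    rw [← hτ]; exact hρ (hm hs) hτm h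
  have hmid : ∀ s ∈ Icc s₁ s₂, γ s = τ → |f s| ≤ M τ := by
    intro s hs h
    have := heq s hs
    rw [h, hτ] at this
    exact (ph_zero_iff (hM0 _) (hMη _)).1 this
  -- comparison with the fibre
  have hge : ∀ s ∈ Icc s₁ s₂, τ < γ s → M τ ≤ f s := by
    intro s hs h
    rw [hpos s hs h]
    have h3 := bp_mono (η := η) (m := M τ) (ρ := ρ τ) (m' := M (γ s)) (ρ' := ρ (γ s))
      (hρ.monotoneOn hτm (hm hs) h.le) (hρM hτm (hm hs) h.le)
    rwa [hτ, bp_zero (hM0 _) (hMη _)] at h3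
  have hle : ∀ s ∈ Icc s₁ s₂, γ s < τ → f s ≤ -M τ := by
    intro s hs h
    rw [hneg s hs h]
    have h4 := hρM' (hm hs) hτm h.le
    simp only at h4
    have h3 := bp_mono (η := η) (m := M τ) (ρ := -ρ τ) (m' := M (γ s)) (ρ' := -ρ (γ s))
      (neg_le_neg (hρ.monotoneOn (hm hs) hτm h.le)) (by linarith)
    rw [hτ, neg_zero, bp_zero (hM0 _) (hMη _)] at h3
    linarith
  -- on the fibre
  have hfib : ∀ s ∈ Icc s₁ s₂, ∀ s' ∈ Icc s₁ s₂, s < s' → γ s = τ → γ s' = τ → f s ≤ f s' := by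
    intro s hs s' hs' hss e e'
    obtain ⟨p, q, hpq, hI⟩ := H581.fibre_Icc hγ hγc (x := τ) ⟨s, hs, e⟩
    have hsub : Icc p q ⊆ Icc s₁ s₂ := by rw [← hI]; exact inter_subset_left
    have hmem : ∀ t ∈ Icc p q, γ t = τ := by
      intro t ht
      rw [← hI] at ht
      exact ht.2
    have hsI : s ∈ Icc p q := by rw [← hI]; exact ⟨hs, e⟩
    have hsI' : s' ∈ Icc p q := by rw [← hI]; exact ⟨hs', e'⟩
    have hpm := left_mem_Icc.2 hpq
    have hqm := right_mem_Icc.2 hpq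
    have hfc : ContinuousOn f (Icc p q) := hf.mono hsub
    have hfi : InjOn f (Icc p q) := by rw [← hI]; exact hinj
    rcases hfc.strictMonoOn_of_injOn_Icc' hpq hfi with h3 | h3
    · exact (h3 hsI hsI' hss).le
    · exfalso
      have hp1 : s₁ < p := by
        rcases (hsub hpm).1.lt_or_eq with h4 | h4
        · exact h4
        · exact absurd (h4 ▸ hmem _ hpm : γ s₁ = τ) h1.ne
      have hq1 : q < s₂ := by
        rcases (hsub hqm).2.lt_or_eq with h4 | h4
        · exact h4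
        · exact absurd (h4 ▸ hmem _ hqm : γ s₂ = τ) h2.ne'
      have e1 : f p ≤ -M τ := by
        have hcl : IsClosed (Icc s₁ s₂ ∩ f ⁻¹' Iic (-M τ)) :=
          hf.preimage_isClosed_of_isClosed isClosed_Icc isClosed_Iic
        have h5 : Ico s₁ p ⊆ Icc s₁ s₂ ∩ f ⁻¹' Iic (-M τ) := by
          intro t ht
          have ht' : t ∈ Icc s₁ s₂ := ⟨ht.1, ht.2.le.trans (hsub hpm).2⟩
          refine ⟨ht', hle t ht' ?_⟩
          have h6 := hγ ht' (hsub hpm) ht.2.le
          rw [hmem p hpm] at h6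
          rcases h6.lt_or_eq with h7 | h7
          · exact h7
          · have : t ∈ Icc p q := by rw [← hI]; exact ⟨ht', h7⟩
            exact absurd this.1 (not_le.2 ht.2)
        have h6 := hcl.closure_subset_iff.2 h5
        rw [closure_Ico hp1.ne] at h6
        exact (h6 (right_mem_Icc.2 hp1.le)).2
      have e2 : M τ ≤ f q := by
        have hcl : IsClosed (Icc s₁ s₂ ∩ f ⁻¹' Ici (M τ)) :=
          hf.preimage_isClosed_of_isClosed isClosed_Icc isClosed_Ici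
        have h5 : Ioc q s₂ ⊆ Icc s₁ s₂ ∩ f ⁻¹' Ici (M τ) := by
          intro t ht
          have ht' : t ∈ Icc s₁ s₂ := ⟨(hsub hqm).1.trans ht.1.le, ht.2⟩
          refine ⟨ht', hge t ht' ?_⟩
          have h6 := hγ (hsub hqm) ht' ht.1.le
          rw [hmem q hqm] at h6
          rcases h6.lt_or_eq with h7 | h7
          · exact h7
          · have : t ∈ Icc p q := by rw [← hI]; exact ⟨ht', h7.symm⟩
            exact absurd this.2 (not_le.2 ht.1)
        have h6 := hcl.closure_subset_iff.2 h5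
        rw [closure_Ioc hq1.ne] at h6
        exact (h6 (left_mem_Icc.2 hq1.le)).2
      have h6 := h3 hpm hqm (lt_of_le_of_lt hsI.1 (hss.trans_le hsI'.2))
      have h7 := hM0 τ
      linarith
  intro s hs s' hs' hss
  rcases hss.lt_or_eq with hlt | heq'
  swap
  · rw [heq']
  have hg := hγ hs hs' hss
  rcases lt_trichotomy (γ s') τ with h3 | h3 | h3
  · have h4 := hg.trans_lt h3
    rw [hneg s hs h4, hneg s' hs' h3]
    have h5 := hρM' (hm hs) (hm hs') hg
    simp only at h5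
    exact neg_le_neg (bp_mono (neg_le_neg (hρ.monotoneOn (hm hs) (hm hs') hg)) (by linarith))
  · rcases (hg.trans_eq h3).lt_or_eq with h4 | h4
    · have h5 := abs_le.1 (hmid s' hs' h3)
      exact (hle s hs h4).trans h5.1
    · exact hfib s hs s' hs' hlt h4 h3
  · rcases lt_trichotomy (γ s) τ with h4 | h4 | h4
    · have h5 := hle s hs h4
      have h6 := hge s' hs' h3
      have h7 := hM0 τ
      linarith
    · have h5 := abs_le.1 (hmid s hs h4)
      exact h5.2.trans (hge s' hs' h3)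
    · rw [hpos s hs h4, hpos s' hs' h3]
      exact bp_mono (hρ.monotoneOn (hm hs) (hm hs') hg) (hρM (hm hs) (hm hs') hg)

end Vale.Agent.P073.H190.Tvp
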