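import Vale.Agent.P073.H190.TvpA

/-!
# P073, H190, [TVP] (B): the monotone map of the parameters

`Z` and `Y` are arcs, `κ (Y s) ∈ Z [0,1]`, the fibres of `κ` on the arc `Y` over the points of `Z`
are connected, and `κ` maps end points to end points.  Then `κ ∘ Y = Z ∘ γ` with `γ` monotone.
-/

open Set Filter Topology

namespace Vale.Agent.P073.H190.Tvp

theorem continuousOn_left_inv {X W : Type*} [TopologicalSpace X] [TopologicalSpace W] [T2Space W]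
    {f : X → W} {K : Set X} (hK : IsCompact K) (hf : ContinuousOn f K) {g : W → X}
    (hg : ∀ x ∈ K, g (f x) = x) : ContinuousOn g (f '' K) := by
  rw [continuousOn_iff_isClosed]
  intro t ht
  refine ⟨f '' (K ∩ t), ((hK.inter_right ht).image_of_continuousOn
    (hf.mono inter_subset_left)).isClosed, ?_⟩
  ext y
  constructor
  · rintro ⟨h1, x, hx, rfl⟩
    rw [mem_preimage, hg x hx] at h1
    exact ⟨⟨x, ⟨hx, h1⟩, rfl⟩, x, hx, rfl⟩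
  · rintro ⟨⟨x, ⟨hx, hxt⟩, rfl⟩, -⟩
    refine ⟨?_, x, hx, rfl⟩
    rw [mem_preimage, hg x hx]
    exact hxt

/-- **the monotone map of the parameters** -/
theorem exists_gamma {W : Type*} [TopologicalSpace W] [T2Space W] {Y Z : ℝ → W} {κ : W → W}
    (hY : ContinuousOn Y (Icc 0 1)) (hYi : InjOn Y (Icc 0 1)) (hZ : ContinuousOn Z (Icc 0 1))
    (hZi : InjOn Z (Icc 0 1)) (hκ : ContinuousOn κ (Y '' Icc 0 1))
    (himg : ∀ s ∈ Icc (0:ℝ) 1, κ (Y s) ∈ Z '' Icc 0 1) (h0 : κ (Y 0) = Z 0)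
    (h1 : κ (Y 1) = Z 1)
    (hfib : ∀ t ∈ Icc (0:ℝ) 1, IsPreconnected (Y '' Icc 0 1 ∩ κ ⁻¹' {Z t})) :
    ∃ γ : ℝ → ℝ, MonotoneOn γ (Icc 0 1) ∧ ContinuousOn γ (Icc 0 1) ∧
      MapsTo γ (Icc 0 1) (Icc 0 1) ∧ γ 0 = 0 ∧ γ 1 = 1 ∧ ∀ s ∈ Icc (0:ℝ) 1, κ (Y s) = Z (γ s) := by
  classical
  have m0 : (0:ℝ) ∈ Icc (0:ℝ) 1 := by simp
  have m1 : (1:ℝ) ∈ Icc (0:ℝ) 1 := by simp
  set Zi := Function.invFunOn Z (Icc 0 1) with hZi'
  set Yi := Function.invFunOn Y (Icc 0 1) with hYi'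
  have eZ : ∀ t ∈ Icc (0:ℝ) 1, Zi (Z t) = t := fun t ht =>
    hZi.leftInvOn_invFunOn ht
  have eY : ∀ t ∈ Icc (0:ℝ) 1, Yi (Y t) = t := fun t ht =>
    hYi.leftInvOn_invFunOn ht
  have cZ := continuousOn_left_inv isCompact_Icc hZ eZ
  have cY := continuousOn_left_inv isCompact_Icc hY eY
  set γ : ℝ → ℝ := fun s => Zi (κ (Y s)) with hγ
  have hg : ∀ s ∈ Icc (0:ℝ) 1, γ s ∈ Icc (0:ℝ) 1 ∧ κ (Y s) = Z (γ s) := by
    intro s hs
    obtain ⟨t, ht, e⟩ := himg s hs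
    have : γ s = t := by
      show Zi (κ (Y s)) = t
      rw [← e]; exact eZ t ht
    rw [this]
    exact ⟨ht, e.symm⟩
  have hc : ContinuousOn γ (Icc 0 1) := by
    have hκY : ContinuousOn (fun s => κ (Y s)) (Icc 0 1) :=
      hκ.comp hY (mapsTo_image _ _)
    exact cZ.comp hκY fun s hs => himg s hs
  have hγ0 : γ 0 = 0 := by
    show Zi (κ (Y 0)) = 0
    rw [h0]; exact eZ 0 m0
  have hγ1 : γ 1 = 1 := by
    show Zi (κ (Y 1)) = 1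
    rw [h1]; exact eZ 1 m1
  -- the fibres are intervals
  have hF : ∀ c ∈ Icc (0:ℝ) 1, (Icc (0:ℝ) 1 ∩ γ ⁻¹' {c}).OrdConnected := by
    intro c hc'
    have hp : IsPreconnected (Yi '' (Y '' Icc 0 1 ∩ κ ⁻¹' {Z c})) :=
      (hfib c hc').image _ (cY.mono inter_subset_left)
    have he : Yi '' (Y '' Icc 0 1 ∩ κ ⁻¹' {Z c}) = Icc (0:ℝ) 1 ∩ γ ⁻¹' {c} := by
      ext s
      constructor
      · rintro ⟨_, ⟨⟨s', hs', rfl⟩, hy⟩, rfl⟩
        rw [eY s' hs']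
        refine ⟨hs', ?_⟩
        have h2 : κ (Y s') = Z c := hy
        show Zi (κ (Y s')) = c
        rw [h2]; exact eZ c hc'
      · rintro ⟨hs, hsc⟩
        have h2 : γ s = c := hsc
        refine ⟨Y s, ⟨⟨s, hs, rfl⟩, ?_⟩, eY s hs⟩
        show κ (Y s) = Z c
        rw [(hg s hs).2, h2]
    rw [he] at hp
    exact hp.ordConnected
  refine ⟨γ, ?_, hc, fun s hs => (hg s hs).1, hγ0, hγ1, fun s hs => (hg s hs).2⟩
  intro s hs s' hs' hss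
  by_contra hcon
  push Not at hcon
  obtain ⟨c, hc1, hc2⟩ := exists_between hcon
  have hcI : c ∈ Icc (0:ℝ) 1 := ⟨(hg s' hs').1.1.trans hc1.le, hc2.le.trans (hg s hs).1.2⟩
  obtain ⟨u, hu, huc⟩ : ∃ u ∈ Icc 0 s, γ u = c := by
    have hsub : Icc 0 s ⊆ Icc (0:ℝ) 1 := Icc_subset_Icc_right hs.2
    have := intermediate_value_Icc hs.1 (hc.mono hsub)
    exact this ⟨by rw [hγ0]; exact hcI.1, hc2.le⟩
  obtain ⟨u', hu', huc'⟩ : ∃ u ∈ Icc s' 1, γ u = c := by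
    have hsub : Icc s' 1 ⊆ Icc (0:ℝ) 1 := Icc_subset_Icc_left hs'.1
    have := intermediate_value_Icc hs'.2 (hc.mono hsub)
    exact this ⟨hc1.le, by rw [hγ1]; exact hcI.2⟩
  have h3 := (hF c hcI).out (x := u) (y := u') ⟨⟨hu.1, hu.2.trans hs.2⟩, huc⟩
    ⟨⟨hs'.1.trans hu'.1, hu'.2⟩, huc'⟩
  have h4 : s ∈ Icc (0:ℝ) 1 ∩ γ ⁻¹' {c} := h3 ⟨hu.2, hss.trans hu'.1⟩
  exact absurd h4.2 hc2.ne'

end Vale.Agent.P073.H190.Tvp
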