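import Vale.Agent.P073.H190.TvpB
import Vale.Agent.P073.H345.PassB
import Vale.Agent.P073.ConicalStrata2

/-!
# P073, H190, [TVP] (C): conical functions of one variable

Lipschitz constants, and the shape near a parameter with a change of the sign.
-/

open Set Metric Filter Topology
open scoped NNReal ENNReal

namespace Vale.Agent.P073.H190.Tvp

open _root_.P073 _root_.P073.H345

theorem cc_clamp (l r : ℝ) : CC (H581.clamp l r) univ := by
  have hu : ConicalSet (univ : Set ℝ) := isOpen_univ.conicalSet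
  have hid : CC (fun t : ℝ => t) univ := ⟨continuousOn_id, conicalOn_id hu⟩
  exact (CC.const l hu).max ((CC.const r hu).min hid)

/-- conical continuous functions on `[0,1]` are Lipschitz -/
theorem exists_lip01 {F : Type*} [NormedAddCommGroup F] [NormedSpace ℝ F] {f : ℝ → F}
    (hf : CC f (Icc 0 1)) :
    ∃ C : ℝ, 0 < C ∧ ∀ s ∈ Icc (0:ℝ) 1, ∀ t ∈ Icc (0:ℝ) 1, ‖f s - f t‖ ≤ C * |s - t| := by
  set g : ℝ → F := fun t => f (H581.clamp 0 1 t) with hg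
  have hgc : CC g univ := hf.comp (cc_clamp 0 1) fun t _ => H581.clamp_mem zero_le_one t
  have hgf : ∀ t ∈ Icc (0:ℝ) 1, g t = f t := fun t ht => by
    simp only [hg]; rw [H581.clamp_of_mem ht]
  choose δ hδ _ M hM using fun x : ℝ => exists_lipschitz_near isOpen_univ hgc.con
    hgc.cont (mem_univ x)
  have hK : IsCompact (Icc (0:ℝ) 1) := isCompact_Icc
  obtain ⟨T, hT⟩ := hK.elim_nhds_subcover' (fun x _ => ball x (δ x))
    (fun x _ => ball_mem_nhds x (hδ x))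
  obtain ⟨ε, hε, hL⟩ := lebesgue_number_lemma_of_metric
    (c := fun x : {x // x ∈ T} => ball (x.1 : ℝ) (δ x.1)) hK
    (fun x => isOpen_ball) (by
      intro y hy
      obtain ⟨x, hx, hxy⟩ := mem_iUnion₂.1 (hT hy)
      exact mem_iUnion.2 ⟨⟨x, hx⟩, hxy⟩)
  obtain ⟨B, hB⟩ := (hK.image_of_continuousOn hf.cont).isBounded.exists_norm_le
  have hS : (0:ℝ) ≤ ∑ x ∈ T, (M x.1 : ℝ) := Finset.sum_nonneg fun x _ => (M _).2
  have hBε : 0 ≤ 2 * |B| / ε := by positivity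
  refine ⟨(∑ x ∈ T, (M x.1 : ℝ)) + 2 * |B| / ε + 1, by positivity,
    fun x hx y hy => ?_⟩
  have e0 : |x - y| = ‖x - y‖ := rfl
  by_cases hxy : ‖x - y‖ < ε
  · obtain ⟨z, hz⟩ := hL x hx
    have h1 := (hM z.1).dist_le_mul x (hz (mem_ball_self hε)) y
      (hz (by rw [mem_ball, dist_comm, dist_eq_norm]; exact hxy))
    rw [dist_eq_norm, dist_eq_norm, hgf x hx, hgf y hy] at h1
    refine h1.trans (mul_le_mul_of_nonneg_right ?_ (norm_nonneg _))
    have h2 : (M z.1 : ℝ) ≤ ∑ x ∈ T, (M x.1 : ℝ) :=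
      Finset.single_le_sum (f := fun x : (Icc (0:ℝ) 1) => (M x.1 : ℝ)) (fun x _ => (M _).2) z.2
    linarith
  · push Not at hxy
    have h1 : ‖f x‖ ≤ |B| := (hB _ ⟨x, hx, rfl⟩).trans (le_abs_self B)
    have h2 : ‖f y‖ ≤ |B| := (hB _ ⟨y, hy, rfl⟩).trans (le_abs_self B)
    rw [e0]
    calc ‖f x - f y‖ ≤ ‖f x‖ + ‖f y‖ := norm_sub_le _ _
      _ ≤ 2 * |B| / ε * ε := by rw [div_mul_cancel₀ _ hε.ne']; linarith
      _ ≤ 2 * |B| / ε * ‖x - y‖ := mul_le_mul_of_nonneg_left hxy hBε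
      _ ≤ _ := mul_le_mul_of_nonneg_right (by linarith) (norm_nonneg _)

/-- the function `q` changes its sign relative to `q τ` at the interior parameter `τ` -/
def SgnAt (q : ℝ → ℝ) (τ : ℝ) : Prop :=
  τ ∈ Ioo (0:ℝ) 1 ∧ ∃ ε : ℝ, (ε = 1 ∨ ε = -1) ∧ ∃ δ > 0, ∀ s ∈ Icc (0:ℝ) 1, |s - τ| ≤ δ →
    (τ < s → 0 < ε * (q s - q τ)) ∧ (s < τ → ε * (q s - q τ) < 0)

/-- **slopes near a change of the sign** -/
theorem SgnAt.slope {q : ℝ → ℝ} {τ : ℝ} (h : SgnAt q τ) (hq : ConicalOn q (Icc 0 1)) {r : ℝ}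
    (hr : 0 < r) : ∃ ε : ℝ, (ε = 1 ∨ ε = -1) ∧ ∃ δ > 0, ∃ α > 0, δ ≤ r ∧ 0 ≤ τ - δ ∧ τ + δ ≤ 1 ∧
      ∀ t ∈ Icc (τ - δ) (τ + δ), ∀ t' ∈ Icc (τ - δ) (τ + δ), t ≤ t' →
        α * (t' - t) ≤ ε * (q t' - q t) := by
  obtain ⟨hτ, ε, hε, δ₀, hδ₀, hs⟩ := h
  obtain ⟨r', hr', hcon⟩ := hq τ ⟨hτ.1.le, hτ.2.le⟩
  set δ := min (min r r') (min δ₀ (min τ (1 - τ))) with hδ
  have hδ0 : 0 < δ := lt_min (lt_min hr hr') (lt_min hδ₀ (lt_min hτ.1 (by linarith [hτ.2])))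
  have hδr : δ ≤ r := (min_le_left _ _).trans (min_le_left _ _)
  have hδr' : δ ≤ r' := (min_le_left _ _).trans (min_le_right _ _)
  have hδδ : δ ≤ δ₀ := (min_le_right _ _).trans (min_le_left _ _)
  have hδτ : δ ≤ τ := (min_le_right _ _).trans ((min_le_right _ _).trans (min_le_left _ _))
  have hδτ' : δ ≤ 1 - τ := (min_le_right _ _).trans ((min_le_right _ _).trans (min_le_right _ _))
  have hmR : τ + δ ∈ Icc (0:ℝ) 1 := ⟨by linarith, by linarith⟩
  have hmL : τ - δ ∈ Icc (0:ℝ) 1 := ⟨by linarith, by linarith⟩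
  set β := ε * (q (τ + δ) - q τ) with hβ
  set β' := ε * (q τ - q (τ - δ)) with hβ'
  have hβ0 : 0 < β := (hs _ hmR (by rw [add_sub_cancel_left, abs_of_pos hδ0]; exact hδδ)).1
    (by linarith)
  have hβ0' : 0 < β' := by
    have := (hs _ hmL (by rw [abs_of_neg (by linarith)]; linarith)).2 (by linarith)
    rw [hβ']; nlinarith
  have hR : ∀ s, τ ≤ s → s ≤ τ + δ → ε * (q s - q τ) = (s - τ) / δ * β := by
    intro s h1 h2
    have h3 := (hcon δ (by rw [Real.norm_of_nonneg hδ0.le]; exact hδr') hmR ((s - τ) / δ)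
      ⟨div_nonneg (by linarith) hδ0.le, by rw [div_le_one hδ0]; linarith⟩).2
    have e : τ + ((s - τ) / δ) • δ = s := by
      rw [smul_eq_mul, div_mul_cancel₀ _ hδ0.ne']; ring
    rw [e, smul_eq_mul] at h3
    rw [h3, hβ]; ring
  have hL : ∀ s, τ - δ ≤ s → s ≤ τ → ε * (q τ - q s) = (τ - s) / δ * β' := by
    intro s h1 h2
    have h3 := (hcon (-δ) (by rw [norm_neg, Real.norm_of_nonneg hδ0.le]; exact hδr')
      (by rw [← sub_eq_add_neg]; exact hmL) ((τ - s) / δ)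
      ⟨div_nonneg (by linarith) hδ0.le, by rw [div_le_one hδ0]; linarith⟩).2
    have e : τ + ((τ - s) / δ) • (-δ) = s := by
      rw [smul_eq_mul, mul_neg, div_mul_cancel₀ _ hδ0.ne']; ring
    rw [e, smul_eq_mul, ← sub_eq_add_neg] at h3
    rw [h3, hβ']; ring
  set α := min (β / δ) (β' / δ) with hα
  have hα0 : 0 < α := lt_min (div_pos hβ0 hδ0) (div_pos hβ0' hδ0)
  have eR : ∀ x, x / δ * β = β / δ * x := fun x => by ring
  have eL : ∀ x, x / δ * β' = β' / δ * x := fun x => by ring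
  have hα1 : α ≤ β / δ := min_le_left _ _
  have hα2 : α ≤ β' / δ := min_le_right _ _
  have kR : ∀ s s', τ ≤ s → s ≤ s' → s' ≤ τ + δ → α * (s' - s) ≤ ε * (q s' - q s) := by
    intro s s' h1 h2 h3
    have a1 := hR s h1 (h2.trans h3)
    have a2 := hR s' (h1.trans h2) h3
    rw [eR] at a1 a2
    have : ε * (q s' - q s) = β / δ * (s' - s) := by
      have : ε * (q s' - q s) = ε * (q s' - q τ) - ε * (q s - q τ) := by ring
      rw [this, a1, a2]; ring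
    rw [this]
    exact mul_le_mul_of_nonneg_right hα1 (by linarith)
  have kL : ∀ s s', τ - δ ≤ s → s ≤ s' → s' ≤ τ → α * (s' - s) ≤ ε * (q s' - q s) := by
    intro s s' h1 h2 h3
    have a1 := hL s h1 (h2.trans h3)
    have a2 := hL s' (h1.trans h2) h3
    rw [eL] at a1 a2
    have : ε * (q s' - q s) = β' / δ * (s' - s) := by
      have : ε * (q s' - q s) = ε * (q τ - q s) - ε * (q τ - q s') := by ring
      rw [this, a1, a2]; ring
    rw [this]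
    exact mul_le_mul_of_nonneg_right hα2 (by linarith)
  refine ⟨ε, hε, δ, hδ0, α, hα0, hδr, by linarith, by linarith, ?_⟩
  intro t ht t' ht' htt
  rcases le_total τ t with h1 | h1
  · exact kR t t' h1 htt ht'.2
  · rcases le_total t' τ with h2 | h2
    · exact kL t t' ht.1 htt h2
    · have a1 := kL t τ ht.1 h1 le_rfl
      have a2 := kR τ t' le_rfl h2 ht'.2
      have e1 : α * (t' - t) = α * (τ - t) + α * (t' - τ) := by ring
      have e2 : ε * (q t' - q t) = ε * (q τ - q t) + ε * (q t' - q τ) := by ring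
      linarith

/-- the crossing is isolated -/
theorem SgnAt.isolated {q : ℝ → ℝ} {τ : ℝ} (h : SgnAt q τ) :
    ∃ δ > 0, ∀ s ∈ Icc (0:ℝ) 1, |s - τ| ≤ δ → q s = q τ → s = τ := by
  obtain ⟨-, ε, -, δ, hδ, hs⟩ := h
  refine ⟨δ, hδ, fun s h1 h2 h3 => ?_⟩
  obtain ⟨a1, a2⟩ := hs s h1 h2
  rw [h3, sub_self, mul_zero] at a1 a2
  rcases lt_trichotomy s τ with h4 | h4 | h4
  · exact absurd (a2 h4) (lt_irrefl 0)
  · exact h4
  · exact absurd (a1 h4) (lt_irrefl 0)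

/-- finitely many crossings -/
theorem finite_cross {E : Type*} [TopologicalSpace E] {Z : ℝ → E} {u : E → ℝ}
    (hZ : ContinuousOn Z (Icc 0 1)) (hu : Continuous u) {D : Set E} (hD : IsClosed D) (a : ℝ)
    (hs : ∀ t ∈ Icc (0:ℝ) 1, u (Z t) = a → Z t ∈ D → SgnAt (fun s => u (Z s)) t) :
    {t | t ∈ Icc (0:ℝ) 1 ∧ u (Z t) = a ∧ Z t ∈ D}.Finite := by
  by_contra hinf
  set S := {t | t ∈ Icc (0:ℝ) 1 ∧ u (Z t) = a ∧ Z t ∈ D} with hS
  have hScl : IsClosed S := by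
    have h1 : IsClosed (Icc (0:ℝ) 1 ∩ Z ⁻¹' (u ⁻¹' {a} ∩ D)) :=
      hZ.preimage_isClosed_of_isClosed isClosed_Icc
        ((isClosed_singleton.preimage hu).inter hD)
    have : S = Icc (0:ℝ) 1 ∩ Z ⁻¹' (u ⁻¹' {a} ∩ D) := by
      ext t; simp only [hS, mem_ofPred_eq, mem_inter_iff, mem_preimage, mem_singleton_iff]
    rw [this]; exact h1
  obtain ⟨τ, -, hτ⟩ := Set.Infinite.exists_accPt_of_subset_isCompact hinf isCompact_Icc
    (fun t (ht : t ∈ S) => ht.1)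
  have hτS : τ ∈ S := hScl.closure_eq ▸ (mem_closure_iff_clusterPt.2 hτ.clusterPt)
  obtain ⟨δ, hδ, hiso⟩ := (hs τ hτS.1 hτS.2.1 hτS.2.2).isolated
  rw [accPt_iff_nhds] at hτ
  obtain ⟨t, ⟨ht1, ht2⟩, ht3⟩ := hτ (closedBall τ δ) (closedBall_mem_nhds τ hδ)
  refine ht3 (hiso t ht2.1 ?_ ?_)
  · rw [mem_closedBall, Real.dist_eq] at ht1; exact ht1
  · show u (Z t) = u (Z τ)
    rw [ht2.2.1, hτS.2.1]

end Vale.Agent.P073.H190.Tvp
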