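import Vale.Agent.P073.H190.TvpC

/-!
# P073, H190, [TVP] (D): lifts of an arc over an insertion map of variable thickness
-/

open Set Metric Filter Topology
open scoped NNReal ENNReal

namespace Vale.Agent.P073.H190.Tvp

open _root_.P073 _root_.P073.H345

/-- a slot: direction, level, closed region, profile of the thickness -/
structure Slot (n : ℕ) where
  i : Fin n
  a : ℝ
  D : Set (Fin n → ℝ)
  χ : (Fin n → ℝ) → ℝ
  closed : IsClosed D
  cc : CC χ univ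
  nonneg : ∀ y, 0 ≤ χ y
  le_one : ∀ y, χ y ≤ 1
  indep : ∀ y t, χ (Function.update y i t) = χ y
  supp : ∀ y, y ∉ D → χ y = 0

/-- the slot is not active at `y` -/
def Slot.Off {n : ℕ} (S : Slot n) (η : ℝ) (y : Fin n → ℝ) : Prop := η ≤ |y S.i - S.a| ∨ S.χ y = 0

/-- the map of one slot -/
noncomputable def Slot.map {n : ℕ} (S : Slot n) (η c : ℝ) : (Fin n → ℝ) → Fin n → ℝ :=
  kap S.i S.a η fun y => c * S.χ y

/-- **`κ` is the insertion map of the slots, near `X`** -/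
structure IsKap {n : ℕ} {J : Type*} (S : J → Slot n) (X : Set (Fin n → ℝ)) (η c : J → ℝ)
    (κ : (Fin n → ℝ) → Fin n → ℝ) : Prop where
  off : ∀ y, κ y ∈ X → (∀ j, (S j).Off (η j) y) → κ y = y
  on : ∀ y, κ y ∈ X → ∀ j, |y (S j).i - (S j).a| < η j →
    (∀ j', j' ≠ j → (S j').Off (η j') y ∧ (S j').Off (η j') ((S j).map (η j) (c j) y)) →
    κ y = (S j).map (η j) (c j) y

/-- `Y` is a lift of the arc `Z` -/
structure Lift {n : ℕ} (κ : (Fin n → ℝ) → Fin n → ℝ) (Z Y : ℝ → Fin n → ℝ) (γ : ℝ → ℝ) :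
    Prop where
  cY : ContinuousOn Y (Icc 0 1)
  iY : InjOn Y (Icc 0 1)
  mono : MonotoneOn γ (Icc 0 1)
  cg : ContinuousOn γ (Icc 0 1)
  maps : MapsTo γ (Icc 0 1) (Icc 0 1)
  z0 : γ 0 = 0
  z1 : γ 1 = 1
  eq : ∀ s ∈ Icc (0:ℝ) 1, κ (Y s) = Z (γ s)

/-- the arc `Z` is in general position with respect to the slots -/
structure Good {n : ℕ} {J : Type*} (S : J → Slot n) (Z : ℝ → Fin n → ℝ) : Prop where
  cc : CC Z (Icc 0 1)
  dis : ∀ j j', j ≠ j' → ∀ t ∈ Icc (0:ℝ) 1, Z t (S j).i = (S j).a → Z t ∈ (S j).D →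
    Z t (S j').i = (S j').a → Z t ∉ (S j').D
  sgn : ∀ j, ∀ t ∈ Icc (0:ℝ) 1, Z t (S j).i = (S j).a → Z t ∈ (S j).D →
    SgnAt (fun s => Z s (S j).i) t

section maps

variable {n : ℕ} (S : Slot n) {η c : ℝ} {y : Fin n → ℝ}

theorem Slot.map_ne {k : Fin n} (hk : k ≠ S.i) : S.map η c y k = y k := kap_ne hk _ _ _ _

theorem Slot.map_self : S.map η c y S.i = S.a + ph η (c * S.χ y) (y S.i - S.a) :=
  kap_self _ _ _ _ _

theorem Slot.map_far (hη : 0 < η) (h : η ≤ |y S.i - S.a|) : S.map η c y = y :=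
  kap_eq_self_of_far hη h

theorem Slot.map_zero (h : S.χ y = 0) : S.map η c y = y :=
  kap_eq_self_of_zero (by rw [h, mul_zero])

theorem Slot.chi_map : S.χ (S.map η c y) = S.χ y := by
  unfold Slot.map H345.kap
  exact S.indep _ _

/-- near the level and near the region of the slot -/
def Slot.Nr (r : ℝ) (y : Fin n → ℝ) : Prop := |y S.i - S.a| ≤ r ∧ ∃ w ∈ S.D, ‖w - y‖ ≤ r

theorem Slot.Nr.mono {S : Slot n} {r r' : ℝ} (h : S.Nr r y) (hr : r ≤ r') : S.Nr r' y :=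
  let ⟨w, hw, h2⟩ := h.2
  ⟨h.1.trans hr, w, hw, h2.trans hr⟩

theorem Slot.Nr.shift {S : Slot n} {r d : ℝ} {y' : Fin n → ℝ} (h : S.Nr r y)
    (hd : ‖y' - y‖ ≤ d) : S.Nr (r + d) y' := by
  obtain ⟨h1, w, hw, h2⟩ := h
  refine ⟨?_, w, hw, ?_⟩
  · have h3 : |y' S.i - y S.i| ≤ d := (norm_le_pi_norm (y' - y) _).trans hd
    have e : y' S.i - S.a = (y S.i - S.a) + (y' S.i - y S.i) := by ring
    rw [e]
    exact (abs_add_le _ _).trans (add_le_add h1 h3)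
  · have e : w - y' = (w - y) - (y' - y) := by abel
    rw [e]
    exact (norm_sub_le _ _).trans (add_le_add h2 hd)

theorem Slot.off_of_not_nr {S : Slot n} {r : ℝ} (h : ¬ S.Nr r y) (hη : η ≤ r) (hr : 0 ≤ r) :
    S.Off η y := by
  by_contra hcon
  unfold Slot.Off at hcon
  push Not at hcon
  refine h ⟨(hcon.1.trans_le hη).le, y, ?_, by rw [sub_self, norm_zero]; exact hr⟩
  by_contra h2
  exact hcon.2 (S.supp y h2)

theorem Slot.norm_map_sub_le (hη : 0 < η) (hc : 0 ≤ c) (hcη : c ≤ η / 2) :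
    ‖S.map η c y - y‖ ≤ c := by
  have h0 : 0 ≤ c * S.χ y := mul_nonneg hc (S.nonneg y)
  have h1 : c * S.χ y ≤ c := mul_le_of_le_one_right hc (S.le_one y)
  rw [pi_norm_le_iff_of_nonneg hc]
  intro k
  rw [Pi.sub_apply, Real.norm_eq_abs]
  by_cases hk : k = S.i
  · subst hk
    rw [S.map_self]
    have h2 := abs_sub_le_of_ph hη h0 (h1.trans hcη) (r := y S.i - S.a) rfl
    have e : S.a + ph η (c * S.χ y) (y S.i - S.a) - y S.i =
      -(y S.i - S.a - ph η (c * S.χ y) (y S.i - S.a)) := by ring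
    rw [e, abs_neg]
    exact h2.trans h1
  · rw [S.map_ne hk, sub_self, abs_zero]
    exact hc

theorem Slot.M0 (hc : 0 ≤ c) (y : Fin n → ℝ) : 0 ≤ c * S.χ y := mul_nonneg hc (S.nonneg y)

theorem Slot.M_le (hc : 0 ≤ c) (y : Fin n → ℝ) : c * S.χ y ≤ c :=
  mul_le_of_le_one_right hc (S.le_one y)

end maps

section

variable {n : ℕ} {J : Type*} {S : J → Slot n} {X : Set (Fin n → ℝ)} {η c : J → ℝ}
  {κ : (Fin n → ℝ) → Fin n → ℝ}

/-- the smallness conditions on the thicknesses -/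
def Sml (c₀ : ℝ) (η c : J → ℝ) : Prop :=
  ∀ j, 0 < η j ∧ η j ≤ c₀ ∧ 0 ≤ c j ∧ c j ≤ η j / 2

theorem Sml.mono {c₀ c₁ : ℝ} {η c : J → ℝ} (h : Sml c₀ η c) (h1 : c₀ ≤ c₁) :
    Sml c₁ η c := fun j => ⟨(h j).1, (h j).2.1.trans h1, (h j).2.2⟩

/-- if all the other slots are far, `κ` is the map of the slot -/
theorem IsKap.eq_map (H : IsKap S X η c κ) {c₀ : ℝ} (hs : Sml c₀ η c) {y : Fin n → ℝ}
    (hy : κ y ∈ X) (j : J) (ho : ∀ j', j' ≠ j → ¬ (S j').Nr (2 * c₀) y) :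
    κ y = (S j).map (η j) (c j) y := by
  have hc0 : 0 < c₀ := (hs j).1.trans_le (hs j).2.1
  by_cases h : |y (S j).i - (S j).a| < η j
  · refine H.on y hy j h fun j' hj => ⟨?_, ?_⟩
    · exact Slot.off_of_not_nr (ho j' hj) (by linarith [(hs j').2.1]) (by linarith)
    · refine Slot.off_of_not_nr (r := c₀) (fun h2 => ho j' hj ?_) (hs j').2.1 hc0.le
      have h3 := (S j).norm_map_sub_le (y := y) (hs j).1 (hs j).2.2.1 (hs j).2.2.2
      have h4 : c j ≤ c₀ := by linarith [(hs j).2.2.2, (hs j).2.1, (hs j).1]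
      have h5 := h2.shift (y' := y) (d := c₀) (by rw [norm_sub_rev]; exact h3.trans h4)
      rwa [← two_mul] at h5
  · push Not at h
    rw [(S j).map_far (hs j).1 h]
    refine H.off y hy fun j' => ?_
    by_cases hj : j' = j
    · rw [hj]; exact Or.inl h
    · exact Slot.off_of_not_nr (ho j' hj) (by linarith [(hs j').2.1]) (by linarith)

/-- if all the slots are far, `κ` does not move the point -/
theorem IsKap.eq_self (H : IsKap S X η c κ) {c₀ : ℝ} (hc0 : 0 ≤ c₀) (hs : Sml c₀ η c)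
    {y : Fin n → ℝ} (hy : κ y ∈ X) (ho : ∀ j, ¬ (S j).Nr (2 * c₀) y) : κ y = y :=
  H.off y hy fun j => Slot.off_of_not_nr (ho j) (by linarith [(hs j).2.1]) (by linarith)

/-- near the arc at most one slot is near -/
theorem exists_sep [Finite J] {Z : ℝ → Fin n → ℝ} (G : Good S Z) :
    ∃ r > 0, ∀ t ∈ Icc (0:ℝ) 1, ∀ y, ‖y - Z t‖ ≤ r → ∀ j j', j ≠ j' →
      (S j).Nr r y → ¬ (S j').Nr r y := by
  have key : ∀ j j', j ≠ j' → ∃ r > 0, ∀ t ∈ Icc (0:ℝ) 1, ∀ y, ‖y - Z t‖ ≤ r →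
      (S j).Nr r y → ¬ (S j').Nr r y := by
    intro j j' hjj
    by_contra hcon
    push Not at hcon
    have h1 : ∀ m : ℕ, ∃ t ∈ Icc (0:ℝ) 1, ∃ y, ‖y - Z t‖ ≤ 1 / ((m:ℝ) + 1) ∧
        (S j).Nr (1 / ((m:ℝ) + 1)) y ∧ (S j').Nr (1 / ((m:ℝ) + 1)) y := fun m =>
      let ⟨t, ht, y, h2, h3, h4⟩ := hcon (1 / ((m:ℝ) + 1)) (by positivity)
      ⟨t, ht, y, h2, h3, h4⟩
    choose t ht y h2 h3 h5 using h1
    choose h3 w hw h4 using h3
    choose h5 w' hw' h6 using h5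
    obtain ⟨t₀, ht₀, φ, hφ, hlim⟩ := isCompact_Icc.tendsto_subseq ht
    have h0 : Tendsto (fun m : ℕ => (1 : ℝ) / ((φ m : ℝ) + 1)) atTop (𝓝 0) :=
      tendsto_one_div_add_atTop_nhds_zero_nat.comp hφ.tendsto_atTop
    have hZt : Tendsto (fun m => Z (t (φ m))) atTop (𝓝 (Z t₀)) := by
      have := (G.cc.cont t₀ ht₀).tendsto.comp (f := fun m => t (φ m)) (x := atTop)
        (tendsto_nhdsWithin_iff.2 ⟨hlim, Eventually.of_forall fun m => ht _⟩)
      exact this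
    have hyt : Tendsto (fun m => y (φ m)) atTop (𝓝 (Z t₀)) := by
      have h7 : Tendsto (fun m => y (φ m) - Z (t (φ m))) atTop (𝓝 0) :=
        squeeze_zero_norm (fun m => h2 _) h0
      have := h7.add hZt
      simpa using this
    have hwt : Tendsto (fun m => w (φ m)) atTop (𝓝 (Z t₀)) := by
      have h7 : Tendsto (fun m => w (φ m) - y (φ m)) atTop (𝓝 0) :=
        squeeze_zero_norm (fun m => h4 _) h0
      have := h7.add hyt
      simpa using this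
    have hwt' : Tendsto (fun m => w' (φ m)) atTop (𝓝 (Z t₀)) := by
      have h7 : Tendsto (fun m => w' (φ m) - y (φ m)) atTop (𝓝 0) :=
        squeeze_zero_norm (fun m => h6 _) h0
      have := h7.add hyt
      simpa using this
    have e1 : Z t₀ ∈ (S j).D := (S j).closed.mem_of_tendsto hwt (Eventually.of_forall fun m => hw _)
    have e2 : Z t₀ ∈ (S j').D :=
      (S j').closed.mem_of_tendsto hwt' (Eventually.of_forall fun m => hw' _)
    have e3 : |Z t₀ (S j).i - (S j).a| ≤ 0 :=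
      le_of_tendsto_of_tendsto (((tendsto_pi_nhds.1 hyt _).sub_const _).abs) h0
        (Eventually.of_forall fun m => h3 _)
    have e4 : |Z t₀ (S j').i - (S j').a| ≤ 0 :=
      le_of_tendsto_of_tendsto (((tendsto_pi_nhds.1 hyt _).sub_const _).abs) h0
        (Eventually.of_forall fun m => h5 _)
    exact G.dis j j' hjj t₀ ht₀ (by linarith [abs_nonpos_iff.1 e3]) e1
      (by linarith [abs_nonpos_iff.1 e4]) e2
  have key' : ∀ p : J × J, ∃ r > 0, p.1 ≠ p.2 → ∀ t ∈ Icc (0:ℝ) 1, ∀ y, ‖y - Z t‖ ≤ r →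
      (S p.1).Nr r y → ¬ (S p.2).Nr r y := by
    intro p
    by_cases h : p.1 ≠ p.2
    · obtain ⟨r, hr, h1⟩ := key p.1 p.2 h
      exact ⟨r, hr, fun _ => h1⟩
    · exact ⟨1, one_pos, fun h' => absurd h' h⟩
  choose r hr h using key'
  obtain ⟨r₀, hr₀, hle⟩ : ∃ r₀ : ℝ, 0 < r₀ ∧ ∀ p, r₀ ≤ r p := by
    by_cases hne : Nonempty (J × J)
    · obtain ⟨p₀, hmin⟩ := Finite.exists_min r
      exact ⟨r p₀, hr _, fun p => hmin p⟩
    · exact ⟨1, one_pos, fun p => absurd ⟨p⟩ hne⟩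
  refine ⟨r₀, hr₀, fun t ht y h1 j j' hjj h2 h3 => ?_⟩
  exact h (j, j') hjj t ht y (h1.trans (hle _)) (h2.mono (hle _)) (h3.mono (hle _))

/-- off neighbourhoods of the crossings the arc is away from the slot -/
theorem exists_cover {Z : ℝ → Fin n → ℝ} (G : Good S Z) (j : J) {δ : ℝ → ℝ}
    (hδ : ∀ t ∈ Icc (0:ℝ) 1, Z t (S j).i = (S j).a → Z t ∈ (S j).D → 0 < δ t) :
    ∃ r > 0, ∀ t ∈ Icc (0:ℝ) 1, (S j).Nr r (Z t) →
      ∃ τ ∈ Icc (0:ℝ) 1, Z τ (S j).i = (S j).a ∧ Z τ ∈ (S j).D ∧ |t - τ| < δ τ := by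
  by_contra hcon
  push Not at hcon
  have h1 : ∀ m : ℕ, ∃ t ∈ Icc (0:ℝ) 1, |Z t (S j).i - (S j).a| ≤ 1 / ((m:ℝ) + 1) ∧
      (∃ w ∈ (S j).D, ‖w - Z t‖ ≤ 1 / ((m:ℝ) + 1)) ∧
      ∀ τ ∈ Icc (0:ℝ) 1, Z τ (S j).i = (S j).a → Z τ ∈ (S j).D → δ τ ≤ |t - τ| := fun m =>
    let ⟨t, ht, h2, h4⟩ := hcon (1 / ((m:ℝ) + 1)) (by positivity)
    ⟨t, ht, h2.1, h2.2, h4⟩
  choose t ht h2 h5 h4 using h1
  choose w hw h3 using h5
  obtain ⟨t₀, ht₀, φ, hφ, hlim⟩ := isCompact_Icc.tendsto_subseq ht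
  have h0 : Tendsto (fun m : ℕ => (1 : ℝ) / ((φ m : ℝ) + 1)) atTop (𝓝 0) :=
    tendsto_one_div_add_atTop_nhds_zero_nat.comp hφ.tendsto_atTop
  have hZt : Tendsto (fun m => Z (t (φ m))) atTop (𝓝 (Z t₀)) := by
    have := (G.cc.cont t₀ ht₀).tendsto.comp (f := fun m => t (φ m)) (x := atTop)
      (tendsto_nhdsWithin_iff.2 ⟨hlim, Eventually.of_forall fun m => ht _⟩)
    exact this
  have hwt : Tendsto (fun m => w (φ m)) atTop (𝓝 (Z t₀)) := by
    have h7 : Tendsto (fun m => w (φ m) - Z (t (φ m))) atTop (𝓝 0) :=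
      squeeze_zero_norm (fun m => h3 _) h0
    have := h7.add hZt
    simpa using this
  have e1 : Z t₀ ∈ (S j).D := (S j).closed.mem_of_tendsto hwt (Eventually.of_forall fun m => hw _)
  have e3 : |Z t₀ (S j).i - (S j).a| ≤ 0 :=
    le_of_tendsto_of_tendsto (((tendsto_pi_nhds.1 hZt _).sub_const _).abs) h0
      (Eventually.of_forall fun m => h2 _)
  have e4 : Z t₀ (S j).i = (S j).a := by linarith [abs_nonpos_iff.1 e3]
  have e5 : δ t₀ ≤ |t₀ - t₀| := by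
    refine le_of_tendsto_of_tendsto tendsto_const_nhds ((hlim.sub_const t₀).abs)
      (Eventually.of_forall fun m => h4 _ t₀ ht₀ e4 e1)
  rw [sub_self, abs_zero] at e5
  exact absurd (hδ t₀ ht₀ e4 e1) (not_lt.2 e5)

end

end Vale.Agent.P073.H190.Tvp
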