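import Vale.Agent.P073.H190.TvpD

/-!
# P073, H190, [TVP] (E): the zones of the crossings, and the variation of a lift
-/

open Set Metric Filter Topology
open scoped NNReal ENNReal

namespace Vale.Agent.P073.H190.Tvp

open _root_.P073 _root_.P073.H345

/-- the crossing parameters of the arc with the slot -/
def crs {n : ℕ} (S : Slot n) (Z : ℝ → Fin n → ℝ) : Set ℝ :=
  {t | t ∈ Icc (0:ℝ) 1 ∧ Z t S.i = S.a ∧ Z t ∈ S.D}

/-- **the zones of the crossings in the lift** -/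
structure Zones {n : ℕ} (S : Slot n) (Z Y : ℝ → Fin n → ℝ) (c₀ : ℝ) (s₁ s₂ : ℝ → ℝ) :
    Prop where
  le : ∀ τ ∈ crs S Z, s₁ τ ≤ s₂ τ
  mem₁ : ∀ τ ∈ crs S Z, s₁ τ ∈ Icc (0:ℝ) 1
  mem₂ : ∀ τ ∈ crs S Z, s₂ τ ∈ Icc (0:ℝ) 1
  mono : ∀ τ ∈ crs S Z, MonotoneOn (fun s => Y s S.i) (Icc (s₁ τ) (s₂ τ)) ∨
    AntitoneOn (fun s => Y s S.i) (Icc (s₁ τ) (s₂ τ))
  cover : ∀ s ∈ Icc (0:ℝ) 1, S.Nr c₀ (Y s) → ∃ τ ∈ crs S Z, s₁ τ < s ∧ s < s₂ τ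

theorem exists_lower {ι : Type*} {s : Set ι} (hs : s.Finite) {f : ι → ℝ}
    (hf : ∀ i ∈ s, 0 < f i) : ∃ r > 0, ∀ i ∈ s, r ≤ f i := by
  classical
  rcases s.eq_empty_or_nonempty with h | h
  · exact ⟨1, one_pos, fun i hi => absurd hi (h ▸ notMem_empty i)⟩
  · obtain ⟨i, hi, hmin⟩ := hs.exists_minimalFor f s h
    refine ⟨f i, hf i hi, fun k hk => ?_⟩
    rcases le_total (f i) (f k) with h1 | h1
    · exact h1
    · exact hmin hk h1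

section

variable {n : ℕ} {J : Type*} {S : J → Slot n} {η c : J → ℝ} {c₀ : ℝ}
  {κ : (Fin n → ℝ) → Fin n → ℝ} {Z Y : ℝ → Fin n → ℝ} {γ : ℝ → ℝ}

/-- the equation in the zone of a slot -/
theorem ph_eq (H : IsKap S (Z '' Icc 0 1) η c κ) (hη : Sml c₀ η c) (L : Lift κ Z Y γ) (j : J)
    {s : ℝ} (hs : s ∈ Icc (0:ℝ) 1) (ho : ∀ j', j' ≠ j → ¬ (S j').Nr (2 * c₀) (Y s)) :
    ph (η j) (c j * (S j).χ (Z (γ s))) (Y s (S j).i - (S j).a) = Z (γ s) (S j).i - (S j).a ∧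
    ∀ k, k ≠ (S j).i → Y s k = Z (γ s) k := by
  have hX : κ (Y s) ∈ Z '' Icc 0 1 := by
    rw [L.eq s hs]; exact ⟨γ s, L.maps hs, rfl⟩
  have h1 := H.eq_map hη hX j ho
  rw [L.eq s hs] at h1
  constructor
  · rw [h1, (S j).chi_map, (S j).map_self]
    ring
  · intro k hk
    rw [h1, (S j).map_ne hk]

/-- **monotone in the zone** -/
theorem mono_zone (H : IsKap S (Z '' Icc 0 1) η c κ) (hs : Sml c₀ η c) (L : Lift κ Z Y γ)
    {j : J} {τ ε δ α K : ℝ} (hε : ε = 1 ∨ ε = -1) (hδ : 0 < δ)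
    (h0 : 0 ≤ τ - δ) (h1 : τ + δ ≤ 1) (hτ : Z τ (S j).i = (S j).a)
    (hsl : ∀ t ∈ Icc (τ - δ) (τ + δ), ∀ t' ∈ Icc (τ - δ) (τ + δ), t ≤ t' →
      α * (t' - t) ≤ ε * (Z t' (S j).i - Z t (S j).i)) (hα : 0 < α)
    (hK : ∀ t ∈ Icc (0:ℝ) 1, ∀ t' ∈ Icc (0:ℝ) 1, |(S j).χ (Z t) - (S j).χ (Z t')| ≤ K * |t - t'|)
    (hK0 : 0 < K) (hc : c₀ * K ≤ α)
    (ho : ∀ s ∈ Icc (0:ℝ) 1, γ s ∈ Icc (τ - δ) (τ + δ) →
      ∀ j', j' ≠ j → ¬ (S j').Nr (2 * c₀) (Y s)) {s₁ s₂ : ℝ} (hs₁ : s₁ ∈ Icc (0:ℝ) 1)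
    (hs₂ : s₂ ∈ Icc (0:ℝ) 1) (e₁ : γ s₁ = τ - δ) (e₂ : γ s₂ = τ + δ) :
    s₁ ≤ s₂ ∧ MonotoneOn (fun s => ε * (Y s (S j).i - (S j).a)) (Icc s₁ s₂) := by
  have hη : ∀ j, 0 < η j := fun j => (hs j).1
  have h12 : s₁ ≤ s₂ := by
    by_contra hcon
    push Not at hcon
    have := L.mono hs₂ hs₁ hcon.le
    linarith
  have hI : Icc s₁ s₂ ⊆ Icc (0:ℝ) 1 := Icc_subset_Icc hs₁.1 hs₂.2
  have hI' : Icc (τ - δ) (τ + δ) ⊆ Icc (0:ℝ) 1 := Icc_subset_Icc h0 h1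
  have hm : MapsTo γ (Icc s₁ s₂) (Icc (τ - δ) (τ + δ)) := fun s hs' =>
    ⟨e₁ ▸ L.mono hs₁ (hI hs') hs'.1, e₂ ▸ L.mono (hI hs') hs₂ hs'.2⟩
  have hcj : 0 ≤ c j := (hs j).2.2.1
  have hcη : c j ≤ η j / 2 := (hs j).2.2.2
  have hcK : c j * K ≤ α := by
    refine le_trans (mul_le_mul_of_nonneg_right ?_ hK0.le) hc
    have := (hs j).2.1
    have := hη j
    linarith
  have hMd : ∀ t ∈ Icc (τ - δ) (τ + δ), ∀ t' ∈ Icc (τ - δ) (τ + δ), t ≤ t' →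
      |c j * (S j).χ (Z t) - c j * (S j).χ (Z t')| ≤ α * (t' - t) := by
    intro t ht t' ht' htt
    rw [← mul_sub, abs_mul, abs_of_nonneg hcj]
    have h3 := hK t (hI' ht) t' (hI' ht')
    rw [abs_sub_comm t t', abs_of_nonneg (sub_nonneg.2 htt)] at h3
    calc c j * |(S j).χ (Z t) - (S j).χ (Z t')| ≤ c j * (K * (t' - t)) :=
          mul_le_mul_of_nonneg_left h3 hcj
      _ = c j * K * (t' - t) := by ring
      _ ≤ _ := mul_le_mul_of_nonneg_right hcK (by linarith)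
  refine ⟨h12, ?_⟩
  refine monotoneOn_zone (η := η j) (hη j) (ρ := fun t => ε * (Z t (S j).i - (S j).a))
    (M := fun t => c j * (S j).χ (Z t)) (γ := γ) (τ := τ) (t₁ := τ - δ) (t₂ := τ + δ) h12
    (fun t => (S j).M0 hcj _) (fun t => ((S j).M_le hcj _).trans hcη) (L.mono.mono hI) hm
    (L.cg.mono hI) ?_ (by rw [e₁]; linarith) (by rw [e₂]; linarith) ?_
    (by simp only [hτ, sub_self, mul_zero]) ?_ ?_ ?_ ?_
  · exact continuousOn_const.mul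
      ((((continuous_apply _).comp_continuousOn (L.cY.mono hI))).sub continuousOn_const)
  · intro t ht t' ht' htt
    have h3 := hsl t ht t' ht' htt.le
    have h4 : 0 < α * (t' - t) := mul_pos hα (by linarith)
    show ε * (Z t (S j).i - (S j).a) < ε * (Z t' (S j).i - (S j).a)
    nlinarith
  · intro t ht t' ht' htt
    have h3 := hsl t ht t' ht' htt
    have h4 := (abs_le.1 (hMd t ht t' ht' htt)).2
    show ε * (Z t (S j).i - (S j).a) + c j * (S j).χ (Z t) ≤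
      ε * (Z t' (S j).i - (S j).a) + c j * (S j).χ (Z t')
    nlinarith
  · intro t ht t' ht' htt
    have h3 := hsl t ht t' ht' htt
    have h4 := (abs_le.1 (hMd t ht t' ht' htt)).1
    show ε * (Z t (S j).i - (S j).a) - c j * (S j).χ (Z t) ≤
      ε * (Z t' (S j).i - (S j).a) - c j * (S j).χ (Z t')
    nlinarith
  · intro s hs'
    have h3 := (ph_eq H hs L j (hI hs') (ho s (hI hs') (hm hs'))).1
    show ph (η j) (c j * (S j).χ (Z (γ s))) (ε * (Y s (S j).i - (S j).a)) =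
      ε * (Z (γ s) (S j).i - (S j).a)
    rcases hε with rfl | rfl
    · rw [one_mul, one_mul]; exact h3
    · rw [neg_one_mul, neg_one_mul, ph_neg, h3]
  · rintro s ⟨hs', hsτ⟩ s' ⟨hs'', hsτ'⟩ he
    have a1 := (ph_eq H hs L j (hI hs') (ho s (hI hs') (hm hs'))).2
    have a2 := (ph_eq H hs L j (hI hs'') (ho s' (hI hs'') (hm hs''))).2
    have e3 : γ s = τ := hsτ
    have e4 : γ s' = τ := hsτ'
    refine L.iY (hI hs') (hI hs'') ?_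
    ext k
    by_cases hk : k = (S j).i
    · subst hk
      simp only at he
      have hε0 : ε ≠ 0 := by rcases hε with rfl | rfl <;> norm_num
      have := mul_left_cancel₀ hε0 he
      linarith
    · rw [a1 k hk, a2 k hk, e3, e4]

/-- a parameter of the lift with a given value of `γ` -/
theorem Lift.exists_eq (L : Lift κ Z Y γ) {t : ℝ} (ht : t ∈ Icc (0:ℝ) 1) :
    ∃ s ∈ Icc (0:ℝ) 1, γ s = t := by
  have := intermediate_value_Icc zero_le_one L.cg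
  rw [L.z0, L.z1] at this
  exact this ht

end

variable {n : ℕ} {J : Type*} [Finite J] {S : J → Slot n} {Z : ℝ → Fin n → ℝ}

theorem Good.finite (G : Good S Z) (j : J) : (crs (S j) Z).Finite :=
  finite_cross (Z := Z) (u := fun y : Fin n → ℝ => y (S j).i) (D := (S j).D) G.cc.cont
    (continuous_apply _) (S j).closed (S j).a (G.sgn j)

/-- **[TVP] (zones)**, with small zones -/
theorem exists_zonesR (G : Good S Z) {ρ₀ : ℝ} (hρ₀ : 0 < ρ₀) : ∃ c₀ > 0, ∀ c₁, 0 < c₁ → c₁ ≤ c₀ →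
    ∀ (η c : J → ℝ), Sml c₁ η c → ∀ κ : (Fin n → ℝ) → Fin n → ℝ,
    IsKap S (Z '' Icc 0 1) η c κ → (∀ y, κ y ∈ Z '' Icc 0 1 → ‖κ y - y‖ ≤ c₁) →
    ∀ Y γ, Lift κ Z Y γ → ∀ j, ∃ s₁ s₂ : ℝ → ℝ, Zones (S j) Z Y c₁ s₁ s₂ ∧
      (∀ τ ∈ crs (S j) Z, s₁ τ < s₂ τ ∧ γ (s₁ τ) < τ ∧ τ < γ (s₂ τ)) ∧
      (∀ τ ∈ crs (S j) Z, (∀ t ∈ Icc (γ (s₁ τ)) (γ (s₂ τ)), ‖Z t - Z τ‖ ≤ ρ₀) ∧
        (MonotoneOn (fun t => Z t (S j).i) (Icc (γ (s₁ τ)) (γ (s₂ τ))) ∨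
          AntitoneOn (fun t => Z t (S j).i) (Icc (γ (s₁ τ)) (γ (s₂ τ))))) := by
  classical
  have := Fintype.ofFinite J
  -- the data of one crossing
  have hLip : ∀ j, ∃ K : ℝ, 0 < K ∧ ∀ t ∈ Icc (0:ℝ) 1, ∀ t' ∈ Icc (0:ℝ) 1,
      |(S j).χ (Z t) - (S j).χ (Z t')| ≤ K * |t - t'| := fun j =>
    exists_lip01 ((S j).cc.comp G.cc (mapsTo_univ _ _))
  choose K hK0 hK using hLip
  obtain ⟨r, hr, hsep⟩ := exists_sep G
  have hone : ∀ j, ∀ τ, ∃ ε δ α : ℝ, τ ∈ crs (S j) Z → (ε = 1 ∨ ε = -1) ∧ 0 < δ ∧ 0 < α ∧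
      0 ≤ τ - δ ∧ τ + δ ≤ 1 ∧
      (∀ t ∈ Icc (τ - δ) (τ + δ), ∀ t' ∈ Icc (τ - δ) (τ + δ), t ≤ t' →
        α * (t' - t) ≤ ε * (Z t' (S j).i - Z t (S j).i)) ∧
      (∀ t ∈ Icc (τ - δ) (τ + δ), ‖Z t - Z τ‖ ≤ min (r / 4) ρ₀) := by
    intro j τ
    by_cases hτ : τ ∈ crs (S j) Z
    swap
    · exact ⟨0, 0, 0, fun h => absurd h hτ⟩
    obtain ⟨hτI, hτa, hτD⟩ := hτ
    obtain ⟨ρ, hρ, hcont⟩ := Metric.continuousOn_iff.1 G.cc.cont τ hτI (min (r / 4) ρ₀)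
      (lt_min (by positivity) hρ₀)
    obtain ⟨ε, hε, δ, hδ, α, hα, hδρ, h0, h1, hsl⟩ := (G.sgn j τ hτI hτa hτD).slope
      (G.cc.apply _).con (r := ρ / 2) (by positivity)
    refine ⟨ε, δ, α, fun _ => ⟨hε, hδ, hα, h0, h1, hsl, fun t ht => ?_⟩⟩
    have h2 := hcont t ⟨h0.trans ht.1, ht.2.trans h1⟩ (by
      rw [Real.dist_eq]
      refine lt_of_le_of_lt (b := δ) (abs_le.2 ⟨by linarith [ht.1], by linarith [ht.2]⟩) ?_
      linarith)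
    rw [dist_eq_norm] at h2
    exact h2.le
  choose ε δ α hone using hone
  -- the constants
  have hcov : ∀ j, ∃ R > 0, ∀ t ∈ Icc (0:ℝ) 1, (S j).Nr R (Z t) →
      ∃ τ ∈ Icc (0:ℝ) 1, Z τ (S j).i = (S j).a ∧ Z τ ∈ (S j).D ∧ |t - τ| < δ j τ := fun j =>
    exists_cover G j fun t ht h1 h2 => (hone j t ⟨ht, h1, h2⟩).2.1
  choose R hR hcov using hcov
  have hlow : ∀ j, ∃ q > 0, ∀ τ ∈ crs (S j) Z, q ≤ α j τ / K j := fun j =>
    exists_lower (G.finite j) fun τ hτ => by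
      obtain ⟨-, -, h2, -⟩ := hone j τ hτ
      exact div_pos h2 (hK0 j)
  choose q hq hlow using hlow
  obtain ⟨c₀, hc₀, hle⟩ := exists_lower (Set.finite_univ (α := J))
    (f := fun j => min (q j) (R j / 2)) fun j _ => lt_min (hq j) (half_pos (hR j))
  refine ⟨min c₀ (r / 8), lt_min hc₀ (by positivity), fun c₁ hc₁ hc₁₀' η c hs κ H hκ Y γ L j => ?_⟩
  have hc₁₀ : c₁ ≤ c₀ := hc₁₀'.trans (min_le_left _ _)
  have hc₁r : c₁ ≤ r / 8 := hc₁₀'.trans (min_le_right _ _)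
  have hη : ∀ j, 0 < η j := fun j => (hs j).1
  have hcq : c₁ ≤ q j := (hc₁₀.trans (hle j (mem_univ j))).trans (min_le_left _ _)
  have hcR : c₁ ≤ R j / 2 := (hc₁₀.trans (hle j (mem_univ j))).trans (min_le_right _ _)
  have hex : ∀ τ, ∃ s₁ s₂ : ℝ, τ ∈ crs (S j) Z → s₁ ∈ Icc (0:ℝ) 1 ∧ s₂ ∈ Icc (0:ℝ) 1 ∧
      γ s₁ = τ - δ j τ ∧ γ s₂ = τ + δ j τ := by
    intro τ
    by_cases hτ : τ ∈ crs (S j) Z
    swap
    · exact ⟨0, 0, fun h => absurd h hτ⟩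
    obtain ⟨-, h1, -, h2, h3, -⟩ := hone j τ hτ
    obtain ⟨s₁, a1, a2⟩ := L.exists_eq (t := τ - δ j τ) ⟨h2, by linarith [hτ.1.2]⟩
    obtain ⟨s₂, b1, b2⟩ := L.exists_eq (t := τ + δ j τ) ⟨by linarith [hτ.1.1], h3⟩
    exact ⟨s₁, s₂, fun _ => ⟨a1, b1, a2, b2⟩⟩
  choose s₁ s₂ hss using hex
  have hmono : ∀ τ ∈ crs (S j) Z, s₁ τ ≤ s₂ τ ∧
      MonotoneOn (fun s => ε j τ * (Y s (S j).i - (S j).a)) (Icc (s₁ τ) (s₂ τ)) := by
    intro τ hτ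
    obtain ⟨h1, h2, h3, h5, h6, h7, h8⟩ := hone j τ hτ
    obtain ⟨a1, a2, a3, a4⟩ := hss τ hτ
    have hαK : c₁ ≤ α j τ / K j := hcq.trans (hlow j τ hτ)
    refine mono_zone H hs L h1 h2 h5 h6 hτ.2.1 h7 h3 (hK j) (hK0 j)
      ((le_div_iff₀ (hK0 j)).1 hαK) ?_ a1 a2 a3 a4
    intro s hs' hγs j' hj hnr
    have hX : κ (Y s) ∈ Z '' Icc 0 1 := by
      rw [L.eq s hs']; exact ⟨γ s, L.maps hs', rfl⟩
    have b1 := hκ _ hX
    rw [L.eq s hs'] at b1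
    have b2 := (h8 _ hγs).trans (min_le_left _ _)
    have b3 : ‖Y s - Z τ‖ ≤ r / 2 := by
      have : Y s - Z τ = -(Z (γ s) - Y s) + (Z (γ s) - Z τ) := by abel
      rw [this]
      refine (norm_add_le _ _).trans ?_
      rw [norm_neg]; linarith
    refine hsep τ hτ.1 (Y s) (by linarith) j j' (Ne.symm hj) ?_ (hnr.mono (by linarith))
    refine ⟨?_, Z τ, hτ.2.2, by rw [norm_sub_rev]; linarith⟩
    rw [← hτ.2.1]
    exact (norm_le_pi_norm (Y s - Z τ) _).trans (by linarith)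
  refine ⟨s₁, s₂, ⟨fun τ hτ => (hmono τ hτ).1, fun τ hτ => (hss τ hτ).1,
    fun τ hτ => (hss τ hτ).2.1, fun τ hτ => ?_, ?_⟩, fun τ hτ => ?_, fun τ hτ => ?_⟩
  · have h1 := (hmono τ hτ).2
    rcases (hone j τ hτ).1 with h2 | h2
    · left
      intro s hs' s' hs'' hss'
      have := h1 hs' hs'' hss'
      simp only [h2, one_mul] at this
      show Y s (S j).i ≤ Y s' (S j).i
      linarith
    · right
      intro s hs' s' hs'' hss'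
      have := h1 hs' hs'' hss'
      simp only [h2, neg_one_mul] at this
      show Y s' (S j).i ≤ Y s (S j).i
      linarith
  · intro s hs' h1
    have hX : κ (Y s) ∈ Z '' Icc 0 1 := by
      rw [L.eq s hs']; exact ⟨γ s, L.maps hs', rfl⟩
    have b1 := hκ _ hX
    rw [L.eq s hs'] at b1
    obtain ⟨τ, hτ1, hτ2, hτ3, hτ4⟩ := hcov j (γ s) (L.maps hs')
      ((h1.shift b1).mono (by linarith))
    have hτ : τ ∈ crs (S j) Z := ⟨hτ1, hτ2, hτ3⟩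
    obtain ⟨a1, a2, a3, a4⟩ := hss τ hτ
    obtain ⟨c1, c2⟩ := abs_lt.1 hτ4
    refine ⟨τ, hτ, ?_, ?_⟩
    · by_contra hcon
      push Not at hcon
      have := L.mono hs' a1 hcon
      linarith
    · by_contra hcon
      push Not at hcon
      have := L.mono a2 hs' hcon
      linarith
  · obtain ⟨a1, a2, a3, a4⟩ := hss τ hτ
    have h2 := (hone j τ hτ).2.1
    refine ⟨?_, by linarith, by linarith⟩
    rcases (hmono τ hτ).1.lt_or_eq with h3 | h3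
    · exact h3
    · rw [h3, a4] at a3; linarith
  · obtain ⟨h1, h2, h3, h5, h6, h7, h8⟩ := hone j τ hτ
    obtain ⟨-, -, a3, a4⟩ := hss τ hτ
    rw [a3, a4]
    refine ⟨fun t ht => (h8 t ht).trans (min_le_right _ _), ?_⟩
    have key : ∀ t ∈ Icc (τ - δ j τ) (τ + δ j τ), ∀ t' ∈ Icc (τ - δ j τ) (τ + δ j τ), t ≤ t' →
        0 ≤ ε j τ * (Z t' (S j).i - Z t (S j).i) := fun t ht t' ht' htt =>
      (mul_nonneg h3.le (sub_nonneg.2 htt)).trans (h7 t ht t' ht' htt)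
    rcases h1 with h1 | h1
    · left
      intro t ht t' ht' htt
      have := key t ht t' ht' htt
      rw [h1, one_mul] at this
      show Z t (S j).i ≤ Z t' (S j).i
      linarith
    · right
      intro t ht t' ht' htt
      have := key t ht t' ht' htt
      rw [h1, neg_one_mul] at this
      show Z t' (S j).i ≤ Z t (S j).i
      linarith

/-- **[TVP] (zones).** -/
theorem exists_zones (G : Good S Z) : ∃ c₀ > 0, ∀ c₁, 0 < c₁ → c₁ ≤ c₀ →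
    ∀ (η c : J → ℝ), Sml c₁ η c → ∀ κ : (Fin n → ℝ) → Fin n → ℝ,
    IsKap S (Z '' Icc 0 1) η c κ → (∀ y, κ y ∈ Z '' Icc 0 1 → ‖κ y - y‖ ≤ c₁) →
    ∀ Y γ, Lift κ Z Y γ → ∀ j, ∃ s₁ s₂ : ℝ → ℝ, Zones (S j) Z Y c₁ s₁ s₂ ∧
      (∀ τ ∈ crs (S j) Z, s₁ τ < s₂ τ ∧ γ (s₁ τ) < τ ∧ τ < γ (s₂ τ)) := by
  obtain ⟨c₀, h0, h1⟩ := exists_zonesR G one_pos
  refine ⟨c₀, h0, fun c₁ a1 a2 η c a3 κ a4 a5 Y γ L j => ?_⟩
  obtain ⟨s₁, s₂, b1, b2, -⟩ := h1 c₁ a1 a2 η c a3 κ a4 a5 Y γ L j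
  exact ⟨s₁, s₂, b1, b2⟩

end Vale.Agent.P073.H190.Tvp
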