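import Vale.Agent.P073.H190.TvpE
import Vale.Agent.P073.H236.QS

/-!
# P073, H190, [TVP] (F): the variation of the lift, and the number of the traversed flats
-/

open Set Metric Filter Topology
open scoped NNReal ENNReal

namespace Vale.Agent.P073.H190.Tvp

open _root_.P073 _root_.P073.H345
open _root_.P073.H236 (fl fl_of_le fl_of_ge fl_mono fl_def)

theorem evar_neg (f : ℝ → ℝ) (A : Set ℝ) :
    eVariationOn (fun x => - f x) A = eVariationOn f A := by
  unfold eVariationOn
  simp only [edist_neg_neg]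

theorem evar_mono_le {f : ℝ → ℝ} {A : Set ℝ} {D : ℝ} (hf : MonotoneOn f A ∨ AntitoneOn f A)
    (hb : ∀ x ∈ A, ∀ y ∈ A, f y - f x ≤ D) : eVariationOn f A ≤ ENNReal.ofReal D := by
  rcases hf with hf | hf
  · rw [eVariationOn.eq_biSup_inter_Icc]
    simp only [mem_ofPred_eq, iSup_le_iff, and_imp, Prod.forall]
    intro a b as bs _
    rw [hf.eVariationOn_eq as bs]
    exact ENNReal.ofReal_le_ofReal (hb a as b bs)
  · rw [← evar_neg]
    have hf' : MonotoneOn (fun x => - f x) A := fun x hx y hy hxy => neg_le_neg (hf hx hy hxy)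
    rw [eVariationOn.eq_biSup_inter_Icc]
    simp only [mem_ofPred_eq, iSup_le_iff, and_imp, Prod.forall]
    intro a b as bs _
    rw [hf'.eVariationOn_eq as bs]
    refine ENNReal.ofReal_le_ofReal ?_
    have := hb b bs a as
    linarith

theorem evar_lip {f : ℝ → ℝ} {C : ℝ} (hC : 0 ≤ C)
    (hf : ∀ s ∈ Icc (0:ℝ) 1, ∀ t ∈ Icc (0:ℝ) 1, |f s - f t| ≤ C * |s - t|) :
    eVariationOn f (Icc 0 1) ≤ ENNReal.ofReal C := by
  have h1 : LipschitzOnWith (Real.toNNReal C) f (Icc 0 1) := by
    refine LipschitzOnWith.of_dist_le_mul fun x hx y hy => ?_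
    rw [Real.dist_eq, Real.dist_eq, Real.coe_toNNReal C hC]
    exact hf x hx y hy
  have h2 := h1.comp_eVariationOn_le (g := id) (s := Icc (0:ℝ) 1) (fun x hx => hx)
  have h3 : eVariationOn (id : ℝ → ℝ) (Icc 0 1) = ENNReal.ofReal (1 - 0) := by
    have := eVariationOn_id (s := Icc (0:ℝ) 1) (a := 0) (b := 1) (by simp) (by simp)
    rwa [inter_self] at this
  rw [h3, sub_zero, ENNReal.ofReal_one, mul_one] at h2
  exact h2

section

variable {n : ℕ} {J : Type*} [Finite J] {S : J → Slot n} {Z : ℝ → Fin n → ℝ}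

/-- **[TVP] (variation of the lift).** -/
theorem exists_tv (G : Good S Z) {e : ℝ} (he : 0 < e) : ∃ c₀ > 0, ∀ c₁, 0 < c₁ → c₁ ≤ c₀ →
    ∀ (η c : J → ℝ), Sml c₁ η c → ∀ κ : (Fin n → ℝ) → Fin n → ℝ,
    IsKap S (Z '' Icc 0 1) η c κ → (∀ y, κ y ∈ Z '' Icc 0 1 → ‖κ y - y‖ ≤ c₁) →
    ∀ Y γ, Lift κ Z Y γ → ∀ l, eVariationOn (fun s => Y s l) (Icc 0 1) ≤
      eVariationOn (fun t => Z t l) (Icc 0 1) + ENNReal.ofReal e := by
  classical
  have := Fintype.ofFinite J
  obtain ⟨cz, hcz, hz⟩ := exists_zones G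
  obtain ⟨r, hr, hsep⟩ := exists_sep G
  have hLip : ∀ j, ∃ K : ℝ, 0 < K ∧ ∀ t ∈ Icc (0:ℝ) 1, ∀ t' ∈ Icc (0:ℝ) 1,
      |(S j).χ (Z t) - (S j).χ (Z t')| ≤ K * |t - t'| := fun j =>
    exists_lip01 ((S j).cc.comp G.cc (mapsTo_univ _ _))
  choose K hK0 hK using hLip
  obtain ⟨N, hN⟩ : ∃ N : ℝ, N = ∑ j, ((G.finite j).toFinset.card : ℝ) := ⟨_, rfl⟩
  have hN0 : 0 ≤ N := by
    rw [hN]; exact Finset.sum_nonneg fun j _ => Nat.cast_nonneg _
  have hKs : 0 ≤ ∑ j, K j := Finset.sum_nonneg fun j _ => (hK0 j).le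
  have hpos : 0 < N + ∑ j, K j + 1 := by linarith
  have hr8 : 0 < r / 8 := by linarith
  refine ⟨min cz (min (r / 8) (e / (N + ∑ j, K j + 1))), lt_min hcz (lt_min hr8
    (div_pos he hpos)), fun c₁ hc₁ hc₁₀ η c hs κ H hκ Y γ L l => ?_⟩
  have hcz' : c₁ ≤ cz := hc₁₀.trans (min_le_left _ _)
  have hcr : c₁ ≤ r / 8 := hc₁₀.trans ((min_le_right _ _).trans (min_le_left _ _))
  have hce : c₁ * (N + ∑ j, K j + 1) ≤ e := by
    have h1 : c₁ ≤ e / (N + ∑ j, K j + 1) :=
      hc₁₀.trans ((min_le_right _ _).trans (min_le_right _ _))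
    rwa [le_div_iff₀ hpos] at h1
  have hη : ∀ j, 0 < η j := fun j => (hs j).1
  have hc2 : ∀ j, 0 ≤ c j ∧ c j ≤ η j / 2 ∧ c j ≤ c₁ / 2 := fun j =>
    ⟨(hs j).2.2.1, (hs j).2.2.2, by linarith [(hs j).2.2.2, (hs j).2.1]⟩
  have hnear : ∀ s ∈ Icc (0:ℝ) 1, ‖Z (γ s) - Y s‖ ≤ c₁ := by
    intro s hs'
    have hX : κ (Y s) ∈ Z '' Icc 0 1 := by
      rw [L.eq s hs']; exact ⟨γ s, L.maps hs', rfl⟩
    have b1 := hκ _ hX
    rwa [L.eq s hs'] at b1
  set X : Finset ℝ := (Finset.univ.filter fun j => (S j).i = l).biUnion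
    fun j => (G.finite j).toFinset with hX
  have hXm : ∀ x, x ∈ X ↔ ∃ j, (S j).i = l ∧ x ∈ crs (S j) Z := by
    intro x
    simp [hX]
  have hXc : (X.card : ℝ) ≤ N := by
    have h1 : X.card ≤ ∑ j, (G.finite j).toFinset.card :=
      Finset.card_biUnion_le.trans (Finset.sum_le_sum_of_subset (Finset.filter_subset _ _))
    rw [hN]
    exact_mod_cast h1
  -- the control functions
  let W : Option J → ℝ → ℝ := fun o => match o with
    | none => fun t => Z t l
    | some j => fun t => if (S j).i = l then c j * (S j).χ (Z t) else 0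
  have key := H581.evar_le_cross (Finset.univ : Finset (Option J)) (Z := W) L.mono L.cg
    (G := fun s => Y s l) ((continuous_apply l).comp_continuousOn L.cY) X
    (fun _ => ENNReal.ofReal c₁) ?_ ?_
  · refine key.trans ?_
    rw [Finset.sum_const, nsmul_eq_mul, Fintype.sum_option]
    have hcomp : ∀ f : ℝ → ℝ, eVariationOn (fun s => f (γ s)) (Icc 0 1) ≤
        eVariationOn f (Icc 0 1) := fun f =>
      eVariationOn.comp_le_of_monotoneOn f γ L.mono L.maps
    have h1 : eVariationOn (fun s => W none (γ s)) (Icc 0 1) ≤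
        eVariationOn (fun t => Z t l) (Icc 0 1) := hcomp _
    have h2 : ∀ j, eVariationOn (fun s => W (some j) (γ s)) (Icc 0 1) ≤
        ENNReal.ofReal (c₁ * K j) := by
      intro j
      refine (hcomp _).trans ?_
      refine evar_lip (mul_nonneg hc₁.le (hK0 j).le) fun s hs' t ht' => ?_
      show |(if (S j).i = l then c j * (S j).χ (Z s) else 0) -
        (if (S j).i = l then c j * (S j).χ (Z t) else 0)| ≤ _
      split_ifs with h
      · rw [← mul_sub, abs_mul, abs_of_nonneg (hc2 j).1, mul_assoc]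
        have h3 := hK j s hs' t ht'
        have h4 : c j ≤ c₁ := by linarith [(hc2 j).2.2]
        exact mul_le_mul h4 h3 (abs_nonneg _) hc₁.le
      · rw [sub_self, abs_zero]
        exact mul_nonneg (mul_nonneg hc₁.le (hK0 j).le) (abs_nonneg _)
    calc (X.card : ℝ≥0∞) * ENNReal.ofReal c₁ + (eVariationOn (fun s => W none (γ s)) (Icc 0 1) +
          ∑ j, eVariationOn (fun s => W (some j) (γ s)) (Icc 0 1))
        ≤ ENNReal.ofReal (N * c₁) + (eVariationOn (fun t => Z t l) (Icc 0 1) +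
          ∑ j, ENNReal.ofReal (c₁ * K j)) := by
          refine add_le_add ?_ (add_le_add h1 (Finset.sum_le_sum fun j _ => h2 j))
          rw [ENNReal.ofReal_mul hN0]
          refine mul_le_mul_left ?_ _
          rw [← ENNReal.ofReal_natCast]
          exact ENNReal.ofReal_le_ofReal hXc
      _ = eVariationOn (fun t => Z t l) (Icc 0 1) +
          ENNReal.ofReal (N * c₁ + ∑ j, c₁ * K j) := by
          have hn : ∀ j, 0 ≤ c₁ * K j := fun j => mul_nonneg hc₁.le (hK0 j).le
          rw [ENNReal.ofReal_add (mul_nonneg hN0 hc₁.le) (Finset.sum_nonneg fun j _ => hn j),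
            ENNReal.ofReal_sum_of_nonneg fun j _ => hn j]
          ring
      _ ≤ _ := by
          refine add_le_add le_rfl (ENNReal.ofReal_le_ofReal ?_)
          rw [← Finset.mul_sum]
          nlinarith
  · -- the fibres
    intro x hx
    obtain ⟨j, hj, hxj⟩ := (hXm x).1 hx
    obtain ⟨s₁, s₂, hZ, hγ⟩ := hz c₁ hc₁ hcz' η c hs κ H hκ Y γ L j
    have hsub : Icc 0 1 ∩ γ ⁻¹' {x} ⊆ Icc (s₁ x) (s₂ x) := by
      rintro s ⟨hs', hsx⟩
      have e1 : γ s = x := hsx
      obtain ⟨-, h2, h3⟩ := hγ x hxj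
      constructor
      · by_contra hcon
        push Not at hcon
        have := L.mono hs' (hZ.mem₁ x hxj) hcon.le
        linarith
      · by_contra hcon
        push Not at hcon
        have := L.mono (hZ.mem₂ x hxj) hs' hcon.le
        linarith
    have hbd : ∀ s ∈ Icc 0 1 ∩ γ ⁻¹' {x}, |Y s l - (S j).a| ≤ c₁ / 2 := by
      rintro s ⟨hs', hsx⟩
      have e1 : γ s = x := hsx
      have e2 := hnear s hs'
      rw [e1] at e2
      have e3 := (ph_eq H hs L j hs' fun j' hj' hnr => by
        refine hsep x hxj.1 (Y s) (by rw [norm_sub_rev]; linarith) j j' (Ne.symm hj') ?_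
          (hnr.mono (by linarith))
        refine ⟨?_, Z x, hxj.2.2, by linarith⟩
        rw [← hxj.2.1]
        exact (norm_le_pi_norm (Y s - Z x) _).trans (by rw [norm_sub_rev]; linarith)).1
      rw [e1, hxj.2.1, sub_self] at e3
      have e4 := (ph_zero_iff ((S j).M0 (hc2 j).1 _)
        (((S j).M_le (hc2 j).1 _).trans (hc2 j).2.1)).1 e3
      rw [hj] at e4
      exact e4.trans (((S j).M_le (hc2 j).1 _).trans (hc2 j).2.2)
    refine evar_mono_le (D := c₁) ?_ fun s hs' s' hs'' => ?_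
    · have := hZ.mono x hxj
      rw [hj] at this
      exact this.imp (fun h => h.mono hsub) fun h => h.mono hsub
    · have a1 := abs_le.1 (hbd s hs')
      have a2 := abs_le.1 (hbd s' hs'')
      linarith
  · -- off the fibres
    intro s hs' hsX
    have hle : ∀ s', ∀ o : Option J, edist (W o (γ s)) (W o (γ s')) ≤
        ∑ o, edist (W o (γ s)) (W o (γ s')) := fun s' o =>
      Finset.single_le_sum (f := fun o => edist (W o (γ s)) (W o (γ s'))) (fun _ _ => zero_le)
        (Finset.mem_univ o)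
    have hYn : ∀ᶠ s' in 𝓝[Icc 0 1] s, ‖Y s' - Y s‖ ≤ r / 8 := by
      have := Metric.tendsto_nhds.1 (L.cY s hs') (r / 8) hr8
      filter_upwards [this] with s' h
      rw [dist_eq_norm] at h
      exact h.le
    have hys : ‖Y s - Z (γ s)‖ ≤ r := by
      rw [norm_sub_rev]
      exact (hnear s hs').trans (by linarith)
    by_cases hB : ∃ j, (S j).Nr (r / 2) (Y s)
    · obtain ⟨j, hjB⟩ := hB
      have hoth : ∀ s' ∈ Icc (0:ℝ) 1, ‖Y s' - Y s‖ ≤ r / 8 → ∀ j', j' ≠ j →
          ¬ (S j').Nr (2 * c₁) (Y s') := by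
        intro s' _ h1 j' hj' h2
        exact hsep (γ s) (L.maps hs') (Y s) hys j j' (Ne.symm hj')
          (hjB.mono (by linarith)) ((h2.shift (d := r / 8) (by rw [norm_sub_rev]; exact h1)).mono (by linarith))
      have hoth0 := hoth s hs' (by rw [sub_self, norm_zero]; exact hr8.le)
      by_cases hjl : (S j).i = l
      swap
      · filter_upwards [hYn, self_mem_nhdsWithin] with s' h1 h2
        have e1 := (ph_eq H hs L j hs' hoth0).2 l (Ne.symm hjl)
        have e2 := (ph_eq H hs L j h2 (hoth s' h2 h1)).2 l (Ne.symm hjl)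
        refine le_trans (le_of_eq ?_) (hle s' none)
        show edist (Y s l) (Y s' l) = edist (Z (γ s) l) (Z (γ s') l)
        rw [e1, e2]
      · have e0 := (ph_eq H hs L j hs' hoth0).1
        rw [hjl] at e0
        have hZc : ContinuousOn (fun s => Z (γ s)) (Icc 0 1) := G.cc.cont.comp L.cg L.maps
        by_cases hza : Z (γ s) l = (S j).a
        · -- off the region
          have hD : Z (γ s) ∉ (S j).D := fun h => hsX ((hXm _).2 ⟨j, hjl, L.maps hs',
            by rw [hjl]; exact hza, h⟩)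
          have hDn : ∀ᶠ s' in 𝓝[Icc 0 1] s, Z (γ s') ∉ (S j).D :=
            (hZc s hs').eventually ((S j).closed.isOpen_compl.mem_nhds hD)
          filter_upwards [hYn, self_mem_nhdsWithin, hDn] with s' h1 h2 h3
          have e2 := (ph_eq H hs L j h2 (hoth s' h2 h1)).1
          rw [(S j).supp _ h3, mul_zero, ph_zero_right, hjl] at e2
          rw [(S j).supp _ hD, mul_zero, ph_zero_right] at e0
          refine le_trans (le_of_eq ?_) (hle s' none)
          show edist (Y s l) (Y s' l) = edist (Z (γ s) l) (Z (γ s') l)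
          rw [show Y s l = Z (γ s) l by linarith, show Y s' l = Z (γ s') l by linarith]
        · have hside : ∀ᶠ s' in 𝓝[Icc 0 1] s, 0 < Z (γ s) l - (S j).a ∧ 0 < Z (γ s') l - (S j).a ∨
              Z (γ s) l - (S j).a < 0 ∧ Z (γ s') l - (S j).a < 0 := by
            have hc : ContinuousWithinAt (fun s' => Z (γ s') l - (S j).a) (Icc 0 1) s :=
              (((continuous_apply l).comp_continuousOn hZc) s hs').sub continuousWithinAt_const
            rcases lt_or_gt_of_ne (sub_ne_zero.2 hza) with h | h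
            · filter_upwards [hc.eventually (eventually_lt_nhds h)] with s' h'
              exact Or.inr ⟨h, h'⟩
            · filter_upwards [hc.eventually (eventually_gt_nhds h)] with s' h'
              exact Or.inl ⟨h, h'⟩
          filter_upwards [hYn, self_mem_nhdsWithin, hside] with s' h1 h2 h3
          have e2 := (ph_eq H hs L j h2 (hoth s' h2 h1)).1
          rw [hjl] at e2
          have e3 := abs_sub_le_of_side (hη j) ((S j).M0 (hc2 j).1 _)
            (((S j).M_le (hc2 j).1 _).trans (hc2 j).2.1) e0 ((S j).M0 (hc2 j).1 _)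
            (((S j).M_le (hc2 j).1 _).trans (hc2 j).2.1) e2 h3
          have e4 : edist (Y s l) (Y s' l) ≤
              edist (W none (γ s)) (W none (γ s')) + edist (W (some j) (γ s)) (W (some j) (γ s')) := by
            have f1 : W (some j) (γ s) = c j * (S j).χ (Z (γ s)) := if_pos hjl
            have f2 : W (some j) (γ s') = c j * (S j).χ (Z (γ s')) := if_pos hjl
            rw [f1, f2]
            show edist (Y s l) (Y s' l) ≤ edist (Z (γ s) l) (Z (γ s') l) + _
            rw [edist_dist, edist_dist, edist_dist, ← ENNReal.ofReal_add dist_nonneg dist_nonneg]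
            refine ENNReal.ofReal_le_ofReal ?_
            rw [Real.dist_eq, Real.dist_eq, Real.dist_eq]
            have g1 : Y s l - (S j).a - (Y s' l - (S j).a) = Y s l - Y s' l := by ring
            have g2 : Z (γ s) l - (S j).a - (Z (γ s') l - (S j).a) = Z (γ s) l - Z (γ s') l := by
              ring
            rwa [g1, g2] at e3
          refine e4.trans ?_
          have hne : (none : Option J) ≠ some j := by simp
          calc edist (W none (γ s)) (W none (γ s')) + edist (W (some j) (γ s)) (W (some j) (γ s'))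
              = ∑ o ∈ {none, some j}, edist (W o (γ s)) (W o (γ s')) :=
                (Finset.sum_pair (f := fun o => edist (W o (γ s)) (W o (γ s'))) hne).symm
            _ ≤ _ := Finset.sum_le_sum_of_subset (Finset.subset_univ _)
    · push Not at hB
      have hoth : ∀ s' ∈ Icc (0:ℝ) 1, ‖Y s' - Y s‖ ≤ r / 8 → Y s' = Z (γ s') := by
        intro s' h2 h1
        have hX' : κ (Y s') ∈ Z '' Icc 0 1 := by
          rw [L.eq s' h2]; exact ⟨γ s', L.maps h2, rfl⟩
        have := H.eq_self hc₁.le hs hX' fun j' h3 =>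
          hB j' ((h3.shift (d := r / 8) (by rw [norm_sub_rev]; exact h1)).mono (by linarith))
        rw [← this, L.eq s' h2]
      have e1 := hoth s hs' (by rw [sub_self, norm_zero]; exact hr8.le)
      filter_upwards [hYn, self_mem_nhdsWithin] with s' h1 h2
      refine le_trans (le_of_eq ?_) (hle s' none)
      show edist (Y s l) (Y s' l) = edist (Z (γ s) l) (Z (γ s') l)
      rw [← hoth s' h2 h1, ← e1]

end

section zones

variable {n : ℕ} {ι K : Type*}

theorem fl_nonneg (c a t : ℝ) : 0 ≤ fl c a t := by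
  rw [fl_def]; exact le_max_left _ _

theorem fl_le {c a t : ℝ} (hc : 0 ≤ c) : fl c a t ≤ 2 * c := by
  rw [fl_def]; exact max_le (by linarith) (min_le_left _ _)

theorem fl_continuous (c a : ℝ) : Continuous (fl c a) := by
  have : fl c a = fun t => max 0 (min (2 * c) (t - a + c)) := funext fun t => fl_def c a t
  rw [this]; fun_prop

/-- **[TVP] (traversed flats).** `G` is locally controlled by the functions `f i`, and, near the
regions of the slots `k ∈ T` (all of the direction `l`), by the `f i` and the positions in the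
flats. Then the variation of `G` is at most the sum of the variations of the `f i`, plus
`2 c' A` for each crossing. -/
theorem evar_le_zones {Z Y : ℝ → Fin n → ℝ} {Sl : K → Slot n} {l : Fin n} {c₁ c' A : ℝ}
    (T : Finset K) (I : Finset ι) (hl : ∀ k ∈ T, (Sl k).i = l)
    (hz : ∀ k ∈ T, ∃ s₁ s₂, Zones (Sl k) Z Y c₁ s₁ s₂)
    (hfin : ∀ k ∈ T, (crs (Sl k) Z).Finite) (hc0 : 0 ≤ c') (hc1 : c' < c₁) (hA : 0 ≤ A)
    (hY : ContinuousOn Y (Icc 0 1)) {G : ℝ → ℝ} {f : ι → ℝ → ℝ}
    (h : ∀ s ∈ Icc (0:ℝ) 1, (∀ᶠ s' in 𝓝[Icc 0 1] s,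
        edist (G s) (G s') ≤ ∑ i ∈ I, edist (f i s) (f i s')) ∨
      ((∀ k ∈ T, ∃ w ∈ (Sl k).D, ‖w - Y s‖ ≤ c₁) ∧ ∀ᶠ s' in 𝓝[Icc 0 1] s,
        edist (G s) (G s') ≤ ∑ i ∈ I, edist (f i s) (f i s') +
          ∑ k ∈ T, edist (A * fl c' (Sl k).a (Y s l)) (A * fl c' (Sl k).a (Y s' l)))) :
    eVariationOn G (Icc 0 1) ≤ ∑ i ∈ I, eVariationOn (f i) (Icc 0 1) +
      ∑ k ∈ T, ((crs (Sl k) Z).ncard : ℝ≥0∞) * ENNReal.ofReal (2 * c' * A) := by
  classical
  have hz' : ∀ k, ∃ s₁ s₂ : ℝ → ℝ, k ∈ T → Zones (Sl k) Z Y c₁ s₁ s₂ := by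
    intro k
    by_cases hk : k ∈ T
    · obtain ⟨s₁, s₂, h1⟩ := hz k hk
      exact ⟨s₁, s₂, fun _ => h1⟩
    · exact ⟨0, 0, fun h' => absurd h' hk⟩
  choose s₁ s₂ hZ using hz'
  -- the crossings
  let C : K → Finset ℝ := fun k => if hk : k ∈ T then (hfin k hk).toFinset else ∅
  have hC : ∀ k ∈ T, ∀ x, x ∈ C k ↔ x ∈ crs (Sl k) Z := by
    intro k hk x
    simp only [C, dif_pos hk, Set.Finite.mem_toFinset]
  have hCc : ∀ k ∈ T, (C k).card = (crs (Sl k) Z).ncard := by
    intro k hk
    simp only [C, dif_pos hk]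
    exact (Set.ncard_eq_toFinset_card _ (hfin k hk)).symm
  let P : Finset (K × ℝ) := T.biUnion fun k => (C k).image fun x => (k, x)
  have hP : ∀ p : K × ℝ, p ∈ P ↔ p.1 ∈ T ∧ p.2 ∈ C p.1 := by
    rintro ⟨k, x⟩
    simp only [P, Finset.mem_biUnion, Finset.mem_image, Prod.mk.injEq]
    constructor
    · rintro ⟨k', hk', x', hx', rfl, rfl⟩; exact ⟨hk', hx'⟩
    · rintro ⟨hk, hx⟩; exact ⟨k, hk, x, hx, rfl, rfl⟩
  let g : K × ℝ → ℝ → ℝ := fun p s =>
    A * fl c' (Sl p.1).a (Y (H581.clamp (s₁ p.1 p.2) (s₂ p.1 p.2) s) l)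
  let F : ι ⊕ (K × ℝ) → ℝ → ℝ := fun o => match o with
    | Sum.inl i => f i
    | Sum.inr p => g p
  have key := H581.evar_le_of_local (I.disjSum P) (G := G) (f := F) (a := 0) (b := 1) ?_
  · rw [Finset.sum_disjSum] at key
    refine key.trans (add_le_add le_rfl ?_)
    have hg : ∀ p ∈ P, eVariationOn (g p) (Icc 0 1) ≤ ENNReal.ofReal (2 * c' * A) := by
      intro p hp
      obtain ⟨hk, hx⟩ := (hP p).1 hp
      have hx' := (hC p.1 hk p.2).1 hx
      have hZk := hZ p.1 hk
      refine (H581.evar_clamp (fun s => A * fl c' (Sl p.1).a (Y s l)) (hZk.le _ hx') _).trans ?_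
      have hm := hZk.mono _ hx'
      rw [hl _ hk] at hm
      refine evar_mono_le ?_ fun s _ s' _ => ?_
      · rcases hm with hm | hm
        · left
          exact fun s hs s' hs' hss => mul_le_mul_of_nonneg_left (fl_mono _ _ (hm hs hs' hss)) hA
        · right
          exact fun s hs s' hs' hss => mul_le_mul_of_nonneg_left (fl_mono _ _ (hm hs hs' hss)) hA
      · have h1 := fl_le (a := (Sl p.1).a) (t := Y s' l) hc0
        have h2 := fl_nonneg c' (Sl p.1).a (Y s l)
        rw [← mul_sub, mul_comm]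
        exact mul_le_mul_of_nonneg_right (by linarith) hA
    calc ∑ p ∈ P, eVariationOn (F (Sum.inr p)) (Icc 0 1)
        ≤ ∑ _p ∈ P, ENNReal.ofReal (2 * c' * A) := Finset.sum_le_sum hg
      _ = (P.card : ℝ≥0∞) * ENNReal.ofReal (2 * c' * A) := by rw [Finset.sum_const, nsmul_eq_mul]
      _ ≤ (∑ k ∈ T, ((crs (Sl k) Z).ncard : ℝ≥0∞)) * ENNReal.ofReal (2 * c' * A) := by
          refine mul_le_mul_left ?_ _
          rw [← Nat.cast_sum]
          refine Nat.cast_le.2 (Finset.card_biUnion_le.trans (Finset.sum_le_sum fun k hk => ?_))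
          rw [← hCc k hk]
          exact Finset.card_image_le
      _ = _ := by rw [Finset.sum_mul]
  intro s hs
  simp only [Finset.sum_disjSum]
  have hinl : ∀ s', ∑ i ∈ I, edist (f i s) (f i s') ≤
      ∑ i ∈ I, eVariationOn (F (Sum.inl i)) (uIcc s s') := fun s' =>
    Finset.sum_le_sum fun i _ => eVariationOn.edist_le (f i) left_mem_uIcc right_mem_uIcc
  rcases h s hs with h1 | ⟨hreg, h1⟩
  · filter_upwards [h1] with s' h2
    exact h2.trans ((hinl s').trans le_self_add)
  · -- each flat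
    have hflat : ∀ k ∈ T, ∀ᶠ s' in 𝓝[Icc 0 1] s,
        edist (A * fl c' (Sl k).a (Y s l)) (A * fl c' (Sl k).a (Y s' l)) ≤
          ∑ x ∈ C k, eVariationOn (F (Sum.inr (k, x))) (uIcc s s') := by
      intro k hk
      have hYl : ContinuousWithinAt (fun s => Y s l) (Icc 0 1) s :=
        ((continuous_apply l).comp_continuousOn hY) s hs
      by_cases hnr : |Y s l - (Sl k).a| ≤ c₁
      · -- in a zone
        obtain ⟨x, hx, hx1, hx2⟩ := (hZ k hk).cover s hs ⟨by rw [hl k hk]; exact hnr, hreg k hk⟩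
        have hev : ∀ᶠ s' in 𝓝[Icc 0 1] s, s' ∈ Ioo (s₁ k x) (s₂ k x) :=
          nhdsWithin_le_nhds (isOpen_Ioo.mem_nhds ⟨hx1, hx2⟩)
        filter_upwards [hev] with s' h2
        have e1 : H581.clamp (s₁ k x) (s₂ k x) s = s := H581.clamp_of_mem ⟨hx1.le, hx2.le⟩
        have e2 : H581.clamp (s₁ k x) (s₂ k x) s' = s' := H581.clamp_of_mem ⟨h2.1.le, h2.2.le⟩
        calc edist (A * fl c' (Sl k).a (Y s l)) (A * fl c' (Sl k).a (Y s' l))
            = edist (g (k, x) s) (g (k, x) s') := by simp only [g, e1, e2]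
          _ ≤ eVariationOn (F (Sum.inr (k, x))) (uIcc s s') :=
            eVariationOn.edist_le (g (k, x)) left_mem_uIcc right_mem_uIcc
          _ ≤ _ := Finset.single_le_sum
            (f := fun x => eVariationOn (F (Sum.inr (k, x))) (uIcc s s')) (fun _ _ => zero_le)
            ((hC k hk x).2 hx)
      · -- far from the level
        push Not at hnr
        rcases lt_abs.1 hnr with h2 | h2
        · have hev : ∀ᶠ s' in 𝓝[Icc 0 1] s, (Sl k).a + c' < Y s' l :=
            hYl.eventually (eventually_gt_nhds (by linarith))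
          filter_upwards [hev] with s' h3
          rw [fl_of_ge hc0 (by linarith : (Sl k).a + c' ≤ Y s l), fl_of_ge hc0 h3.le, edist_self]
          exact zero_le
        · have hev : ∀ᶠ s' in 𝓝[Icc 0 1] s, Y s' l < (Sl k).a - c' :=
            hYl.eventually (eventually_lt_nhds (by linarith))
          filter_upwards [hev] with s' h3
          rw [fl_of_le (by linarith : Y s l ≤ (Sl k).a - c'), fl_of_le h3.le, edist_self]
          exact zero_le
    have hall : ∀ᶠ s' in 𝓝[Icc 0 1] s, ∀ k ∈ T,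
        edist (A * fl c' (Sl k).a (Y s l)) (A * fl c' (Sl k).a (Y s' l)) ≤
          ∑ x ∈ C k, eVariationOn (F (Sum.inr (k, x))) (uIcc s s') :=
      (Filter.eventually_all_finset T).2 hflat
    filter_upwards [h1, hall] with s' h2 h3
    refine h2.trans (add_le_add (hinl s') ((Finset.sum_le_sum h3).trans (le_of_eq ?_)))
    rw [Finset.sum_biUnion]
    · refine Finset.sum_congr rfl fun k _ => ?_
      rw [Finset.sum_image fun x _ y _ hxy => (Prod.mk.inj hxy).2]
    · intro k _ k' _ hkk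
      rw [Function.onFun, Finset.disjoint_left]
      rintro ⟨a, b⟩ ha hb
      obtain ⟨x, -, hx⟩ := Finset.mem_image.1 ha
      obtain ⟨y, -, hy⟩ := Finset.mem_image.1 hb
      exact hkk ((Prod.mk.inj hx).1.trans (Prod.mk.inj hy).1.symm)

end zones

end Vale.Agent.P073.H190.Tvp
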