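import Vale.Agent.P073.H190.TvpF

/-!
# P073, H190, [TVP] (G): the displacement has small variation; the general control lemma
-/

open Set Metric Filter Topology
open scoped NNReal ENNReal

namespace Vale.Agent.P073.H190.Tvp

open _root_.P073 _root_.P073.H345
open _root_.P073.H236 (fl fl_of_le fl_of_ge fl_mono fl_def)

section

variable {n : ℕ} {J : Type*} [Finite J] {S : J → Slot n} {Z : ℝ → Fin n → ℝ}

/-- variation of a sum of two real functions -/
theorem evar_sub_le (f g : ℝ → ℝ) (A : Set ℝ) : eVariationOn (fun s => f s - g s) A ≤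
    eVariationOn f A + eVariationOn g A := by
  unfold eVariationOn
  refine iSup_le fun p => ?_
  calc ∑ i ∈ Finset.range p.1, edist (f (p.2.1 (i + 1)) - g (p.2.1 (i + 1)))
        (f (p.2.1 i) - g (p.2.1 i))
      ≤ ∑ i ∈ Finset.range p.1, (edist (f (p.2.1 (i + 1))) (f (p.2.1 i)) +
        edist (g (p.2.1 (i + 1))) (g (p.2.1 i))) := by
        refine Finset.sum_le_sum fun i _ => ?_
        rw [edist_dist, edist_dist, edist_dist, ← ENNReal.ofReal_add dist_nonneg dist_nonneg]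
        exact ENNReal.ofReal_le_ofReal (dist_sub_sub_le _ _ _ _)
    _ = _ := Finset.sum_add_distrib
    _ ≤ _ := add_le_add
        (le_iSup (fun p : ℕ × { u : ℕ → ℝ // Monotone u ∧ ∀ i, u i ∈ A } =>
          ∑ i ∈ Finset.range p.1, edist (f (p.2.1 (i + 1))) (f (p.2.1 i))) p)
        (le_iSup (fun p : ℕ × { u : ℕ → ℝ // Monotone u ∧ ∀ i, u i ∈ A } =>
          ∑ i ∈ Finset.range p.1, edist (g (p.2.1 (i + 1))) (g (p.2.1 i))) p)

/-- **[TVP] (variation of the displacement).** -/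
theorem exists_tvd (G : Good S Z) {e : ℝ} (he : 0 < e) : ∃ c₀ > 0, ∀ c₁, 0 < c₁ → c₁ ≤ c₀ →
    ∀ (η c : J → ℝ), Sml c₁ η c → ∀ κ : (Fin n → ℝ) → Fin n → ℝ,
    IsKap S (Z '' Icc 0 1) η c κ → (∀ y, κ y ∈ Z '' Icc 0 1 → ‖κ y - y‖ ≤ c₁) →
    ∀ Y γ, Lift κ Z Y γ → ∀ l, eVariationOn (fun s => Y s l - Z (γ s) l) (Icc 0 1) ≤
      ENNReal.ofReal e := by
  classical
  have := Fintype.ofFinite J
  obtain ⟨r, hr, hsep⟩ := exists_sep G
  obtain ⟨N, hN⟩ : ∃ N : ℝ, N = ∑ j, ((G.finite j).toFinset.card : ℝ) := ⟨_, rfl⟩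
  have hN0 : 0 ≤ N := by
    rw [hN]; exact Finset.sum_nonneg fun j _ => Nat.cast_nonneg _
  set ρ : ℝ := e / (8 * (N + 1)) with hρ
  have hρ0 : 0 < ρ := by positivity
  obtain ⟨cz, hcz, hz⟩ := exists_zonesR G hρ0
  have hr8 : 0 < r / 8 := by linarith
  refine ⟨min cz (min (r / 8) ρ), lt_min hcz (lt_min hr8 hρ0),
    fun c₁ hc₁ hc₁₀ η c hs κ H hκ Y γ L l => ?_⟩
  have hcz' : c₁ ≤ cz := hc₁₀.trans (min_le_left _ _)
  have hcr : c₁ ≤ r / 8 := hc₁₀.trans ((min_le_right _ _).trans (min_le_left _ _))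
  have hcρ : c₁ ≤ ρ := hc₁₀.trans ((min_le_right _ _).trans (min_le_right _ _))
  have hη : ∀ j, 0 < η j := fun j => (hs j).1
  have hc2 : ∀ j, 0 ≤ c j ∧ c j ≤ η j / 2 ∧ c j ≤ c₁ / 2 := fun j =>
    ⟨(hs j).2.2.1, (hs j).2.2.2, by linarith [(hs j).2.2.2, (hs j).2.1]⟩
  have hnear : ∀ s ∈ Icc (0:ℝ) 1, ‖Z (γ s) - Y s‖ ≤ c₁ := by
    intro s hs'
    have hX : κ (Y s) ∈ Z '' Icc 0 1 := by
      rw [L.eq s hs']; exact ⟨γ s, L.maps hs', rfl⟩
    have b1 := hκ _ hX
    rwa [L.eq s hs'] at b1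
  choose s₁ s₂ hZ hγ hmon using fun j => hz c₁ hc₁ hcz' η c hs κ H hκ Y γ L j
  -- the crossings
  let P : Finset (J × ℝ) := (Finset.univ.filter fun j => (S j).i = l).biUnion
    fun j => (G.finite j).toFinset.image fun x => (j, x)
  have hP : ∀ p : J × ℝ, p ∈ P ↔ (S p.1).i = l ∧ p.2 ∈ crs (S p.1) Z := by
    rintro ⟨k, x⟩
    simp only [P, Finset.mem_biUnion, Finset.mem_image, Prod.mk.injEq, Finset.mem_filter,
      Finset.mem_univ, true_and, Set.Finite.mem_toFinset]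
    constructor
    · rintro ⟨k', hk', x', hx', rfl, rfl⟩; exact ⟨hk', hx'⟩
    · rintro ⟨hk, hx⟩; exact ⟨k, hk, x, hx, rfl, rfl⟩
  have hPc : (P.card : ℝ) ≤ N := by
    have h1 : P.card ≤ ∑ j, (G.finite j).toFinset.card :=
      Finset.card_biUnion_le.trans ((Finset.sum_le_sum fun j _ => Finset.card_image_le).trans
        (Finset.sum_le_sum_of_subset (Finset.filter_subset _ _)))
    rw [hN]
    exact_mod_cast h1
  let d : ℝ → ℝ := fun s => Y s l - Z (γ s) l
  let g : J × ℝ → ℝ → ℝ := fun p s => d (H581.clamp (s₁ p.1 p.2) (s₂ p.1 p.2) s)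
  have hZγ : ContinuousOn (fun s => Z (γ s)) (Icc 0 1) := G.cc.cont.comp L.cg L.maps
  -- the local control
  have key := H581.evar_le_of_local P (G := d) (f := g) (a := 0) (b := 1) ?_
  · refine key.trans ?_
    have hg : ∀ p ∈ P, eVariationOn (g p) (Icc 0 1) ≤ ENNReal.ofReal (6 * ρ) := by
      intro p hp
      obtain ⟨hk, hx⟩ := (hP p).1 hp
      have hZk := hZ p.1
      have h12 := hZk.le _ hx
      have hI : Icc (s₁ p.1 p.2) (s₂ p.1 p.2) ⊆ Icc (0:ℝ) 1 :=
        Icc_subset_Icc (hZk.mem₁ _ hx).1 (hZk.mem₂ _ hx).2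
      refine (H581.evar_clamp d h12 _).trans ((evar_sub_le _ _ _).trans ?_)
      obtain ⟨hm1, hm2⟩ := hmon p.1 p.2 hx
      rw [hk] at hm2
      have hm := hZk.mono _ hx
      rw [hk] at hm
      have hγm : MapsTo γ (Icc (s₁ p.1 p.2) (s₂ p.1 p.2))
          (Icc (γ (s₁ p.1 p.2)) (γ (s₂ p.1 p.2))) := fun s hs' =>
        ⟨L.mono (hZk.mem₁ _ hx) (hI hs') hs'.1, L.mono (hI hs') (hZk.mem₂ _ hx) hs'.2⟩
      have hclose : ∀ s ∈ Icc (s₁ p.1 p.2) (s₂ p.1 p.2), |Z (γ s) l - Z p.2 l| ≤ ρ := by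
        intro s hs'
        exact (norm_le_pi_norm (Z (γ s) - Z p.2) l).trans (hm1 _ (hγm hs'))
      have hYZ : ∀ s ∈ Icc (s₁ p.1 p.2) (s₂ p.1 p.2), |Z (γ s) l - Y s l| ≤ ρ := by
        intro s hs'
        exact ((norm_le_pi_norm (Z (γ s) - Y s) l).trans (hnear s (hI hs'))).trans hcρ
      have e1 : ENNReal.ofReal (6 * ρ) = ENNReal.ofReal (4 * ρ) + ENNReal.ofReal (2 * ρ) := by
        rw [← ENNReal.ofReal_add (by positivity) (by positivity)]; congr 1; ring
      rw [e1]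
      refine add_le_add ?_ ?_
      · refine evar_mono_le hm fun s hs' s' hs'' => ?_
        have a1 := abs_le.1 (hclose s hs')
        have a2 := abs_le.1 (hclose s' hs'')
        have a3 := abs_le.1 (hYZ s hs')
        have a4 := abs_le.1 (hYZ s' hs'')
        linarith [a1.1, a2.2, a3.2, a4.1]
      · refine evar_mono_le ?_ fun s hs' s' hs'' => ?_
        · have hγmono : MonotoneOn γ (Icc (s₁ p.1 p.2) (s₂ p.1 p.2)) := L.mono.mono hI
          rcases hm2 with h | h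
          · exact Or.inl fun s hs' s' hs'' hss => h (hγm hs') (hγm hs'') (hγmono hs' hs'' hss)
          · exact Or.inr fun s hs' s' hs'' hss => h (hγm hs') (hγm hs'') (hγmono hs' hs'' hss)
        · have a1 := abs_le.1 (hclose s hs')
          have a2 := abs_le.1 (hclose s' hs'')
          linarith [a1.1, a2.2]
    calc ∑ p ∈ P, eVariationOn (g p) (Icc 0 1)
        ≤ ∑ _p ∈ P, ENNReal.ofReal (6 * ρ) := Finset.sum_le_sum hg
      _ = (P.card : ℝ≥0∞) * ENNReal.ofReal (6 * ρ) := by rw [Finset.sum_const, nsmul_eq_mul]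
      _ ≤ ENNReal.ofReal N * ENNReal.ofReal (6 * ρ) := by
          refine mul_le_mul_left ?_ _
          rw [← ENNReal.ofReal_natCast]
          exact ENNReal.ofReal_le_ofReal hPc
      _ ≤ ENNReal.ofReal e := by
          rw [← ENNReal.ofReal_mul hN0]
          refine ENNReal.ofReal_le_ofReal ?_
          have h1 : ρ * (8 * (N + 1)) = e := by
            rw [hρ]; field_simp
          nlinarith
  · intro s hs'
    have hYn : ∀ᶠ s' in 𝓝[Icc 0 1] s, ‖Y s' - Y s‖ ≤ r / 8 := by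
      have := Metric.tendsto_nhds.1 (L.cY s hs') (r / 8) hr8
      filter_upwards [this] with s' h
      rw [dist_eq_norm] at h
      exact h.le
    have hys : ‖Y s - Z (γ s)‖ ≤ r := by
      rw [norm_sub_rev]
      exact (hnear s hs').trans (by linarith)
    have hzero : (∀ᶠ s' in 𝓝[Icc 0 1] s, s' ∈ Icc (0:ℝ) 1 → Y s' l = Z (γ s') l) →
        ∀ᶠ s' in 𝓝[Icc 0 1] s, edist (d s) (d s') ≤
          ∑ p ∈ P, eVariationOn (g p) (uIcc s s') := by
      intro h
      have h0 := h.self_of_nhdsWithin hs' hs'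
      filter_upwards [h, self_mem_nhdsWithin] with s' h1 h2
      have e1 : d s = 0 := sub_eq_zero.2 h0
      have e2 : d s' = 0 := sub_eq_zero.2 (h1 h2)
      rw [e1, e2, edist_self]
      exact zero_le
    by_cases hB : ∃ j, (S j).Nr (r / 2) (Y s)
    · obtain ⟨j, hjB⟩ := hB
      have hoth : ∀ s' ∈ Icc (0:ℝ) 1, ‖Y s' - Y s‖ ≤ r / 8 → ∀ j', j' ≠ j →
          ¬ (S j').Nr (2 * c₁) (Y s') := by
        intro s' _ h1 j' hj' h2
        exact hsep (γ s) (L.maps hs') (Y s) hys j j' (Ne.symm hj')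
          (hjB.mono (by linarith)) ((h2.shift (d := r / 8) (by rw [norm_sub_rev]; exact h1)).mono (by linarith))
      have hoth0 := hoth s hs' (by rw [sub_self, norm_zero]; exact hr8.le)
      by_cases hjl : (S j).i = l
      swap
      · refine hzero ?_
        filter_upwards [hYn] with s' h1 h2
        exact (ph_eq H hs L j h2 (hoth s' h2 h1)).2 l (Ne.symm hjl)
      by_cases hnr : (S j).Nr c₁ (Y s)
      · -- in a zone
        obtain ⟨x, hx, hx1, hx2⟩ := (hZ j).cover s hs' hnr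
        have hev : ∀ᶠ s' in 𝓝[Icc 0 1] s, s' ∈ Ioo (s₁ j x) (s₂ j x) :=
          nhdsWithin_le_nhds (isOpen_Ioo.mem_nhds ⟨hx1, hx2⟩)
        filter_upwards [hev] with s' h2
        have e1 : H581.clamp (s₁ j x) (s₂ j x) s = s := H581.clamp_of_mem ⟨hx1.le, hx2.le⟩
        have e2 : H581.clamp (s₁ j x) (s₂ j x) s' = s' := H581.clamp_of_mem ⟨h2.1.le, h2.2.le⟩
        calc edist (d s) (d s') = edist (g (j, x) s) (g (j, x) s') := by simp only [g, e1, e2]
          _ ≤ eVariationOn (g (j, x)) (uIcc s s') :=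
            eVariationOn.edist_le (g (j, x)) left_mem_uIcc right_mem_uIcc
          _ ≤ _ := Finset.single_le_sum
            (f := fun p => eVariationOn (g p) (uIcc s s')) (fun _ _ => zero_le)
            ((hP (j, x)).2 ⟨hjl, hx⟩)
      · -- off the slot
        refine hzero ?_
        have hYc : ContinuousWithinAt Y (Icc 0 1) s := L.cY s hs'
        have hoff : ∀ᶠ s' in 𝓝[Icc 0 1] s, η j ≤ |Y s' (S j).i - (S j).a| ∨ Y s' ∉ (S j).D := by
          by_cases h1 : |Y s (S j).i - (S j).a| ≤ c₁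
          · have h2 : Y s ∉ (S j).D := fun h => hnr ⟨h1, Y s, h, by
              rw [sub_self, norm_zero]; exact hc₁.le⟩
            filter_upwards [hYc.eventually ((S j).closed.isOpen_compl.mem_nhds h2)] with s' h3
            exact Or.inr h3
          · push Not at h1
            have h2 : ContinuousWithinAt (fun s' => |Y s' (S j).i - (S j).a|) (Icc 0 1) s :=
              ((((continuous_apply (S j).i).comp_continuousOn L.cY) s hs').sub
                continuousWithinAt_const).abs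
            filter_upwards [h2.eventually (eventually_gt_nhds h1)] with s' h3
            exact Or.inl ((hs j).2.1.trans h3.le)
        filter_upwards [hYn, hoff] with s' h1 h2 h3
        have e2 := (ph_eq H hs L j h3 (hoth s' h3 h1)).1
        rw [hjl] at e2
        rcases h2 with h2 | h2
        · have hX' : κ (Y s') ∈ Z '' Icc 0 1 := by
            rw [L.eq s' h3]; exact ⟨γ s', L.maps h3, rfl⟩
          have e3 := H.eq_map hs hX' j (hoth s' h3 h1)
          rw [(S j).map_far (hη j) h2, L.eq s' h3] at e3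
          exact (congrFun e3 l).symm
        · have hX' : κ (Y s') ∈ Z '' Icc 0 1 := by
            rw [L.eq s' h3]; exact ⟨γ s', L.maps h3, rfl⟩
          have e3 := H.eq_map hs hX' j (hoth s' h3 h1)
          rw [(S j).map_zero ((S j).supp _ h2), L.eq s' h3] at e3
          exact (congrFun e3 l).symm
    · push Not at hB
      refine hzero ?_
      filter_upwards [hYn] with s' h1 h2
      have hX' : κ (Y s') ∈ Z '' Icc 0 1 := by
        rw [L.eq s' h2]; exact ⟨γ s', L.maps h2, rfl⟩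
      have := H.eq_self hc₁.le hs hX' fun j' h3 =>
        hB j' ((h3.shift (d := r / 8) (by rw [norm_sub_rev]; exact h1)).mono (by linarith))
      rw [← this, L.eq s' h2]

end

section zones

variable {n : ℕ} {ι K : Type*}

/-- **[TVP] (traversed flats), general form.** Every slot has its own thickness `c' k` and its own
factor `A k`; near each parameter only the slots in a subset `T'` are used, near whose regions the
point is. -/
theorem evar_le_zones2 {Z Y : ℝ → Fin n → ℝ} {Sl : K → Slot n} {c₁ : ℝ} {c' A : K → ℝ}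
    (T : Finset K) (I : Finset ι)
    (hz : ∀ k ∈ T, ∃ s₁ s₂, Zones (Sl k) Z Y c₁ s₁ s₂)
    (hfin : ∀ k ∈ T, (crs (Sl k) Z).Finite) (hc0 : ∀ k ∈ T, 0 ≤ c' k) (hc1 : ∀ k ∈ T, c' k < c₁)
    (hA : ∀ k ∈ T, 0 ≤ A k)
    (hY : ContinuousOn Y (Icc 0 1)) {G : ℝ → ℝ} {f : ι → ℝ → ℝ}
    (h : ∀ s ∈ Icc (0:ℝ) 1, ∃ T' ⊆ T, (∀ k ∈ T', ∃ w ∈ (Sl k).D, ‖w - Y s‖ ≤ c₁) ∧
      ∀ᶠ s' in 𝓝[Icc 0 1] s, edist (G s) (G s') ≤ ∑ i ∈ I, eVariationOn (f i) (uIcc s s') +
          ∑ k ∈ T', edist (A k * fl (c' k) (Sl k).a (Y s (Sl k).i))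
            (A k * fl (c' k) (Sl k).a (Y s' (Sl k).i))) :
    eVariationOn G (Icc 0 1) ≤ ∑ i ∈ I, eVariationOn (f i) (Icc 0 1) +
      ∑ k ∈ T, ((crs (Sl k) Z).ncard : ℝ≥0∞) * ENNReal.ofReal (2 * c' k * A k) := by
  classical
  have hz' : ∀ k, ∃ s₁ s₂ : ℝ → ℝ, k ∈ T → Zones (Sl k) Z Y c₁ s₁ s₂ := by
    intro k
    by_cases hk : k ∈ T
    · obtain ⟨s₁, s₂, h1⟩ := hz k hk
      exact ⟨s₁, s₂, fun _ => h1⟩
    · exact ⟨0, 0, fun h' => absurd h' hk⟩
  choose s₁ s₂ hZ using hz'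
  -- the crossings
  let C : K → Finset ℝ := fun k => if hk : k ∈ T then (hfin k hk).toFinset else ∅
  have hC : ∀ k ∈ T, ∀ x, x ∈ C k ↔ x ∈ crs (Sl k) Z := by
    intro k hk x
    simp only [C, dif_pos hk, Set.Finite.mem_toFinset]
  have hCc : ∀ k ∈ T, (C k).card = (crs (Sl k) Z).ncard := by
    intro k hk
    simp only [C, dif_pos hk]
    exact (Set.ncard_eq_toFinset_card _ (hfin k hk)).symm
  let P : Finset (Σ _ : K, ℝ) := T.sigma C
  have hP : ∀ p : Σ _ : K, ℝ, p ∈ P ↔ p.1 ∈ T ∧ p.2 ∈ C p.1 := fun p => Finset.mem_sigma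
  let g : (Σ _ : K, ℝ) → ℝ → ℝ := fun p s =>
    A p.1 * fl (c' p.1) (Sl p.1).a (Y (H581.clamp (s₁ p.1 p.2) (s₂ p.1 p.2) s) (Sl p.1).i)
  let F : ι ⊕ (Σ _ : K, ℝ) → ℝ → ℝ := fun o => match o with
    | Sum.inl i => f i
    | Sum.inr p => g p
  have key := H581.evar_le_of_local (I.disjSum P) (G := G) (f := F) (a := 0) (b := 1) ?_
  · rw [Finset.sum_disjSum] at key
    refine key.trans (add_le_add le_rfl ?_)
    have hg : ∀ p ∈ P, eVariationOn (g p) (Icc 0 1) ≤ ENNReal.ofReal (2 * c' p.1 * A p.1) := by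
      intro p hp
      obtain ⟨hk, hx⟩ := (hP p).1 hp
      have hx' := (hC p.1 hk p.2).1 hx
      have hZk := hZ p.1 hk
      refine (H581.evar_clamp (fun s => A p.1 * fl (c' p.1) (Sl p.1).a (Y s (Sl p.1).i))
        (hZk.le _ hx') _).trans ?_
      have hm := hZk.mono _ hx'
      refine evar_mono_le ?_ fun s _ s' _ => ?_
      · rcases hm with hm | hm
        · left
          exact fun s hs s' hs' hss =>
            mul_le_mul_of_nonneg_left (fl_mono _ _ (hm hs hs' hss)) (hA _ hk)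
        · right
          exact fun s hs s' hs' hss =>
            mul_le_mul_of_nonneg_left (fl_mono _ _ (hm hs hs' hss)) (hA _ hk)
      · have h1 := fl_le (a := (Sl p.1).a) (t := Y s' (Sl p.1).i) (hc0 _ hk)
        have h2 := fl_nonneg (c' p.1) (Sl p.1).a (Y s (Sl p.1).i)
        rw [← mul_sub, mul_comm]
        exact mul_le_mul_of_nonneg_right (by linarith) (hA _ hk)
    calc ∑ p ∈ P, eVariationOn (F (Sum.inr p)) (Icc 0 1)
        ≤ ∑ p ∈ P, ENNReal.ofReal (2 * c' p.1 * A p.1) := Finset.sum_le_sum hg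
      _ = ∑ k ∈ T, ∑ _x ∈ C k, ENNReal.ofReal (2 * c' k * A k) := Finset.sum_sigma _ _ _
      _ ≤ _ := by
          refine Finset.sum_le_sum fun k hk => ?_
          rw [Finset.sum_const, nsmul_eq_mul, hCc k hk]
  intro s hs
  simp only [Finset.sum_disjSum]
  obtain ⟨T', hT', hreg, h1⟩ := h s hs
  -- each flat
  have hflat : ∀ k ∈ T', ∀ᶠ s' in 𝓝[Icc 0 1] s,
      edist (A k * fl (c' k) (Sl k).a (Y s (Sl k).i)) (A k * fl (c' k) (Sl k).a (Y s' (Sl k).i)) ≤
        ∑ x ∈ C k, eVariationOn (F (Sum.inr ⟨k, x⟩)) (uIcc s s') := by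
    intro k hkT'
    have hk := hT' hkT'
    have hYl : ContinuousWithinAt (fun s => Y s (Sl k).i) (Icc 0 1) s :=
      ((continuous_apply (Sl k).i).comp_continuousOn hY) s hs
    have hc0' := hc0 k hk
    have hc1' := hc1 k hk
    by_cases hnr : |Y s (Sl k).i - (Sl k).a| ≤ c₁
    · -- in a zone
      obtain ⟨x, hx, hx1, hx2⟩ := (hZ k hk).cover s hs ⟨hnr, hreg k hkT'⟩
      have hev : ∀ᶠ s' in 𝓝[Icc 0 1] s, s' ∈ Ioo (s₁ k x) (s₂ k x) :=
        nhdsWithin_le_nhds (isOpen_Ioo.mem_nhds ⟨hx1, hx2⟩)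
      filter_upwards [hev] with s' h2
      have e1 : H581.clamp (s₁ k x) (s₂ k x) s = s := H581.clamp_of_mem ⟨hx1.le, hx2.le⟩
      have e2 : H581.clamp (s₁ k x) (s₂ k x) s' = s' := H581.clamp_of_mem ⟨h2.1.le, h2.2.le⟩
      calc edist (A k * fl (c' k) (Sl k).a (Y s (Sl k).i))
            (A k * fl (c' k) (Sl k).a (Y s' (Sl k).i))
          = edist (g ⟨k, x⟩ s) (g ⟨k, x⟩ s') := by simp only [g, e1, e2]
        _ ≤ eVariationOn (F (Sum.inr ⟨k, x⟩)) (uIcc s s') :=
          eVariationOn.edist_le (g ⟨k, x⟩) left_mem_uIcc right_mem_uIcc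
        _ ≤ _ := Finset.single_le_sum
          (f := fun x => eVariationOn (F (Sum.inr ⟨k, x⟩)) (uIcc s s')) (fun _ _ => zero_le)
          ((hC k hk x).2 hx)
    · -- far from the level
      push Not at hnr
      rcases lt_abs.1 hnr with h2 | h2
      · have hev : ∀ᶠ s' in 𝓝[Icc 0 1] s, (Sl k).a + c' k < Y s' (Sl k).i :=
          hYl.eventually (eventually_gt_nhds (by linarith))
        filter_upwards [hev] with s' h3
        rw [fl_of_ge hc0' (by linarith : (Sl k).a + c' k ≤ Y s (Sl k).i), fl_of_ge hc0' h3.le,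
          edist_self]
        exact zero_le
      · have hev : ∀ᶠ s' in 𝓝[Icc 0 1] s, Y s' (Sl k).i < (Sl k).a - c' k :=
          hYl.eventually (eventually_lt_nhds (by linarith))
        filter_upwards [hev] with s' h3
        rw [fl_of_le (by linarith : Y s (Sl k).i ≤ (Sl k).a - c' k), fl_of_le h3.le, edist_self]
        exact zero_le
  have hall : ∀ᶠ s' in 𝓝[Icc 0 1] s, ∀ k ∈ T',
      edist (A k * fl (c' k) (Sl k).a (Y s (Sl k).i)) (A k * fl (c' k) (Sl k).a (Y s' (Sl k).i)) ≤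
        ∑ x ∈ C k, eVariationOn (F (Sum.inr ⟨k, x⟩)) (uIcc s s') :=
    (Filter.eventually_all_finset T').2 hflat
  filter_upwards [h1, hall] with s' h2 h3
  refine h2.trans (add_le_add le_rfl ((Finset.sum_le_sum h3).trans ?_))
  calc ∑ k ∈ T', ∑ x ∈ C k, eVariationOn (F (Sum.inr ⟨k, x⟩)) (uIcc s s')
      ≤ ∑ k ∈ T, ∑ x ∈ C k, eVariationOn (F (Sum.inr ⟨k, x⟩)) (uIcc s s') :=
        Finset.sum_le_sum_of_subset hT'
    _ = ∑ p ∈ P, eVariationOn (F (Sum.inr p)) (uIcc s s') :=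
        (Finset.sum_sigma T C fun p => eVariationOn (F (Sum.inr p)) (uIcc s s')).symm

end zones

end Vale.Agent.P073.H190.Tvp
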