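import Vale.Agent.P073.H190.TvpG
import Vale.Agent.P073.H581.T5c
import Vale.Agent.P073.H880.Stage2P

/-!
# P073, H190, [TVP] (H): the composition of the insertion maps of two families of thin boxes
-/

open Set Metric Filter Topology
open scoped NNReal ENNReal

namespace Vale.Agent.P073.H190.Tvp

open _root_.P073 _root_.P073.H345
open _root_.P073.H236 (BX bmp bmp_con bmp_nonneg bmp_le bmp_update bmp_zero)

/-- the slot of a level of a box -/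
noncomputable def slotOf (B : BX 3) (k : ℕ) : Slot 3 where
  i := B.j
  a := B.a k
  D := cyl B
  χ := bmp B.j B.lo B.hi B.r 1
  closed := isClosed_cyl B
  cc := ⟨bmp_con.2, bmp_con.1⟩
  nonneg := bmp_nonneg zero_le_one
  le_one := bmp_le zero_le_one
  indep := fun y t => bmp_update y t
  supp := fun y hy => by
    simp only [cyl, mem_ofPred_eq, not_forall] at hy
    obtain ⟨i, hi, h1⟩ := hy
    refine bmp_zero B.hr hi ?_
    by_contra h2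
    push Not at h2
    exact h1 ⟨h2.1.le, h2.2.le⟩

theorem mu_eq (B : BX 3) (k : ℕ) (y : Fin 3 → ℝ) : mu B y = B.c * (slotOf B k).χ y := by
  show bmp B.j B.lo B.hi B.r B.c y = B.c * bmp B.j B.lo B.hi B.r 1 y
  unfold H236.bmp
  rw [one_mul]

theorem slotOf_thin (B : BX 3) {c : ℝ} (h0 : 0 < c) (h1 : c ≤ B.c) (k : ℕ) :
    slotOf (thin B c h0 h1) k = slotOf B k := rfl

theorem Q_eq_map (B : BX 3) {k : ℕ} (hk : k < B.N) {y : Fin 3 → ℝ}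
    (hy : |y B.j - B.a k| ≤ 2 * B.c) : B.Q y = (slotOf B k).map (2 * B.c) B.c y := by
  rw [Q_eq_kap B hk hy]
  unfold Slot.map
  rw [show mu B = fun y => B.c * (slotOf B k).χ y from funext fun y => mu_eq B k y]
  rfl

theorem Q_eq_self_of_off (B : BX 3) {y : Fin 3 → ℝ}
    (hy : ∀ k < B.N, (slotOf B k).Off (2 * B.c) y) : B.Q y = y := by
  by_cases h : ∃ k < B.N, |y B.j - B.a k| < 2 * B.c
  · obtain ⟨k, hk, h1⟩ := h
    rw [Q_eq_map B hk h1.le]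
    rcases hy k hk with h2 | h2
    · exact absurd h1 (not_lt.2 h2)
    · exact Slot.map_zero _ h2
  · push Not at h
    exact Q_eq_self B h

theorem mem_K_of_level (B : BX 3) {y : Fin 3 → ℝ} {k : ℕ} (hk : k < B.N)
    (h1 : |y B.j - B.a k| ≤ 2 * B.c) (h2 : y ∈ cyl B) : y ∈ B.K := by
  obtain ⟨a1, a2⟩ := abs_le.1 h1
  have h3 := B.lvs.first_le hk
  have h4 := B.lvs.le_last hk
  exact (mem_K _).2 ⟨⟨by linarith, by linarith⟩, h2⟩

section two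

variable {γ₀ γ₁ : Type*} {Λ : Set (Fin 3 → ℝ)}

/-- the box of a slot -/
def bxOf (B₀ : γ₀ → BX 3) (B₁ : γ₁ → BX 3) : (γ₀ × ℕ) ⊕ (γ₁ × ℕ) → BX 3
  | .inl p => B₀ p.1
  | .inr p => B₁ p.1

/-- the number of the level -/
def lvl : (γ₀ × ℕ) ⊕ (γ₁ × ℕ) → ℕ
  | .inl p => p.2
  | .inr p => p.2

/-- the active slots -/
def ActS (B₀ : γ₀ → BX 3) (B₁ : γ₁ → BX 3) (Z : ℝ → Fin 3 → ℝ) : Set ((γ₀ × ℕ) ⊕ (γ₁ × ℕ)) :=
  {p | lvl p < (bxOf B₀ B₁ p).N ∧ ((bxOf B₀ B₁ p).K ∩ Z '' Icc 0 1).Nonempty}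

/-- the active slots -/
noncomputable def slt (B₀ : γ₀ → BX 3) (B₁ : γ₁ → BX 3) (Z : ℝ → Fin 3 → ℝ)
    (p : ActS B₀ B₁ Z) : Slot 3 := slotOf (bxOf B₀ B₁ p.1) (lvl p.1)

/-- **general position of an arc with respect to the two families of boxes** -/
structure GenA (B₀ : γ₀ → BX 3) (B₁ : γ₁ → BX 3) (Λ : Set (Fin 3 → ℝ)) (Z : ℝ → Fin 3 → ℝ) :
    Prop where
  cc : CC Z (Icc 0 1)
  maps : MapsTo Z (Icc 0 1) Λ
  sgn₀ : ∀ g, ∀ t ∈ Icc (0:ℝ) 1, Z t ∈ (B₀ g).K → ∀ k < (B₀ g).N,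
    Z t (B₀ g).j = (B₀ g).a k → SgnAt (fun s => Z s (B₀ g).j) t
  sgn₁ : ∀ g, ∀ t ∈ Icc (0:ℝ) 1, Z t ∈ (B₁ g).K → ∀ k < (B₁ g).N,
    Z t (B₁ g).j = (B₁ g).a k → SgnAt (fun s => Z s (B₁ g).j) t
  dis : ∀ g g', ∀ t ∈ Icc (0:ℝ) 1, Z t ∈ (B₀ g).K → Z t ∈ (B₁ g').K →
    ∀ k < (B₀ g).N, Z t (B₀ g).j = (B₀ g).a k → ∀ k' < (B₁ g').N, Z t (B₁ g').j ≠ (B₁ g').a k'

/-- thicknesses of the slots -/
def thk (c₀ : γ₀ → ℝ) (c₁ : γ₁ → ℝ) : (γ₀ × ℕ) ⊕ (γ₁ × ℕ) → ℝ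
  | .inl p => c₀ p.1
  | .inr p => c₁ p.1

variable {B₀ : γ₀ → BX 3} {B₁ : γ₁ → BX 3} {Z : ℝ → Fin 3 → ℝ}

/-- two levels of one family are not met at the same point -/
theorem dis_one {γ : Type*} {B : γ → BX 3} (H : Fam Λ B) {z : Fin 3 → ℝ} {g g' : γ} {k k' : ℕ}
    (hk : k < (B g).N) (hk' : k' < (B g').N) (h1 : z (B g).j = (B g).a k) (h2 : z ∈ (B g).K)
    (h3 : z (B g').j = (B g').a k') (h4 : z ∈ (B g').K) : g = g' ∧ k = k' := by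
  by_cases hgg : g = g'
  · subst hgg
    refine ⟨rfl, ?_⟩
    by_contra hkk
    rcases lt_or_gt_of_ne hkk with h5 | h5
    · have := (B g).lvs.strictMono h5 hk'
      linarith
    · have := (B g).lvs.strictMono h5 hk
      linarith
  · exfalso
    have e3 := (B g).lvs.first_le hk
    have e4 := (B g).lvs.le_last hk
    have e5 := (B g).lvs.c0
    rcases H.dis g g' hgg _ h2 h4 with e6 | e6 <;> linarith

theorem finite_one {γ : Type*} {B : γ → BX 3} (H : Fam Λ B) {X : Set (Fin 3 → ℝ)}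
    (hc : IsCompact X) (hΛ : X ⊆ Λ) :
    {p : γ × ℕ | p.2 < (B p.1).N ∧ ((B p.1).K ∩ X).Nonempty}.Finite := by
  have h2 : (⋃ g ∈ {g | ((B g).K ∩ X).Nonempty},
      (fun k => (g, k)) '' {k : ℕ | k < (B g).N}).Finite :=
    (H.finite hc hΛ).biUnion fun g _ => (Set.finite_lt_nat _).image _
  refine h2.subset ?_
  rintro ⟨g, k⟩ ⟨h3, h4⟩
  exact mem_biUnion (show g ∈ {g | ((B g).K ∩ X).Nonempty} from h4) ⟨k, h3, rfl⟩

theorem finite_act (H₀ : Fam Λ B₀) (H₁ : Fam Λ B₁) (G : GenA B₀ B₁ Λ Z) :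
    Finite (ActS B₀ B₁ Z) := by
  have hc : IsCompact (Z '' Icc (0:ℝ) 1) := isCompact_Icc.image_of_continuousOn G.cc.cont
  have hΛ : Z '' Icc (0:ℝ) 1 ⊆ Λ := by rintro _ ⟨t, ht, rfl⟩; exact G.maps ht
  have h0 := finite_one H₀ hc hΛ
  have h1 := finite_one H₁ hc hΛ
  refine Set.Finite.to_subtype (((h0.image Sum.inl).union (h1.image Sum.inr)).subset ?_)
  rintro (p | p) hp
  · exact Or.inl ⟨p, hp, rfl⟩
  · exact Or.inr ⟨p, hp, rfl⟩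

/-- **the arc is in general position with respect to the active slots** -/
theorem good_two (H₀ : Fam Λ B₀) (H₁ : Fam Λ B₁) (G : GenA B₀ B₁ Λ Z) : Good (slt B₀ B₁ Z) Z where
  cc := G.cc
  dis := by
    rintro ⟨p, hp'⟩ ⟨q, hq'⟩ hne t ht h1 h2 h3 h4
    have hp := hp'.1
    have hq := hq'.1
    have hKp : Z t ∈ (bxOf B₀ B₁ p).K := mem_K_of_level _ hp (by
      have h1' : Z t (bxOf B₀ B₁ p).j = (bxOf B₀ B₁ p).a (lvl p) := h1
      rw [h1', sub_self, abs_zero]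
      have := (bxOf B₀ B₁ p).lvs.c0
      linarith) h2
    have hKq : Z t ∈ (bxOf B₀ B₁ q).K := mem_K_of_level _ hq (by
      have h1' : Z t (bxOf B₀ B₁ q).j = (bxOf B₀ B₁ q).a (lvl q) := h3
      rw [h1', sub_self, abs_zero]
      have := (bxOf B₀ B₁ q).lvs.c0
      linarith) h4
    apply hne
    rcases p with ⟨g, k⟩ | ⟨g, k⟩ <;> rcases q with ⟨g', k'⟩ | ⟨g', k'⟩
    · obtain ⟨rfl, rfl⟩ := dis_one H₀ hp hq h1 hKp h3 hKq
      rfl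
    · exact absurd h3 (G.dis g g' t ht hKp hKq k hp h1 k' hq)
    · exact absurd h1 (G.dis g' g t ht hKq hKp k' hq h3 k hp)
    · obtain ⟨rfl, rfl⟩ := dis_one H₁ hp hq h1 hKp h3 hKq
      rfl
  sgn := by
    rintro ⟨p, hp'⟩ t ht h1 h2
    have hp := hp'.1
    have hKp : Z t ∈ (bxOf B₀ B₁ p).K := mem_K_of_level _ hp (by
      have h1' : Z t (bxOf B₀ B₁ p).j = (bxOf B₀ B₁ p).a (lvl p) := h1
      rw [h1', sub_self, abs_zero]
      have := (bxOf B₀ B₁ p).lvs.c0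
      linarith) h2
    rcases p with ⟨g, k⟩ | ⟨g, k⟩
    · exact G.sgn₀ g t ht hKp k hp h1
    · exact G.sgn₁ g t ht hKp k hp h1

/-- near a compact set only the boxes which meet it are met -/
theorem exists_cth {γ : Type*} {B : γ → BX 3} (H : Fam Λ B) {X : Set (Fin 3 → ℝ)}
    (hX : IsCompact X) (hXΛ : X ⊆ Λ) : ∃ r > 0, ∀ g, ((B g).K ∩ cthickening r X).Nonempty →
      ((B g).K ∩ X).Nonempty := by
  classical
  obtain ⟨δ, hδ, hδΛ⟩ := hX.exists_cthickening_subset_open H.op hXΛ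
  have hc : IsCompact (cthickening δ X) := hX.cthickening
  have hfin := H.finite hc hδΛ
  have hg : ∀ g, ∃ r > 0, ¬ ((B g).K ∩ X).Nonempty → Disjoint (B g).K (cthickening r X) := by
    intro g
    by_cases h : ((B g).K ∩ X).Nonempty
    · exact ⟨1, one_pos, fun h' => absurd h h'⟩
    · have hd : Disjoint X (B g).K := by
        rw [Set.disjoint_iff_inter_eq_empty, inter_comm]
        exact not_nonempty_iff_eq_empty.1 h
      obtain ⟨r, hr, hd'⟩ := hX.exists_cthickening_subset_open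
        (B g).isCompact_K.isClosed.isOpen_compl (subset_compl_iff_disjoint_right.2 hd)
      exact ⟨r, hr, fun _ => (subset_compl_iff_disjoint_right.1 hd').symm⟩
  choose r hr hrd using hg
  obtain ⟨r₀, hr₀, hle⟩ := exists_lower hfin (f := r) fun g _ => hr g
  refine ⟨min δ r₀, lt_min hδ hr₀, fun g hgm => ?_⟩
  by_contra hcon
  obtain ⟨y, hy1, hy2⟩ := hgm
  have h1 : g ∈ {g | ((B g).K ∩ cthickening δ X).Nonempty} :=
    ⟨y, hy1, cthickening_mono (min_le_left _ _) _ hy2⟩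
  exact (hrd g hcon).notMem_of_mem_left hy1
    (cthickening_mono ((min_le_right _ _).trans (hle g h1)) _ hy2)

/-- the preimage of a compact preconnected set under an insertion map with preconnected fibres -/
theorem isPreconnected_pre {κ : (Fin 3 → ℝ) → Fin 3 → ℝ} (hκ : H579.InsMap κ Λ Λ)
    (hf : ∀ w ∈ Λ, IsPreconnected {y | y ∈ Λ ∧ κ y = w}) {C : Set (Fin 3 → ℝ)} (hC : IsCompact C)
    (hCΛ : C ⊆ Λ) (hCp : IsPreconnected C) : IsPreconnected (Λ ∩ κ ⁻¹' C) := by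
  have hcomp := hκ.proper C hC hCΛ
  rw [isPreconnected_closed_iff] at hCp ⊢
  intro t t' ht ht' hcov h1 h2
  have him : ∀ u, IsClosed u → IsClosed (κ '' (Λ ∩ κ ⁻¹' C ∩ u)) := fun u hu =>
    ((hcomp.inter_right hu).image_of_continuousOn (hκ.cont.mono fun y hy => hy.1.1)).isClosed
  have hsub : C ⊆ κ '' (Λ ∩ κ ⁻¹' C ∩ t) ∪ κ '' (Λ ∩ κ ⁻¹' C ∩ t') := by
    intro w hw
    obtain ⟨y, hy, rfl⟩ := hκ.surj (hCΛ hw)
    rcases hcov ⟨hy, hw⟩ with h | h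
    · exact Or.inl ⟨y, ⟨⟨hy, hw⟩, h⟩, rfl⟩
    · exact Or.inr ⟨y, ⟨⟨hy, hw⟩, h⟩, rfl⟩
  obtain ⟨w, hw, ⟨y, hy, hyw⟩, y', hy', hyw'⟩ := hCp _ _ (him t ht) (him t' ht') hsub
    (by obtain ⟨y, hy, hyt⟩ := h1; exact ⟨κ y, hy.2, y, ⟨hy, hyt⟩, rfl⟩)
    (by obtain ⟨y, hy, hyt⟩ := h2; exact ⟨κ y, hy.2, y, ⟨hy, hyt⟩, rfl⟩)
  have h3 := isPreconnected_closed_iff.1 (hf w (hCΛ hw)) t t' ht ht'
    (fun z hz => hcov ⟨hz.1, by rw [mem_preimage, hz.2]; exact hw⟩)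
    ⟨y, ⟨hy.1.1, hyw⟩, hy.2⟩ ⟨y', ⟨hy'.1.1, hyw'⟩, hy'.2⟩
  obtain ⟨z, hz, hzt⟩ := h3
  exact ⟨z, ⟨hz.1, by rw [mem_preimage, hz.2]; exact hw⟩, hzt⟩

/-- the fibres of one map -/
theorem isPreconnected_one {γ : Type*} {B : γ → BX 3} {κ : (Fin 3 → ℝ) → Fin 3 → ℝ}
    (H : Fam Λ B) (h : IsQ B κ) (w : Fin 3 → ℝ) (hw : w ∈ Λ) :
    IsPreconnected {y | y ∈ Λ ∧ κ y = w} := by
  have e1 : {y | y ∈ Λ ∧ κ y = w} = {y | κ y = w} := by
    ext y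
    exact ⟨fun h => h.2, fun h' => ⟨h.mem_Λ H (by rw [show κ y = w from h']; exact hw), h'⟩⟩
  rw [e1]
  exact (H581.fib_convex h H w).isPreconnected

/-- the fibres of the composition -/
theorem isPreconnected_two {κ₀ κ₁ : (Fin 3 → ℝ) → Fin 3 → ℝ} (H₀ : Fam Λ B₀) (H₁ : Fam Λ B₁)
    (h₀ : IsQ B₀ κ₀) (h₁ : IsQ B₁ κ₁) (i₀ : H579.InsMap κ₀ Λ Λ) (i₁ : H579.InsMap κ₁ Λ Λ)
    {w : Fin 3 → ℝ} (hw : w ∈ Λ) : IsPreconnected {y | y ∈ Λ ∧ κ₁ (κ₀ y) = w} := by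
  have h2 : Λ ∩ κ₁ ⁻¹' {w} = {y | y ∈ Λ ∧ κ₁ y = w} := rfl
  have hc : IsCompact {y | y ∈ Λ ∧ κ₁ y = w} := by
    rw [← h2]
    exact i₁.proper {w} isCompact_singleton (singleton_subset_iff.2 hw)
  have h3 := isPreconnected_pre i₀ (isPreconnected_one H₀ h₀) hc (fun y hy => hy.1)
    (isPreconnected_one H₁ h₁ w hw)
  have e : Λ ∩ κ₀ ⁻¹' {y | y ∈ Λ ∧ κ₁ y = w} = {y | y ∈ Λ ∧ κ₁ (κ₀ y) = w} := by
    ext y
    exact ⟨fun h => ⟨h.1, h.2.2⟩, fun h => ⟨h.1, i₀.maps h.1, h.2⟩⟩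
  rwa [e] at h3

end two

end Vale.Agent.P073.H190.Tvp
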