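import Vale.Agent.P073.H190.TvpH

/-!
# P073, H190, [TVP] (I): the composition of two insertion maps is the insertion map of the slots
-/

open Set Metric Filter Topology
open scoped NNReal ENNReal

namespace Vale.Agent.P073.H190.Tvp

open _root_.P073 _root_.P073.H345
open _root_.P073.H236 (BX bmp bmp_con bmp_nonneg bmp_le bmp_update bmp_zero)

variable {γ₀ γ₁ : Type*} {Λ : Set (Fin 3 → ℝ)} {B₀ : γ₀ → BX 3} {B₁ : γ₁ → BX 3}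
  {Z : ℝ → Fin 3 → ℝ}

/-- one map moves little -/
theorem norm_one_le {γ : Type*} {B : γ → BX 3} {κ : (Fin 3 → ℝ) → Fin 3 → ℝ} (h : IsQ B κ)
    {y : Fin 3 → ℝ} {b : ℝ} (hb0 : 0 ≤ b) (hb : ∀ g, y ∈ (B g).K → (B g).c ≤ b) :
    ‖κ y - y‖ ≤ b := by
  by_cases h1 : ∃ g, y ∈ (B g).K
  · obtain ⟨g, hg⟩ := h1
    rw [h.on g y hg]
    exact ((B g).norm_Q_sub_le y).trans (hb g hg)
  · push Not at h1
    rw [h.off y h1, sub_self, norm_zero]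
    exact hb0

/-- one map, all slots off -/
theorem eq_one_of_off {γ : Type*} {B : γ → BX 3} {κ : (Fin 3 → ℝ) → Fin 3 → ℝ} (h : IsQ B κ)
    {y : Fin 3 → ℝ} (hy : ∀ g, y ∈ (B g).K → ∀ k < (B g).N, (slotOf (B g) k).Off (2 * (B g).c) y) :
    κ y = y := by
  by_cases h1 : ∃ g, y ∈ (B g).K
  · obtain ⟨g, hg⟩ := h1
    rw [h.on g y hg]
    exact Q_eq_self_of_off _ (hy g hg)
  · push Not at h1
    exact h.off y h1

section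

variable {c₀ : γ₀ → ℝ} {c₁ : γ₁ → ℝ} (h00 : ∀ g, 0 < c₀ g) (h01 : ∀ g, c₀ g ≤ (B₀ g).c)
  (h10 : ∀ g, 0 < c₁ g) (h11 : ∀ g, c₁ g ≤ (B₁ g).c) {X : Set (Fin 3 → ℝ)} {r b : ℝ}
  {κ₀ κ₁ : (Fin 3 → ℝ) → Fin 3 → ℝ}

/-- **the displacement of the composition**, and the boxes which are used -/
theorem disp_two (hb0 : 0 ≤ b) (hbr : b ≤ r)
    (hr₀ : ∀ g, ((B₀ g).K ∩ cthickening r X).Nonempty → ((B₀ g).K ∩ X).Nonempty)
    (hb₀ : ∀ g, ((B₀ g).K ∩ X).Nonempty → c₀ g ≤ b)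
    (hb₁ : ∀ g, ((B₁ g).K ∩ X).Nonempty → c₁ g ≤ b)
    (q₀ : IsQ (fun g => thin (B₀ g) (c₀ g) (h00 g) (h01 g)) κ₀)
    (q₁ : IsQ (fun g => thin (B₁ g) (c₁ g) (h10 g) (h11 g)) κ₁) {y : Fin 3 → ℝ}
    (hy : κ₁ (κ₀ y) ∈ X) :
    (∀ g, y ∈ (B₀ g).K → ((B₀ g).K ∩ X).Nonempty) ∧
    (∀ g, κ₀ y ∈ (B₁ g).K → ((B₁ g).K ∩ X).Nonempty) ∧ ‖κ₁ (κ₀ y) - y‖ ≤ 2 * b := by
  have h1 : ∀ g, κ₀ y ∈ (B₁ g).K → ((B₁ g).K ∩ X).Nonempty := fun g hg =>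
    ⟨κ₁ (κ₀ y), q₁.mapsK (g := g) hg, hy⟩
  have h2 : ‖κ₁ (κ₀ y) - κ₀ y‖ ≤ b := norm_one_le q₁ hb0 fun g hg => hb₁ g (h1 g hg)
  have h3 : κ₀ y ∈ cthickening r X := by
    refine mem_cthickening_of_dist_le _ _ r X hy ?_
    rw [dist_comm, dist_eq_norm]
    exact h2.trans hbr
  have h4 : ∀ g, y ∈ (B₀ g).K → ((B₀ g).K ∩ X).Nonempty := fun g hg =>
    hr₀ g ⟨κ₀ y, q₀.mapsK (g := g) hg, h3⟩
  have h5 : ‖κ₀ y - y‖ ≤ b := norm_one_le q₀ hb0 fun g hg => hb₀ g (h4 g hg)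
  refine ⟨h4, h1, ?_⟩
  have e : κ₁ (κ₀ y) - y = (κ₁ (κ₀ y) - κ₀ y) + (κ₀ y - y) := by abel
  rw [e]
  exact (norm_add_le _ _).trans (by linarith)

/-- **[TVP] (the bridge)** -/
theorem isKap_two (hb0 : 0 ≤ b) (hbr : b ≤ r)
    (hr₀ : ∀ g, ((B₀ g).K ∩ cthickening r (Z '' Icc 0 1)).Nonempty →
      ((B₀ g).K ∩ Z '' Icc 0 1).Nonempty)
    (hb₀ : ∀ g, ((B₀ g).K ∩ Z '' Icc 0 1).Nonempty → c₀ g ≤ b)
    (hb₁ : ∀ g, ((B₁ g).K ∩ Z '' Icc 0 1).Nonempty → c₁ g ≤ b)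
    (q₀ : IsQ (fun g => thin (B₀ g) (c₀ g) (h00 g) (h01 g)) κ₀)
    (q₁ : IsQ (fun g => thin (B₁ g) (c₁ g) (h10 g) (h11 g)) κ₁) :
    IsKap (slt B₀ B₁ Z) (Z '' Icc 0 1) (fun p => 2 * thk c₀ c₁ p.1) (fun p => thk c₀ c₁ p.1)
      (fun y => κ₁ (κ₀ y)) := by
  have hoff : ∀ y, κ₁ (κ₀ y) ∈ Z '' Icc 0 1 →
      (∀ j, (slt B₀ B₁ Z j).Off (2 * thk c₀ c₁ j.1) y) → κ₁ (κ₀ y) = y := by
    intro y hy ho
    obtain ⟨a1, a2, -⟩ := disp_two h00 h01 h10 h11 hb0 hbr hr₀ hb₀ hb₁ q₀ q₁ hy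
    have e0 : κ₀ y = y := eq_one_of_off q₀ fun g hg k hk =>
      ho ⟨.inl (g, k), hk, a1 g hg⟩
    rw [e0] at a2 ⊢
    exact eq_one_of_off q₁ fun g hg k hk => ho ⟨.inr (g, k), hk, a2 g hg⟩
  refine ⟨hoff, ?_⟩
  rintro y hy ⟨p, hp⟩ hpy ho
  obtain ⟨a1, a2, -⟩ := disp_two h00 h01 h10 h11 hb0 hbr hr₀ hb₀ hb₁ q₀ q₁ hy
  by_cases hχ : (slt B₀ B₁ Z ⟨p, hp⟩).χ y = 0
  · rw [Slot.map_zero _ hχ]
    refine hoff y hy fun j => ?_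
    by_cases hj : j = ⟨p, hp⟩
    · rw [hj]; exact Or.inr hχ
    · exact (ho j hj).1
  have hD : y ∈ (slt B₀ B₁ Z ⟨p, hp⟩).D := by
    by_contra h
    exact hχ ((slt B₀ B₁ Z ⟨p, hp⟩).supp y h)
  rcases p with ⟨g, k⟩ | ⟨g, k⟩
  · have hk : k < (B₀ g).N := hp.1
    have hpy' : |y (B₀ g).j - (B₀ g).a k| < 2 * c₀ g := hpy
    have hyK : y ∈ (thin (B₀ g) (c₀ g) (h00 g) (h01 g)).K :=
      mem_K_of_level (thin (B₀ g) (c₀ g) (h00 g) (h01 g)) hk hpy'.le hD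
    have e0 : κ₀ y = (slotOf (B₀ g) k).map (2 * c₀ g) (c₀ g) y := by
      rw [q₀.on g y hyK]
      exact Q_eq_map (thin (B₀ g) (c₀ g) (h00 g) (h01 g)) hk hpy'.le
    show κ₁ (κ₀ y) = (slotOf (B₀ g) k).map (2 * c₀ g) (c₀ g) y
    rw [← e0]
    refine eq_one_of_off q₁ fun g' hg' k' hk' => ?_
    have h2 := (ho ⟨.inr (g', k'), hk', a2 g' hg'⟩ (fun h => by
      have h' := congrArg Subtype.val h
      exact Sum.inr_ne_inl h')).2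
    have h3 : (slt B₀ B₁ Z ⟨.inl (g, k), hp⟩).map (2 * thk c₀ c₁ (.inl (g, k)))
        (thk c₀ c₁ (.inl (g, k))) y = κ₀ y := e0.symm
    rw [h3] at h2
    exact h2
  · have hk : k < (B₁ g).N := hp.1
    have hpy' : |y (B₁ g).j - (B₁ g).a k| < 2 * c₁ g := hpy
    have hyK : y ∈ (thin (B₁ g) (c₁ g) (h10 g) (h11 g)).K :=
      mem_K_of_level (thin (B₁ g) (c₁ g) (h10 g) (h11 g)) hk hpy'.le hD
    have e0 : κ₀ y = y := eq_one_of_off q₀ fun g' hg' k' hk' =>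
      (ho ⟨.inl (g', k'), hk', a1 g' hg'⟩ (fun h => by
        have h' := congrArg Subtype.val h
        exact Sum.inl_ne_inr h')).1
    show κ₁ (κ₀ y) = (slotOf (B₁ g) k).map (2 * c₁ g) (c₁ g) y
    rw [e0, q₁.on g y hyK]
    exact Q_eq_map (thin (B₁ g) (c₁ g) (h10 g) (h11 g)) hk hpy'.le

end

/-- **the lift of an arc** -/
theorem exists_lift {Ω : Set (Fin 3 → ℝ)} {κ : (Fin 3 → ℝ) → Fin 3 → ℝ} {h g : ConHomeo Ω Λ}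
    {a b : Fin 3 → ℝ} (hab : a ≠ b)
    (hs : segment ℝ a b ⊆ Ω) (hκ : ContinuousOn κ Λ)
    (himg : g.toFun '' segment ℝ a b = H579.Pre κ Λ h (segment ℝ a b))
    (ha : κ (g.toFun a) = h.toFun a) (hb : κ (g.toFun b) = h.toFun b)
    (hfib : ∀ x ∈ segment ℝ a b, IsPreconnected {y | y ∈ Λ ∧ κ y = h.toFun x}) :
    ∃ γ : ℝ → ℝ, Lift κ (Croft.onS h.toFun a b) (Croft.onS g.toFun a b) γ := by
  obtain ⟨γ, h1, h2, h3, h4⟩ := H581.exists_par hab hs hκ himg ha hb hfib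
  have hc : ContinuousOn (Croft.onS g.toFun a b) (Icc 0 1) := by
    refine g.cont.comp (f := fun t : ℝ => a + t • (b - a)) (by fun_prop) ?_
    intro t ht
    exact hs (Croft.onS_mem ht)
  have hinj : ∀ f : ConHomeo Ω Λ, InjOn (Croft.onS f.toFun a b) (Icc 0 1) := by
    intro f s hs' t ht hst
    have h1 := f.injOn (hs (Croft.onS_mem hs')) (hs (Croft.onS_mem ht)) hst
    have h2 : (s - t) • (b - a) = 0 := by
      have := add_left_cancel h1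
      rw [sub_smul, this, sub_self]
    rcases smul_eq_zero.1 h2 with h3 | h3
    · linarith
    · exact absurd (sub_eq_zero.1 h3).symm hab
  have i0 : (0:ℝ) ∈ Icc (0:ℝ) 1 := ⟨le_refl _, zero_le_one⟩
  have i1 : (1:ℝ) ∈ Icc (0:ℝ) 1 := ⟨zero_le_one, le_refl _⟩
  have e0 : ∀ f : (Fin 3 → ℝ) → Fin 3 → ℝ, Croft.onS f a b 0 = f a := fun f => by
    show f (a + (0:ℝ) • (b - a)) = f a
    rw [zero_smul, add_zero]
  have e1 : ∀ f : (Fin 3 → ℝ) → Fin 3 → ℝ, Croft.onS f a b 1 = f b := fun f => by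
    show f (a + (1:ℝ) • (b - a)) = f b
    rw [one_smul, add_sub_cancel]
  refine ⟨γ, hc, hinj g, h1, h2, h3, ?_, ?_, h4⟩
  · refine hinj h (h3 i0) i0 ?_
    rw [← h4 0 i0, e0, e0, ha]
  · refine hinj h (h3 i1) i1 ?_
    rw [← h4 1 i1, e1, e1, hb]

end Vale.Agent.P073.H190.Tvp
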