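import Vale.Agent.P073.H190.TvpI
import Vale.Agent.P073.H345.PBox
import Vale.Agent.P073.H236.Stage3b
import Vale.Agent.P073.H142.PS3

/-!
# P073, H190, [TVP] (J): the staircases of ROUND P, local inequalities
-/

open Set Metric Filter Topology
open scoped NNReal ENNReal

namespace Vale.Agent.P073.H190.Tvp

open _root_.P073 _root_.P073.H345 _root_.P073.H236 _root_.P073.PA691
open Vale.Agent.P073.St (V)
open Vale.Agent.P073.H471 Vale.Agent.P073.H267

/-! ### one variable -/

theorem abs_max_sub_le (a b a' b' : ℝ) : |max a b - max a' b'| ≤ max |a - a'| |b - b'| :=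
  abs_max_sub_max_le_max a b a' b'

theorem abs_cl_sub_le3 (k : ℝ → ℝ) (m m' t t' : ℝ) :
    |cl k m t - cl k m' t'| ≤ |k t - k t'| + |t - t'| + |m - m'| := by
  unfold cl
  have h1 := abs_max_sub_max_le_max (t - m) (min (t + m) (k t)) (t' - m') (min (t' + m') (k t'))
  have h2 := abs_min_sub_min_le_max (t + m) (k t) (t' + m') (k t')
  have h3 : |t - m - (t' - m')| ≤ |t - t'| + |m - m'| := by
    have e : t - m - (t' - m') = (t - t') - (m - m') := by ring
    rw [e]; exact abs_sub _ _
  have h4 : |t + m - (t' + m')| ≤ |t - t'| + |m - m'| := by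
    have e : t + m - (t' + m') = (t - t') + (m - m') := by ring
    rw [e]; exact abs_add_le _ _
  have h5 := abs_nonneg (k t - k t')
  have h6 := abs_nonneg (t - t')
  have h7 := abs_nonneg (m - m')
  refine h1.trans (max_le (by linarith) (h2.trans (max_le (by linarith) (by linarith))))

theorem abs_clamp_sub_le (l r s t : ℝ) : |H581.clamp l r s - H581.clamp l r t| ≤ |s - t| := by
  unfold H581.clamp
  have h1 := abs_max_sub_max_le_max l (min r s) l (min r t)
  have h2 := abs_min_sub_min_le_max r s r t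
  rw [sub_self, abs_zero] at h1 h2
  rw [max_eq_right (a := 0) (abs_nonneg (min r s - min r t))] at h1
  rw [max_eq_right (a := 0) (abs_nonneg (s - t))] at h2
  exact h1.trans h2

theorem abs_sub_clamp_le (l r s t : ℝ) :
    |(s - H581.clamp l r s) - (t - H581.clamp l r t)| ≤ |s - t| := by
  wlog hst : s ≤ t generalizing s t
  · rw [abs_sub_comm, abs_sub_comm s]
    exact this t s (not_le.1 hst).le
  have h1 := H581.clamp_mono l r hst
  have h2 := abs_clamp_sub_le l r s t
  rw [abs_sub_comm, abs_sub_comm s, abs_of_nonneg (sub_nonneg.2 h1),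
    abs_of_nonneg (sub_nonneg.2 hst)] at h2
  rw [abs_sub_comm s, abs_of_nonneg (sub_nonneg.2 hst), abs_le]
  constructor <;> linarith

theorem clamp_of_le {l r s : ℝ} (hlr : l ≤ r) (h : s ≤ l) : H581.clamp l r s = l := by
  unfold H581.clamp
  rw [min_eq_right (h.trans hlr), max_eq_left h]

theorem clamp_of_ge {l r s : ℝ} (hlr : l ≤ r) (h : r ≤ s) : H581.clamp l r s = r := by
  unfold H581.clamp
  rw [min_eq_left h, max_eq_right hlr]

theorem fl_clamp {c a l r : ℝ} (hc : 0 ≤ c) (hl : l ≤ a - c) (hr : a + c ≤ r) (t : ℝ) :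
    fl c a (H581.clamp l r t) = fl c a t := by
  have hlr : l ≤ r := by linarith
  rcases le_total t l with h | h
  · rw [clamp_of_le hlr h, fl_of_le hl, fl_of_le (h.trans hl)]
  rcases le_total r t with h' | h'
  · rw [clamp_of_ge hlr h', fl_of_ge hc hr, fl_of_ge hc (hr.trans h')]
  rw [H581.clamp_of_mem ⟨h, h'⟩]

section box

variable {n : ℕ} {ι : Type*} {Λ : Set (Fin n → ℝ)} (F : BFam n ι Λ) (b : ι)

/-- the window -/
noncomputable def wn (t : ℝ) : ℝ := H581.clamp (F.B b).al (F.B b).be t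

/-- the slope of the staircase on the flats -/
noncomputable def slA : ℝ := (F.om b - 2 * F.e b) / (2 * (F.B b).c)

theorem slA_nonneg : 0 ≤ slA F b := by
  have h1 := F.heo b
  have h2 := (F.B b).lvs.c0
  have h3 : 2 * F.e b < F.om b := h1
  unfold slA
  apply div_nonneg <;> linarith

theorem two_mul_slA : 2 * (F.B b).c * slA F b ≤ F.om b := by
  have h2 := (F.B b).lvs.c0
  have h3 := F.he b
  unfold slA
  rw [mul_div_cancel₀ _ (by positivity)]
  linarith

theorem σ_wn_sub (s t : ℝ) : |F.σ b (wn F b s) - F.σ b (wn F b t)| ≤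
    slA F b * ∑ k ∈ Finset.range (F.B b).N, |fl (F.B b).c ((F.B b).a k) s -
      fl (F.B b).c ((F.B b).a k) t| + F.e b / (F.B b).c * |wn F b s - wn F b t| := by
  have h := (F.B b).lvs
  have hab := (F.B b).al_lt_be.le
  have h1 := abs_sm_sub_le_win h (F.he b) (F.heo b) (H581.clamp_mem hab s) (H581.clamp_mem hab t)
  refine h1.trans (le_of_eq ?_)
  unfold slA wn
  congr 2
  refine Finset.sum_congr rfl fun k hk => ?_
  have hk' := Finset.mem_range.1 hk
  have h2 := h.first_le hk'
  have h3 := h.le_last hk'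
  have h4 := h.c0
  rw [fl_clamp h4.le (by linarith) (by linarith), fl_clamp h4.le (by linarith) (by linarith)]

theorem σ_eq_add (t : ℝ) : F.σ b t = F.σ b (wn F b t) + (t - wn F b t) := by
  have hab := (F.B b).al_lt_be.le
  unfold wn
  rcases le_total t (F.B b).al with h | h
  · rw [clamp_of_le hab h, F.σ_out (Or.inl h), F.σ_out (Or.inl le_rfl)]; ring
  rcases le_total (F.B b).be t with h' | h'
  · rw [clamp_of_ge hab h', F.σ_out (Or.inr h'), F.σ_out (Or.inr le_rfl)]; ring
  rw [H581.clamp_of_mem ⟨h, h'⟩]; ring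

theorem σ_sub (s t : ℝ) : |F.σ b s - F.σ b t| ≤
    slA F b * ∑ k ∈ Finset.range (F.B b).N, |fl (F.B b).c ((F.B b).a k) s -
      fl (F.B b).c ((F.B b).a k) t| + (F.e b / (F.B b).c + 1) * |s - t| := by
  have h1 := σ_wn_sub F b s t
  have h2 := abs_sub_clamp_le (F.B b).al (F.B b).be s t
  have h3 := abs_clamp_sub_le (F.B b).al (F.B b).be s t
  have h4 : 0 ≤ F.e b / (F.B b).c := div_nonneg (F.he b).le (F.B b).lvs.c0.le
  rw [σ_eq_add F b s, σ_eq_add F b t]
  have e : F.σ b (wn F b s) + (s - wn F b s) - (F.σ b (wn F b t) + (t - wn F b t)) =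
      (F.σ b (wn F b s) - F.σ b (wn F b t)) + ((s - wn F b s) - (t - wn F b t)) := by ring
  rw [e]
  refine (abs_add_le _ _).trans ?_
  have h5 : F.e b / (F.B b).c * |wn F b s - wn F b t| ≤ F.e b / (F.B b).c * |s - t| :=
    mul_le_mul_of_nonneg_left h3 h4
  unfold wn at *
  linarith

theorem cl_σ_mem {m t : ℝ} (hm : 0 ≤ m) (ht : t ∈ Icc (F.B b).al (F.B b).be) :
    cl (F.σ b) m t ∈ Icc (F.B b).al (F.B b).be := by
  have h1 := F.σ_win ht
  have h2 := cl_mem_uIcc (k := F.σ b) (t := t) hm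
  rcases le_total t (F.σ b t) with h | h
  · rw [uIcc_of_le h] at h2
    exact ⟨ht.1.trans h2.1, h2.2.trans h1.2⟩
  · rw [uIcc_of_ge h] at h2
    exact ⟨h1.1.trans h2.1, h2.2.trans ht.2⟩

/-- the window commutes with the clipped staircase -/
theorem wn_cl {m : ℝ} (hm : 0 ≤ m) (t : ℝ) :
    wn F b (cl (F.σ b) m t) = cl (F.σ b) m (wn F b t) := by
  have hab := (F.B b).al_lt_be.le
  unfold wn
  rcases le_total t (F.B b).al with h | h
  · rw [cl_fix hm (F.σ_out (Or.inl h)), clamp_of_le hab h, cl_fix hm (F.σ_out (Or.inl le_rfl))]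
  rcases le_total (F.B b).be t with h' | h'
  · rw [cl_fix hm (F.σ_out (Or.inr h')), clamp_of_ge hab h', cl_fix hm (F.σ_out (Or.inr le_rfl))]
  · rw [H581.clamp_of_mem (cl_σ_mem F b hm ⟨h, h'⟩), H581.clamp_of_mem ⟨h, h'⟩]

end box

/-! ### the plates -/

variable {Λ : Set V} {v : V} {K : BoxCx Λ v} {S : Rad K} {W : Wid K S} {B : Boxes W} {G : Geo B}

/-- the staircases of ROUND P, for the squares in `S₀` (142's `PS3`) -/
abbrev PSS (L : PLev G) (S₀ : Set K.S) (F : Bool → BFam 3 S₀ Λ) (T : Bool → ConHomeo Λ Λ) :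
    Prop := _root_.P073.H142.PS3 L S₀ F T

namespace PSS

variable {L : PLev G} {S₀ : Set K.S} {F : Bool → BFam 3 S₀ Λ} {T : Bool → ConHomeo Λ Λ}

/-- the composition -/
def map (T : Bool → ConHomeo Λ Λ) (y : V) : V := (T true).toFun ((T false).toFun y)

/-- the fade -/
noncomputable def fd (F : Bool → BFam 3 S₀ Λ) (β : Bool) (s : S₀) (y : V) : ℝ :=
  bmp ((F β).B s).j ((F β).B s).lo ((F β).B s).hi ((F β).B s).r ((F β).D s) y

/-- `y` is in no plate except possibly that of `s` -/
def Only (G : Geo B) (S₀ : Set K.S) (s : S₀) (y : V) : Prop := ∀ s' : S₀, s' ≠ s → y ∉ PK G s'.1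

theorem j_eq (P : PSS L S₀ F T) (β : Bool) (s : S₀) : ((F β).B s).j = tg s.1 β := (P.B β s).j

theorem mem_PK (P : PSS L S₀ F T) {β : Bool} {s : S₀} {y : V} (h : y ∈ ((F β).B s).K) :
    y ∈ PK G s.1 := (PLev.mem_bxK.1 ((P.B β s).sub_K h)).1

theorem fd_nonneg (β : Bool) (s : S₀) (y : V) : 0 ≤ fd F β s y := bmp_nonneg ((F β).D0 s) y

/-- one family, coordinate along the levels -/
theorem one_tg (P : PSS L S₀ F T) {s : S₀} {y : V} (hy : Only G S₀ s y) (β : Bool) :
    (T β).toFun y (tg s.1 β) = cl ((F β).σ s) (fd F β s y) (y (tg s.1 β)) := by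
  by_cases h : y ∈ ((F β).B s).K
  · rw [(P.isS β).on s y h]
    have := H581.S_coord (F := F β) (b := s) y
    rw [P.j_eq] at this
    exact this
  · have h1 : ∀ s', y ∉ ((F β).B s').K := by
      intro s' hs'
      by_cases hss : s' = s
      · rw [hss] at hs'; exact h hs'
      · exact hy s' hss (P.mem_PK hs')
    rw [(P.isS β).off y h1]
    symm
    by_cases h2 : y ((F β).B s).j ≤ ((F β).B s).al ∨ ((F β).B s).be ≤ y ((F β).B s).j
    · rw [P.j_eq] at h2
      exact cl_fix (fd_nonneg _ _ _) ((F β).σ_out h2)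
    · push Not at h2
      have h3 : fd F β s y = 0 := by
        have h4 : y ∉ cyl ((F β).B s) := fun h4 => h (mem_K _ |>.2 ⟨⟨h2.1.le, h2.2.le⟩, h4⟩)
        simp only [cyl, mem_ofPred_eq, not_forall] at h4
        obtain ⟨i, hi, h5⟩ := h4
        refine bmp_zero ((F β).B s).hr hi ?_
        by_contra h6
        push Not at h6
        exact h5 ⟨h6.1.le, h6.2.le⟩
      rw [h3, cl_zero]

/-- one family, other coordinates -/
theorem one_ne (P : PSS L S₀ F T) {s : S₀} {y : V} (hy : Only G S₀ s y) {β : Bool} {i : Fin 3}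
    (hi : i ≠ tg s.1 β) : (T β).toFun y i = y i := by
  by_cases h : y ∈ ((F β).B s).K
  · rw [(P.isS β).on s y h]
    exact ((F β).B s).S_ne ((F β).tgt s) ((F β).D0 s) (by rw [P.j_eq]; exact hi) y
  · have h1 : ∀ s', y ∉ ((F β).B s').K := by
      intro s' hs'
      by_cases hss : s' = s
      · rw [hss] at hs'; exact h hs'
      · exact hy s' hss (P.mem_PK hs')
    rw [(P.isS β).off y h1]

theorem only_T (P : PSS L S₀ F T) {s : S₀} {y : V} (hy : Only G S₀ s y) (β : Bool) :
    Only G S₀ s ((T β).toFun y) := by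
  intro s' hss hs'
  by_cases h : ∃ s'', y ∈ ((F β).B s'').K
  · obtain ⟨s'', h1⟩ := h
    have h2 : (T β).toFun y ∈ ((F β).B s'').K := by
      rw [(P.isS β).on s'' y h1]
      exact ((F β).supp s'').maps h1
    have h3 := P.mem_PK h1
    have h4 := P.mem_PK h2
    have h5 : s' = s'' := Subtype.ext (PK_unique hs' h4)
    rw [← h5] at h3
    exact hy s' hss h3
  · push Not at h
    rw [(P.isS β).off y h] at hs'
    exact hy s' hss hs'

/-- the fade of the second family does not see the first family -/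
theorem fd_true (P : PSS L S₀ F T) {s : S₀} {y : V} (hy : Only G S₀ s y) :
    fd F true s ((T false).toFun y) = fd F true s y := by
  have hp := Geo.p_pos (G := G) s.1
  have hpa := Geo.p_a (G := G) s.1
  by_cases h : y ∈ ((F false).B s).K
  · have h2 : (T false).toFun y ∈ ((F false).B s).K := by
      rw [(P.isS false).on s y h]
      exact ((F false).supp s).maps h
    have w1 := (PLev.mem_bxK.1 ((P.B _ s).sub_K h)).2
    have w2 := (PLev.mem_bxK.1 ((P.B _ s).sub_K h2)).2
    unfold fd H236.bmp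
    congr 2
    refine Finset.inf'_congr _ rfl fun i _ => ?_
    unfold gi
    by_cases hi : i = ((F true).B s).j
    · rw [if_pos hi, if_pos hi]
    · rw [if_neg hi, if_neg hi]
      rw [P.j_eq] at hi
      by_cases hi' : i = tg s.1 false
      · have hr := ((F true).B s).hr i
        have e1 : ((F true).B s).lo i = K.slo s.1 i + 7 / 8 * G.p s.1 := by
          rw [(P.B true s).lo]
          show (if i = K.nrm s.1 then _ else _) = _
          rw [if_neg (by rw [hi']; exact tg_ne _ _)]
        have e2 : ((F true).B s).hi i = K.shi s.1 i - 7 / 8 * G.p s.1 := by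
          rw [(P.B true s).hi]
          show (if i = K.nrm s.1 then _ else _) = _
          rw [if_neg (by rw [hi']; exact tg_ne _ _)]
        have key : ∀ z : V, K.slo s.1 (tg s.1 false) + G.a s.1 ≤ z (tg s.1 false) ∧
            z (tg s.1 false) ≤ K.shi s.1 (tg s.1 false) - G.a s.1 →
            min 1 (min (1 + (z i - ((F true).B s).lo i) / ((F true).B s).r i)
              (1 + (((F true).B s).hi i - z i) / ((F true).B s).r i)) = 1 := by
          intro z hz
          rw [← hi'] at hz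
          refine min_eq_left (le_min ?_ ?_)
          · have : 0 ≤ (z i - ((F true).B s).lo i) / ((F true).B s).r i :=
              div_nonneg (by rw [e1]; linarith [hz.1]) hr.le
            linarith
          · have : 0 ≤ (((F true).B s).hi i - z i) / ((F true).B s).r i :=
              div_nonneg (by rw [e2]; linarith [hz.2]) hr.le
            linarith
        rw [key _ w2, key _ w1]
      · rw [P.one_ne hy hi']
  · have h1 : ∀ s', y ∉ ((F false).B s').K := by
      intro s' hs'
      by_cases hss : s' = s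
      · rw [hss] at hs'; exact h hs'
      · exact hy s' hss (P.mem_PK hs')
    rw [(P.isS false).off y h1]

/-- **the composition, tangential coordinates** -/
theorem map_tg (P : PSS L S₀ F T) {s : S₀} {y : V} (hy : Only G S₀ s y) (β : Bool) :
    map T y (tg s.1 β) = cl ((F β).σ s) (fd F β s y) (y (tg s.1 β)) := by
  have h1 := P.only_T hy false
  unfold map
  cases β
  · rw [P.one_ne h1 (by exact tg_ne_not s.1 false), P.one_tg hy]
  · rw [P.one_tg h1, P.fd_true hy, P.one_ne (β := false) hy (tg_ne_not s.1 true)]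

/-- the composition, normal coordinate -/
theorem map_nrm (P : PSS L S₀ F T) {s : S₀} {y : V} (hy : Only G S₀ s y) :
    map T y (K.nrm s.1) = y (K.nrm s.1) := by
  have h1 := P.only_T hy false
  unfold map
  rw [P.one_ne h1 (tg_ne _ _).symm, P.one_ne hy (tg_ne _ _).symm]

/-- off the plates -/
theorem map_off (P : PSS L S₀ F T) {y : V} (hy : ∀ s : S₀, y ∉ PK G s.1) : map T y = y := by
  have h1 : ∀ β s, y ∉ ((F β).B s).K := fun β s h => hy s (P.mem_PK h)
  unfold map
  rw [(P.isS false).off y (h1 false), (P.isS true).off y (h1 true)]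

/-- the fade is Lipschitz -/
theorem fd_sub_le (P : PSS L S₀ F T) (β : Bool) (s : S₀) (y y' : V) :
    |fd F β s y - fd F β s y'| ≤ 4 * (F β).D s / B.τ s.1 * ‖y - y'‖ := by
  have hτ := B.τ_pos s.1
  have hp := G.τ_p s.1
  refine (abs_bmp_sub_le ((F β).D0 s) (d := ‖y - y'‖) (δ := B.τ s.1 / 4) (by linarith)
    (fun l => ?_) (fun i _ => ?_) (norm_nonneg _)).trans (le_of_eq ?_)
  · refine le_trans ?_ ((P.B β s).r2 l)
    show _ ≤ (if l = K.nrm s.1 then B.τ s.1 / 2 else G.p s.1 / 8) / 2
    split_ifs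
    · linarith
    · linarith
  · rw [← Pi.sub_apply, ← Real.norm_eq_abs]
    exact norm_le_pi_norm _ i
  · field_simp

/-- **in the full zone, in the window** -/
theorem win_full (P : PSS L S₀ F T) {s : S₀} {y y' : V} (hy : Only G S₀ s y)
    (hy' : Only G S₀ s y') (β : Bool) (hf : ((F β).B s).Full y) (hf' : ((F β).B s).Full y') :
    |wn (F β) s (map T y (tg s.1 β)) - wn (F β) s (map T y' (tg s.1 β))| ≤
      slA (F β) s * ∑ k ∈ Finset.range ((F β).B s).N, |fl ((F β).B s).c (((F β).B s).a k)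
        (y (tg s.1 β)) - fl ((F β).B s).c (((F β).B s).a k) (y' (tg s.1 β))| +
      (F β).e s / ((F β).B s).c * |y (tg s.1 β) - y' (tg s.1 β)| := by
  rw [P.map_tg hy, P.map_tg hy', wn_cl _ _ (fd_nonneg _ _ _), wn_cl _ _ (fd_nonneg _ _ _)]
  have e1 : fd F β s y = (F β).D s := bmp_full ((F β).B s).hr hf
  have e2 : fd F β s y' = (F β).D s := bmp_full ((F β).B s).hr hf'
  rw [e1, e2, cl_eq (k := (F β).σ s) ((F β).hD s _), cl_eq (k := (F β).σ s) ((F β).hD s _)]
  refine (σ_wn_sub (F β) s _ _).trans (add_le_add le_rfl ?_)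
  exact mul_le_mul_of_nonneg_left (abs_clamp_sub_le _ _ _ _)
    (div_nonneg ((F β).he s).le ((F β).B s).lvs.c0.le)

/-- **in the full zone** -/
theorem abs_full (P : PSS L S₀ F T) {s : S₀} {y y' : V} (hy : Only G S₀ s y)
    (hy' : Only G S₀ s y') (β : Bool) (hf : ((F β).B s).Full y) (hf' : ((F β).B s).Full y') :
    |map T y (tg s.1 β) - map T y' (tg s.1 β)| ≤
      slA (F β) s * ∑ k ∈ Finset.range ((F β).B s).N, |fl ((F β).B s).c (((F β).B s).a k)
        (y (tg s.1 β)) - fl ((F β).B s).c (((F β).B s).a k) (y' (tg s.1 β))| +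
      ((F β).e s / ((F β).B s).c + 1) * |y (tg s.1 β) - y' (tg s.1 β)| := by
  rw [P.map_tg hy, P.map_tg hy']
  have e1 : fd F β s y = (F β).D s := bmp_full ((F β).B s).hr hf
  have e2 : fd F β s y' = (F β).D s := bmp_full ((F β).B s).hr hf'
  rw [e1, e2, cl_eq (k := (F β).σ s) ((F β).hD s _), cl_eq (k := (F β).σ s) ((F β).hD s _)]
  exact σ_sub (F β) s _ _

/-- **in the window, with the fade** -/
theorem win_le (P : PSS L S₀ F T) {s : S₀} {y y' : V} (hy : Only G S₀ s y)
    (hy' : Only G S₀ s y') (β : Bool) :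
    |wn (F β) s (map T y (tg s.1 β)) - wn (F β) s (map T y' (tg s.1 β))| ≤
      slA (F β) s * ∑ k ∈ Finset.range ((F β).B s).N, |fl ((F β).B s).c (((F β).B s).a k)
        (y (tg s.1 β)) - fl ((F β).B s).c (((F β).B s).a k) (y' (tg s.1 β))| +
      ((F β).e s / ((F β).B s).c + 1) * |wn (F β) s (y (tg s.1 β)) - wn (F β) s (y' (tg s.1 β))| +
      4 * (F β).D s / B.τ s.1 * ‖y - y'‖ := by
  rw [P.map_tg hy, P.map_tg hy', wn_cl _ _ (fd_nonneg _ _ _), wn_cl _ _ (fd_nonneg _ _ _)]
  refine (abs_cl_sub_le3 _ _ _ _ _).trans ?_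
  have h1 := σ_wn_sub (F β) s (y (tg s.1 β)) (y' (tg s.1 β))
  have h2 := P.fd_sub_le β s y y'
  linarith

/-- **with the fade** -/
theorem abs_le' (P : PSS L S₀ F T) {s : S₀} {y y' : V} (hy : Only G S₀ s y)
    (hy' : Only G S₀ s y') (β : Bool) :
    |map T y (tg s.1 β) - map T y' (tg s.1 β)| ≤
      slA (F β) s * ∑ k ∈ Finset.range ((F β).B s).N, |fl ((F β).B s).c (((F β).B s).a k)
        (y (tg s.1 β)) - fl ((F β).B s).c (((F β).B s).a k) (y' (tg s.1 β))| +
      ((F β).e s / ((F β).B s).c + 2) * |y (tg s.1 β) - y' (tg s.1 β)| +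
      4 * (F β).D s / B.τ s.1 * ‖y - y'‖ := by
  rw [P.map_tg hy, P.map_tg hy']
  refine (abs_cl_sub_le3 _ _ _ _ _).trans ?_
  have h1 := σ_sub (F β) s (y (tg s.1 β)) (y' (tg s.1 β))
  have h2 := P.fd_sub_le β s y y'
  linarith

end PSS

end Vale.Agent.P073.H190.Tvp
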