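import Vale.Agent.P073.H190.TvpJ
import Vale.Agent.P073.H880.RP0

/-!
# P073, H190, [TV-P] (K): one segment, ROUND P of `K3C`
-/

open Set Metric Filter Topology
open scoped NNReal ENNReal

namespace Vale.Agent.P073.H190.Tvp

open _root_.P073 _root_.P073.H345 _root_.P073.H236 _root_.P073.PA691
open Vale.Agent.P073.St (V)
open Vale.Agent.P073.H471 Vale.Agent.P073.H267
open _root_.P073.H880.RP (thinL)

variable {Ω Λ : Set V} {v : V} {K : BoxCx Λ v} {S : Rad K} {W : Wid K S} {B : Boxes W} {G : Geo B}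

/-! ### the plates are closed and locally finite -/

theorem isClosed_PK (s : K.S) : IsClosed (PK G s) := by
  have : PK G s = (⋂ j, ⋂ (_ : j ≠ K.nrm s), {y : V | K.slo s j + 3 / 4 * G.p s ≤ y j ∧
      y j ≤ K.shi s j - 3 / 4 * G.p s}) ∩ {y : V | |y (K.nrm s) - K.slo s (K.nrm s)| ≤
        3 / 2 * B.τ s} := by
    ext y; simp [PK]
  rw [this]
  refine (isClosed_iInter fun i => isClosed_iInter fun _ => ?_).inter ?_
  · exact (isClosed_le continuous_const (continuous_apply i)).inter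
      (isClosed_le (continuous_apply i) continuous_const)
  · exact isClosed_le (by fun_prop) continuous_const

theorem near_PK {z : V} (hz : z ∈ Λ) : ∀ᶠ y in 𝓝 z, ∀ s : K.S, y ∈ PK G s → z ∈ PK G s := by
  obtain ⟨U, hU, hfin⟩ := lf_ss W z hz
  have h1 : ∀ᶠ y in 𝓝 z, ∀ s ∈ {s | (W.ss s ∩ U).Nonempty}, y ∈ PK G s → z ∈ PK G s := by
    refine (eventually_all_finite hfin).2 fun s _ => ?_
    by_cases h : z ∈ PK G s
    · exact Eventually.of_forall fun _ _ => h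
    · filter_upwards [(isClosed_PK s).isOpen_compl.mem_nhds h] with y hy hy'
      exact absurd hy' hy
  filter_upwards [h1, hU] with y hy hyU s hs
  exact hy s ⟨y, PK_sub_ss s hs, hyU⟩ hs

section fam

variable {L : PLev G} {S₀ : Set K.S}

/-- the families of the boxes of the squares in `S₀` -/
theorem fam_sub (L : PLev G) (S₀ : Set K.S) (hΛ : IsOpen Λ) (β : Bool) :
    Fam Λ (fun s : S₀ => L.bx β s.1) where
  op := hΛ
  sub := fun s => (L.fam hΛ β).sub s.1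
  dis := fun s s' hne y hy hy' => (L.fam hΛ β).dis s.1 s'.1 (fun h => hne (Subtype.ext h)) y hy hy'
  lf := fun z hz => by
    obtain ⟨U, hU, h⟩ := (L.fam hΛ β).lf z hz
    refine ⟨U, hU, ?_⟩
    have : {g : S₀ | ((L.bx β g.1).K ∩ U).Nonempty} =
        Subtype.val ⁻¹' {g | ((L.bx β g).K ∩ U).Nonempty} := rfl
    rw [this]
    exact h.preimage Subtype.val_injective.injOn

theorem mem_PK_iff' {β : Bool} {κ : V → V} (hκ : IsQ (fun s : S₀ => L.bx β s.1) κ) {s : K.S}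
    {y : V} : κ y ∈ PK G s ↔ y ∈ PK G s := by
  by_cases h : ∃ s' : S₀, y ∈ (L.bx β s'.1).K
  · obtain ⟨s', hs'⟩ := h
    have h1 := hκ.mapsK (g := s') hs'
    constructor
    · intro h2
      rw [PK_unique h2 (PLev.mem_bxK.1 h1).1]; exact (PLev.mem_bxK.1 hs').1
    · intro h2
      rw [PK_unique h2 (PLev.mem_bxK.1 hs').1]; exact (PLev.mem_bxK.1 h1).1
  · push Not at h
    rw [hκ.off y h]

theorem κ_ne' {β : Bool} {κ : V → V} (hκ : IsQ (fun s : S₀ => L.bx β s.1) κ) {s : K.S} {y : V}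
    (hy : y ∈ PK G s) {i : Fin 3} (hi : i ≠ tg s β) : κ y i = y i := by
  by_cases h : ∃ s' : S₀, y ∈ (L.bx β s'.1).K
  · obtain ⟨s', hs'⟩ := h
    have h1 := PK_unique (PLev.mem_bxK.1 hs').1 hy
    subst h1
    rw [hκ.on _ y hs']
    exact (L.bx β s'.1).Q_ne hi y
  · push Not at h
    rw [hκ.off y h]

/-- the coordinate along the levels: in the window, or fixed -/
theorem κ_win {β : Bool} {κ : V → V} (hκ : IsQ (fun s : S₀ => L.bx β s.1) κ) {s : K.S} {y : V}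
    (hy : y ∈ PK G s) : ((K.slo s (tg s β) + G.a s ≤ y (tg s β) ∧
      y (tg s β) ≤ K.shi s (tg s β) - G.a s) ∧ (K.slo s (tg s β) + G.a s ≤ κ y (tg s β) ∧
      κ y (tg s β) ≤ K.shi s (tg s β) - G.a s)) ∨ κ y = y := by
  by_cases h : ∃ s' : S₀, y ∈ (L.bx β s'.1).K
  · obtain ⟨s', hs'⟩ := h
    have h1 := PK_unique (PLev.mem_bxK.1 hs').1 hy
    subst h1
    exact Or.inl ⟨(PLev.mem_bxK.1 hs').2, (PLev.mem_bxK.1 (hκ.mapsK (g := s') hs')).2⟩
  · push Not at h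
    exact Or.inr (hκ.off y h)

/-- the full zone is respected by one family -/
theorem PB_iff {β : Bool} {κ : V → V} (hκ : IsQ (fun s : S₀ => L.bx β s.1) κ) {s : K.S} {y : V} :
    κ y ∈ G.PB (7 / 8) s ↔ y ∈ G.PB (7 / 8) s := by
  have hp := Geo.p_pos (G := G) s
  have hpa := Geo.p_a (G := G) s
  by_cases hy : y ∈ PK G s
  swap
  · constructor
    · intro h
      exact absurd ((mem_PK_iff' hκ).1 (PB_sub_PK (by norm_num) s h)) hy
    · intro h
      exact absurd (PB_sub_PK (by norm_num) s h) hy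
  rw [Geo.mem_PB, Geo.mem_PB, κ_ne' hκ hy (tg_ne s β).symm]
  refine and_congr_left fun _ => forall_congr' fun k => imp_congr_right fun hk => ?_
  by_cases hkb : k = tg s β
  · subst hkb
    rcases κ_win hκ hy with ⟨h1, h2⟩ | h1
    · exact iff_of_true ⟨by linarith [h2.1], by linarith [h2.2]⟩
        ⟨by linarith [h1.1], by linarith [h1.2]⟩
    · rw [h1]
  · rw [κ_ne' hκ hy hkb]

end fam

/-- slots of the plates -/
abbrev SK (S₀ : Set K.S) : Type _ := Σ _ : Bool, S₀ × ℕ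

/-- the slot of the level `k` of the square `s`, direction `β` -/
noncomputable def slK (L : PLev G) (S₀ : Set K.S) (p : SK S₀) : Slot 3 :=
  slotOf (L.bx p.1 p.2.1.1) p.2.2

/-- **the data of a lifted arc** in ROUND P: `Z` the arc before the insertion, `Y` after, `q` the
arc before the exchange, `U s` the boxes of the exchange -/
structure ArcP (L : PLev G) (S₀ : Set K.S) (c : K.S → Bool → ℝ) (h0 : ∀ s β, 0 < c s β)
    (h1 : ∀ s β, c s β ≤ L.c s β) (F : Bool → BFam 3 S₀ Λ) (T : Bool → ConHomeo Λ Λ)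
    (κ : Bool → V → V) (U : S₀ → Set V) (Z q Y : ℝ → V) (γ : ℝ → ℝ) (c₁ : ℝ) : Prop where
  ps : PSS (thinL L c h0 h1) S₀ F T
  isQ : ∀ β, IsQ (fun s : S₀ => (thinL L c h0 h1).bx β s.1) (κ β)
  lift : Lift (fun y => κ true (κ false y)) Z Y γ
  YΛ : MapsTo Y (Icc 0 1) Λ
  Zc : ContinuousOn Z (Icc 0 1)
  /-- the active slots -/
  zones : ∀ β (s : S₀), ((L.bx β s.1).K ∩ Z '' Icc 0 1).Nonempty → ∀ k < L.N s.1 β,
    ∃ s₁ s₂, Zones (slotOf (L.bx β s.1) k) Z Y c₁ s₁ s₂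
  fin : ∀ β (s : S₀), ((L.bx β s.1).K ∩ Z '' Icc 0 1).Nonempty → ∀ k < L.N s.1 β,
    (crs (slotOf (L.bx β s.1) k) Z).Finite
  thin : ∀ β (s : S₀), ((L.bx β s.1).K ∩ Z '' Icc 0 1).Nonempty → c s.1 β < c₁
  pos : 0 < c₁
  act : ∀ β (s : S₀), ∀ t ∈ Icc (0:ℝ) 1, Y t ∈ (L.bx β s.1).K →
    ((L.bx β s.1).K ∩ Z '' Icc 0 1).Nonempty
  facts : {p : Bool × S₀ | ((L.bx p.1 p.2.1).K ∩ Z '' Icc 0 1).Nonempty}.Finite
  full : ∀ s, U s ⊆ interior (G.PB (7 / 8) s.1)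
  fade : ∀ t ∈ Icc (0:ℝ) 1, (∀ s, Z t ∉ U s) → ∀ᶠ t' in 𝓝[Icc 0 1] t, Z t' = q t'

namespace ArcP

variable {L : PLev G} {S₀ : Set K.S} {c : K.S → Bool → ℝ} {h0 : ∀ s β, 0 < c s β}
    {h1 : ∀ s β, c s β ≤ L.c s β} {F : Bool → BFam 3 S₀ Λ} {T : Bool → ConHomeo Λ Λ}
    {κ : Bool → V → V} {U : S₀ → Set V} {Z q Y : ℝ → V} {γ : ℝ → ℝ} {c₁ : ℝ}

/-- the active slots -/
noncomputable def tact (A : ArcP L S₀ c h0 h1 F T κ U Z q Y γ c₁) : Finset (SK S₀) :=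
  by classical exact (A.facts.toFinset.biUnion fun p => (Finset.range (L.N p.2.1 p.1)).image
    fun k => (⟨p.1, (p.2, k)⟩ : SK S₀))

theorem mem_tact (A : ArcP L S₀ c h0 h1 F T κ U Z q Y γ c₁) {p : SK S₀} : p ∈ A.tact ↔
    ((L.bx p.1 p.2.1.1).K ∩ Z '' Icc 0 1).Nonempty ∧ p.2.2 < L.N p.2.1.1 p.1 := by
  classical
  unfold tact
  simp only [Finset.mem_biUnion, Finite.mem_toFinset, mem_ofPred_eq, Finset.mem_image,
    Finset.mem_range, Prod.exists]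
  constructor
  · rintro ⟨β, s, h2, k, hk, rfl⟩
    exact ⟨h2, hk⟩
  · rintro ⟨h2, h3⟩
    obtain ⟨β, s, k⟩ := p
    exact ⟨β, s, h2, k, h3, rfl⟩

/-- the curve after the staircases -/
noncomputable def H (T : Bool → ConHomeo Λ Λ) (Y : ℝ → V) (t : ℝ) : V := PSS.map T (Y t)

/-- the flats at `t` -/
noncomputable def flt (F : Bool → BFam 3 S₀ Λ) (Y : ℝ → V) (β : Bool) (s : S₀) (t t' : ℝ) : ℝ :=
  slA (F β) s * ∑ k ∈ Finset.range ((F β).B s).N, |fl ((F β).B s).c (((F β).B s).a k)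
        (Y t (tg s.1 β)) - fl ((F β).B s).c (((F β).B s).a k) (Y t' (tg s.1 β))|

variable (A : ArcP L S₀ c h0 h1 F T κ U Z q Y γ c₁)
include A

theorem mem_PK {t : ℝ} (ht : t ∈ Icc (0:ℝ) 1) (s : K.S) : Z (γ t) ∈ PK G s ↔ Y t ∈ PK G s := by
  rw [← A.lift.eq t ht, mem_PK_iff' (A.isQ true), mem_PK_iff' (A.isQ false)]

theorem mem_PB {t : ℝ} (ht : t ∈ Icc (0:ℝ) 1) (s : K.S) :
    Z (γ t) ∈ G.PB (7 / 8) s ↔ Y t ∈ G.PB (7 / 8) s := by
  rw [← A.lift.eq t ht, PB_iff (A.isQ true), PB_iff (A.isQ false)]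

/-- near `t` only one plate -/
theorem only {t : ℝ} (ht : t ∈ Icc (0:ℝ) 1) {s : S₀} (hs : Y t ∈ PK G s.1) :
    ∀ᶠ t' in 𝓝[Icc 0 1] t, PSS.Only G S₀ s (Y t') := by
  have h2 := (A.lift.cY t ht).eventually (near_PK (G := G) (A.YΛ ht))
  filter_upwards [h2] with t' h3 s' hss hs'
  exact hss (Subtype.ext (PK_unique (h3 s'.1 hs') hs))

/-- near `t` no plate -/
theorem none {t : ℝ} (ht : t ∈ Icc (0:ℝ) 1) (hs : ∀ s : S₀, Y t ∉ PK G s.1) :
    ∀ᶠ t' in 𝓝[Icc 0 1] t, ∀ s : S₀, Y t' ∉ PK G s.1 := by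
  have h2 := (A.lift.cY t ht).eventually (near_PK (G := G) (A.YΛ ht))
  filter_upwards [h2] with t' h3 s hs'
  exact hs s (h3 s.1 hs')

theorem j_eq (β : Bool) (s : S₀) : ((F β).B s).j = tg s.1 β := A.ps.j_eq β s

theorem K_sub {β : Bool} {s : S₀} {y : V} (h : y ∈ ((F β).B s).K) : y ∈ (L.bx β s.1).K :=
  (A.ps.B β s).sub_K h

/-- **the tangential displacement is seen through the window** -/
theorem wn_eq {t : ℝ} (ht : t ∈ Icc (0:ℝ) 1) {s : S₀} (hs : Y t ∈ PK G s.1) (β : Bool) :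
    wn (F β) s (Y t (tg s.1 β)) = wn (F β) s (Z (γ t) (tg s.1 β)) +
      (Y t (tg s.1 β) - Z (γ t) (tg s.1 β)) := by
  have hal : ((F β).B s).al = K.slo s.1 (tg s.1 β) + G.a s.1 := (A.ps.B β s).al
  have hbe : ((F β).B s).be = K.shi s.1 (tg s.1 β) - G.a s.1 := (A.ps.B β s).be
  have hcl : ∀ x, K.slo s.1 (tg s.1 β) + G.a s.1 ≤ x ∧ x ≤ K.shi s.1 (tg s.1 β) - G.a s.1 →
      wn (F β) s x = x := by
    intro x hx
    unfold wn
    rw [hal, hbe]
    exact H581.clamp_of_mem hx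
  have hs' : κ false (Y t) ∈ PK G s.1 := (mem_PK_iff' (A.isQ false)).2 hs
  rw [← A.lift.eq t ht]
  show wn (F β) s (Y t (tg s.1 β)) = wn (F β) s (κ true (κ false (Y t)) (tg s.1 β)) +
      (Y t (tg s.1 β) - κ true (κ false (Y t)) (tg s.1 β))
  cases β
  · rw [κ_ne' (A.isQ true) hs' (tg_ne_not s.1 false)]
    rcases κ_win (A.isQ false) hs with ⟨h2, h3⟩ | h2
    · rw [hcl _ h2, hcl _ h3]; ring
    · rw [h2]; ring
  · have e : κ false (Y t) (tg s.1 true) = Y t (tg s.1 true) :=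
      κ_ne' (A.isQ false) hs (tg_ne_not s.1 true)
    rcases κ_win (A.isQ true) hs' with ⟨h2, h3⟩ | h2
    · rw [e] at h2
      rw [hcl _ h2, hcl _ h3]; ring
    · rw [h2, e]; ring

end ArcP

end Vale.Agent.P073.H190.Tvp
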