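import Vale.Agent.P073.H190.TvpK

/-!
# P073, H190, [TV-P] (L): the variation of a locally controlled function along a lifted arc
-/

open Set Metric Filter Topology
open scoped NNReal ENNReal

namespace Vale.Agent.P073.H190.Tvp

open _root_.P073 _root_.P073.H345 _root_.P073.H236 _root_.P073.PA691
open Vale.Agent.P073.St (V)
open Vale.Agent.P073.H471 Vale.Agent.P073.H267
open Vale.Agent.P073.H805 (t1 t2)
open _root_.P073.H880.RP (thinL)

variable {Ω Λ : Set V} {v : V} {K : BoxCx Λ v} {S : Rad K} {W : Wid K S} {B : Boxes W} {G : Geo B}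

theorem sum_nt (n : Fin 3) (g : Fin 3 → ℝ) : ∑ l, g l = g n + g (t1 n) + g (t2 n) := by
  fin_cases n <;> simp [t1, t2, Fin.sum_univ_three] <;> ring

theorem sum_tg (s : K.S) (g : Fin 3 → ℝ) :
    ∑ l, g l = g (K.nrm s) + g (tg s false) + g (tg s true) := sum_nt _ _

theorem norm_le_sum (y : V) : ‖y‖ ≤ ∑ l, |y l| := by
  rw [pi_norm_le_iff_of_nonneg (Finset.sum_nonneg fun _ _ => abs_nonneg _)]
  intro l
  rw [Real.norm_eq_abs]
  exact Finset.single_le_sum (f := fun l => |y l|) (fun _ _ => abs_nonneg _) (Finset.mem_univ l)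

namespace PSS

variable {L : PLev G} {S₀ : Set K.S} {F : Bool → BFam 3 S₀ Λ} {T : Bool → ConHomeo Λ Λ}

theorem map_tg_off (P : PSS L S₀ F T) {s : S₀} {y : V} (hy : Only G S₀ s y) {β : Bool}
    (h : y ∉ ((F β).B s).K) : map T y (tg s.1 β) = y (tg s.1 β) := by
  have h1 : ∀ s', y ∉ ((F β).B s').K := by
    intro s' hs'
    by_cases hss : s' = s
    · rw [hss] at hs'; exact h hs'
    · exact hy s' hss (P.mem_PK hs')
  rw [P.map_tg hy, ← P.one_tg hy, (P.isS β).off y h1]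

end PSS

namespace ArcP

variable {L : PLev G} {S₀ : Set K.S} {c : K.S → Bool → ℝ} {h0 : ∀ s β, 0 < c s β}
    {h1 : ∀ s β, c s β ≤ L.c s β} {F : Bool → BFam 3 S₀ Λ} {T : Bool → ConHomeo Λ Λ}
    {κ : Bool → V → V} {U : S₀ → Set V} {Z q Y : ℝ → V} {γ : ℝ → ℝ} {c₁ : ℝ}

/-- the flats of the active boxes at `t` -/
noncomputable def fS (F : Bool → BFam 3 S₀ Λ) (Y : ℝ → V) (s : S₀) (t t' : ℝ) (β : Bool) : ℝ := by
  classical exact if Y t ∈ ((F β).B s).K then flt F Y β s t t' else 0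

theorem flt_nonneg (β : Bool) (s : S₀) (t t' : ℝ) : 0 ≤ flt F Y β s t t' :=
  mul_nonneg (slA_nonneg _ _) (Finset.sum_nonneg fun _ _ => abs_nonneg _)

theorem fS_nonneg (s : S₀) (t t' : ℝ) (β : Bool) : 0 ≤ fS F Y s t t' β := by
  unfold fS
  split_ifs
  · exact flt_nonneg β s t t'
  · exact le_rfl

/-- the same, as a function of the coordinate -/
noncomputable def f3 (F : Bool → BFam 3 S₀ Λ) (Y : ℝ → V) (s : S₀) (t t' : ℝ) (l : Fin 3) : ℝ :=
  if l = K.nrm s.1 then 0 else fS F Y s t t' (bt s.1 l)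

theorem f3_nonneg (s : S₀) (t t' : ℝ) (l : Fin 3) : 0 ≤ f3 F Y s t t' l := by
  unfold f3
  split_ifs
  · exact le_rfl
  · exact fS_nonneg _ _ _ _

theorem f3_tg (s : S₀) (t t' : ℝ) (β : Bool) : f3 F Y s t t' (tg s.1 β) = fS F Y s t t' β := by
  unfold f3
  rw [if_neg (tg_ne _ _), bt_tg]

theorem sum_f3 (s : S₀) (t t' : ℝ) : ∑ l, f3 F Y s t t' l = ∑ β, fS F Y s t t' β := by
  rw [sum_tg s.1, f3_tg, f3_tg, Fintype.sum_bool]
  unfold f3
  rw [if_pos rfl]
  ring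

variable (A : ArcP L S₀ c h0 h1 F T κ U Z q Y γ c₁)
include A

/-- good pairs of parameters -/
theorem loc {t : ℝ} (ht : t ∈ Icc (0:ℝ) 1) {s : S₀} (hs : Y t ∈ PK G s.1) :
    ∀ᶠ t' in 𝓝[Icc 0 1] t, PSS.Only G S₀ s (Y t') ∧ ∀ β, Y t ∉ ((F β).B s).K →
      Y t' ∉ ((F β).B s).K := by
  have h2 : ∀ β, ∀ᶠ t' in 𝓝[Icc 0 1] t, Y t ∉ ((F β).B s).K → Y t' ∉ ((F β).B s).K := by
    intro β
    by_cases h : Y t ∈ ((F β).B s).K
    · exact Eventually.of_forall fun _ h' => absurd h h'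
    · filter_upwards [(A.lift.cY t ht).eventually
        (((F β).B s).isCompact_K.isClosed.isOpen_compl.mem_nhds h)] with t' h3 _
      exact h3
  filter_upwards [A.only ht hs, eventually_all.2 h2] with t' h3 h4
  exact ⟨h3, h4⟩

/-- **zone 2** -/
theorem z2 {t t' ϑ μ : ℝ} {s : S₀}
    (hϑ : ∀ β, (F β).e s / ((F β).B s).c ≤ ϑ) (hμ : ∀ β, 4 * (F β).D s / B.τ s.1 ≤ μ)
    (hμ0 : 0 ≤ μ) (ho : PSS.Only G S₀ s (Y t)) (ho' : PSS.Only G S₀ s (Y t'))
    (hK : ∀ β, Y t ∉ ((F β).B s).K → Y t' ∉ ((F β).B s).K) :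
    (∀ l, |H T Y t l - H T Y t' l| ≤
      f3 F Y s t t' l + (ϑ + 2) * |Y t l - Y t' l| + μ * ‖Y t - Y t'‖) ∧
    ∀ β, |wn (F β) s (H T Y t (tg s.1 β)) - wn (F β) s (H T Y t' (tg s.1 β))| ≤
      fS F Y s t t' β + (ϑ + 1) * |wn (F β) s (Y t (tg s.1 β)) - wn (F β) s (Y t' (tg s.1 β))| +
      μ * ‖Y t - Y t'‖ := by
  have hϑ0 : 0 ≤ ϑ := (div_nonneg ((F true).he s).le ((F true).B s).lvs.c0.le).trans (hϑ true)
  have hμn : ∀ β, 4 * (F β).D s / B.τ s.1 * ‖Y t - Y t'‖ ≤ μ * ‖Y t - Y t'‖ := fun β =>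
    mul_le_mul_of_nonneg_right (hμ β) (norm_nonneg _)
  have hμN : 0 ≤ μ * ‖Y t - Y t'‖ := mul_nonneg hμ0 (norm_nonneg _)
  constructor
  · intro l
    by_cases hl : l = K.nrm s.1
    · have e1 : H T Y t l = Y t l := by rw [hl]; exact A.ps.map_nrm ho
      have e2 : H T Y t' l = Y t' l := by rw [hl]; exact A.ps.map_nrm ho'
      rw [e1, e2]
      have h2 := f3_nonneg (F := F) (Y := Y) s t t' l
      nlinarith [abs_nonneg (Y t l - Y t' l)]
    · obtain ⟨β, rfl⟩ : ∃ β, l = tg s.1 β := ⟨bt s.1 l, (tg_bt s.1 hl).symm⟩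
      rw [f3_tg]
      unfold fS
      split_ifs with h
      · have h2 := A.ps.abs_le' ho ho' β
        have h3 := mul_le_mul_of_nonneg_right (hϑ β) (abs_nonneg (Y t (tg s.1 β) - Y t' (tg s.1 β)))
        have h4 := hμn β
        unfold H flt
        linarith
      · have e1 : H T Y t (tg s.1 β) = Y t (tg s.1 β) := A.ps.map_tg_off ho h
        have e2 : H T Y t' (tg s.1 β) = Y t' (tg s.1 β) := A.ps.map_tg_off ho' (hK β h)
        rw [e1, e2]
        nlinarith [abs_nonneg (Y t (tg s.1 β) - Y t' (tg s.1 β))]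
  · intro β
    unfold fS
    split_ifs with h
    · have h2 := A.ps.win_le ho ho' β
      have h3 := mul_le_mul_of_nonneg_right (hϑ β)
        (abs_nonneg (wn (F β) s (Y t (tg s.1 β)) - wn (F β) s (Y t' (tg s.1 β))))
      have h4 := hμn β
      unfold H flt
      linarith
    · have e1 : H T Y t (tg s.1 β) = Y t (tg s.1 β) := A.ps.map_tg_off ho h
      have e2 : H T Y t' (tg s.1 β) = Y t' (tg s.1 β) := A.ps.map_tg_off ho' (hK β h)
      rw [e1, e2]
      nlinarith [abs_nonneg (wn (F β) s (Y t (tg s.1 β)) - wn (F β) s (Y t' (tg s.1 β)))]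

/-- **zone 1** -/
theorem z1 {t t' ϑ : ℝ} {s : S₀}
    (hϑ : ∀ β, (F β).e s / ((F β).B s).c ≤ ϑ) (ho : PSS.Only G S₀ s (Y t))
    (ho' : PSS.Only G S₀ s (Y t'))
    (hK : ∀ β, Y t ∉ ((F β).B s).K → Y t' ∉ ((F β).B s).K)
    (hf : Y t ∈ G.PB (7 / 8) s.1) (hf' : Y t' ∈ G.PB (7 / 8) s.1)
    (hw : ∀ β, Y t ∉ ((F β).B s).K → wn (F β) s (Y t (tg s.1 β)) = wn (F β) s (Y t' (tg s.1 β))) :
    (∀ l, |H T Y t l - H T Y t' l| ≤ f3 F Y s t t' l + (ϑ + 1) * |Y t l - Y t' l|) ∧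
    ∀ β, |wn (F β) s (H T Y t (tg s.1 β)) - wn (F β) s (H T Y t' (tg s.1 β))| ≤
      fS F Y s t t' β + ϑ * |Y t (tg s.1 β) - Y t' (tg s.1 β)| := by
  have hϑ0 : 0 ≤ ϑ := (div_nonneg ((F true).he s).le ((F true).B s).lvs.c0.le).trans (hϑ true)
  have hfull : ∀ β, ∀ y ∈ G.PB (7 / 8) s.1, ((F β).B s).Full y := by
    intro β y hy
    exact (A.ps.B β s).full.2 (PLev.PB_full hy)
  constructor
  · intro l
    by_cases hl : l = K.nrm s.1
    · have e1 : H T Y t l = Y t l := by rw [hl]; exact A.ps.map_nrm ho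
      have e2 : H T Y t' l = Y t' l := by rw [hl]; exact A.ps.map_nrm ho'
      rw [e1, e2]
      have h2 := f3_nonneg (F := F) (Y := Y) s t t' l
      nlinarith [abs_nonneg (Y t l - Y t' l)]
    · obtain ⟨β, rfl⟩ : ∃ β, l = tg s.1 β := ⟨bt s.1 l, (tg_bt s.1 hl).symm⟩
      rw [f3_tg]
      unfold fS
      split_ifs with h
      · have h2 := A.ps.abs_full ho ho' β (hfull β _ hf) (hfull β _ hf')
        have h3 := mul_le_mul_of_nonneg_right (hϑ β) (abs_nonneg (Y t (tg s.1 β) - Y t' (tg s.1 β)))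
        unfold H flt
        linarith
      · have e1 : H T Y t (tg s.1 β) = Y t (tg s.1 β) := A.ps.map_tg_off ho h
        have e2 : H T Y t' (tg s.1 β) = Y t' (tg s.1 β) := A.ps.map_tg_off ho' (hK β h)
        rw [e1, e2]
        nlinarith [abs_nonneg (Y t (tg s.1 β) - Y t' (tg s.1 β))]
  · intro β
    unfold fS
    split_ifs with h
    · have h2 := A.ps.win_full ho ho' β (hfull β _ hf) (hfull β _ hf')
      have h3 := mul_le_mul_of_nonneg_right (hϑ β) (abs_nonneg (Y t (tg s.1 β) - Y t' (tg s.1 β)))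
      unfold H flt
      linarith
    · have e1 : H T Y t (tg s.1 β) = Y t (tg s.1 β) := A.ps.map_tg_off ho h
      have e2 : H T Y t' (tg s.1 β) = Y t' (tg s.1 β) := A.ps.map_tg_off ho' (hK β h)
      rw [e1, e2, hw β h, sub_self, abs_zero]
      nlinarith [abs_nonneg (Y t (tg s.1 β) - Y t' (tg s.1 β))]

/-- in the full zone and off the support: the window is constant -/
theorem wn_const {t : ℝ} (ht : t ∈ Icc (0:ℝ) 1) {s : S₀} (hf : Y t ∈ G.PB (7 / 8) s.1) (β : Bool)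
    (h : Y t ∉ ((F β).B s).K) : ∀ᶠ t' in 𝓝[Icc 0 1] t,
      wn (F β) s (Y t (tg s.1 β)) = wn (F β) s (Y t' (tg s.1 β)) := by
  have hab := ((F β).B s).al_lt_be.le
  have hfull : ((F β).B s).Full (Y t) := (A.ps.B β s).full.2 (PLev.PB_full hf)
  have hcyl : Y t ∈ cyl ((F β).B s) := fun i hi => by
    have h2 := hfull i hi
    have h3 := ((F β).B s).hr i
    exact ⟨by linarith [h2.1], by linarith [h2.2]⟩
  have hYl : ContinuousWithinAt (fun t' => Y t' (tg s.1 β)) (Icc 0 1) t :=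
    ((continuous_apply (tg s.1 β)).comp_continuousOn A.lift.cY) t ht
  have hout : Y t (tg s.1 β) < ((F β).B s).al ∨ ((F β).B s).be < Y t (tg s.1 β) := by
    by_contra hcon
    push Not at hcon
    exact h ((mem_K _).2 ⟨by rw [A.ps.j_eq]; exact ⟨hcon.1, hcon.2⟩, hcyl⟩)
  unfold wn
  rcases hout with h2 | h2
  · filter_upwards [hYl.eventually (eventually_lt_nhds h2)] with t' h3
    rw [clamp_of_le hab h2.le, clamp_of_le hab h3.le]
  · filter_upwards [hYl.eventually (eventually_gt_nhds h2)] with t' h3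
    rw [clamp_of_ge hab h2.le, clamp_of_ge hab h3.le]

end ArcP

end Vale.Agent.P073.H190.Tvp
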