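import Vale.Agent.P073.H190.TvpL

/-!
# P073, H190, [TV-P] (M): the variation of a locally controlled function along a lifted arc
-/

open Set Metric Filter Topology
open scoped NNReal ENNReal

namespace Vale.Agent.P073.H190.Tvp

open _root_.P073 _root_.P073.H345 _root_.P073.H236 _root_.P073.PA691
open Vale.Agent.P073.St (V)
open Vale.Agent.P073.H471 Vale.Agent.P073.H267
open Vale.Agent.P073.H805 (t1 t2)
open _root_.P073.H880.RP (thinL)

variable {Ω Λ : Set V} {v : V} {K : BoxCx Λ v} {S : Rad K} {W : Wid K S} {B : Boxes W} {G : Geo B}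

/-- the coordinate in the window of the levels -/
noncomputable def wP (G : Geo B) (s : K.S) (β : Bool) (t : ℝ) : ℝ :=
  H581.clamp (K.slo s (tg s β) + G.a s) (K.shi s (tg s β) - G.a s) t

/-- **local control of a function `g` on an arc**, at the parameter `t`: in the box of the exchange
by the positions in the windows (and a small multiple of everything); in a plate, off the boxes of
the exchange, also by the coordinates in `A`; everywhere also by the functions `f i` of the old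
arc, which control the old coordinates in `A` and in the windows, and by `e * |t - t'|` -/
def CtlAt (G : Geo B) {S₀ : Set K.S} (U : S₀ → Set V) (Z q : ℝ → V) (γ : ℝ → ℝ) (H : ℝ → V)
    (C C' ι e : ℝ) {J : Type*} (I : Finset J) (f : J → ℝ → ℝ) (g : ℝ → ℝ) (t : ℝ) : Prop :=
  (∃ s : S₀, Z (γ t) ∈ U s ∧ ∀ᶠ t' in 𝓝[Icc 0 1] t, |g t - g t'| ≤
    C * ∑ β, |wP G s.1 β (H t (tg s.1 β)) - wP G s.1 β (H t' (tg s.1 β))| +
      ι * ∑ l, |H t l - H t' l| + ∑ i ∈ I, |f i (γ t) - f i (γ t')| + e * |t - t'|) ∨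
  (∃ s : S₀, Z (γ t) ∈ PK G s.1 ∧ (∀ s', Z (γ t) ∉ U s') ∧ ∃ A : Finset (Fin 3),
    (∀ᶠ t' in 𝓝[Icc 0 1] t, |g t - g t'| ≤
      C * ∑ β, |wP G s.1 β (H t (tg s.1 β)) - wP G s.1 β (H t' (tg s.1 β))| +
        C' * ∑ l ∈ A, |H t l - H t' l| + ι * ∑ l, |H t l - H t' l| +
        ∑ i ∈ I, |f i (γ t) - f i (γ t')| + e * |t - t'|) ∧
    ∀ᶠ r in 𝓝[Icc 0 1] (γ t),
      (∀ β, |wP G s.1 β (q (γ t) (tg s.1 β)) - wP G s.1 β (q r (tg s.1 β))| ≤
        ∑ i ∈ I, |f i (γ t) - f i r|) ∧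
      ∀ l ∈ A, |q (γ t) l - q r l| ≤ ∑ i ∈ I, |f i (γ t) - f i r|) ∨
  ∀ᶠ t' in 𝓝[Icc 0 1] t, |g t - g t'| ≤ ∑ i ∈ I, |f i (γ t) - f i (γ t')| + e * |t - t'|

namespace ArcP

variable {L : PLev G} {S₀ : Set K.S} {c : K.S → Bool → ℝ} {h0 : ∀ s β, 0 < c s β}
    {h1 : ∀ s β, c s β ≤ L.c s β} {F : Bool → BFam 3 S₀ Λ} {T : Bool → ConHomeo Λ Λ}
    {κ : Bool → V → V} {U : S₀ → Set V} {Z q Y : ℝ → V} {γ : ℝ → ℝ} {c₁ : ℝ}
    (A : ArcP L S₀ c h0 h1 F T κ U Z q Y γ c₁)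
include A

theorem wn_eq_wP (β : Bool) (s : S₀) (t : ℝ) : wn (F β) s t = wP G s.1 β t := by
  unfold wn wP
  rw [(A.ps.B β s).al, (A.ps.B β s).be]; rfl

theorem flt_eq (β : Bool) (s : S₀) (t t' : ℝ) : flt F Y β s t t' =
    slA (F β) s * ∑ k ∈ Finset.range (L.N s.1 β), |fl (c s.1 β) (L.a s.1 β k)
      (Y t (tg s.1 β)) - fl (c s.1 β) (L.a s.1 β k) (Y t' (tg s.1 β))| := by
  unfold flt
  rw [(A.ps.B β s).N, (A.ps.B β s).a, (A.ps.B β s).c]
  rfl

/-- the slots of the active boxes at `t` -/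
noncomputable def tl (F : Bool → BFam 3 S₀ Λ) (L : PLev G) (Y : ℝ → V) (s : S₀) (t : ℝ) :
    Finset (SK S₀) := by
  classical exact (Finset.univ.filter fun β => Y t ∈ ((F β).B s).K).sigma fun β =>
    (Finset.range (L.N s.1 β)).map ⟨fun k => (s, k), fun _ _ h => (Prod.mk.inj h).2⟩

theorem mem_tl {s : S₀} {t : ℝ} {p : SK S₀} : p ∈ tl F L Y s t ↔
    Y t ∈ ((F p.1).B s).K ∧ p.2.1 = s ∧ p.2.2 < L.N s.1 p.1 := by
  classical
  obtain ⟨β, s', k⟩ := p
  unfold tl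
  rw [Finset.mem_sigma, Finset.mem_filter, Finset.mem_map]
  constructor
  · rintro ⟨⟨-, h2⟩, k', h3, h4⟩
    obtain ⟨h5, h6⟩ := Prod.mk.inj (show (s, k') = (s', k) from h4)
    refine ⟨h2, h5.symm, ?_⟩
    rw [← h6]
    exact Finset.mem_range.1 h3
  · rintro ⟨h2, h3, h4⟩
    refine ⟨⟨Finset.mem_univ _, h2⟩, k, Finset.mem_range.2 h4, ?_⟩
    show (s, k) = (s', k)
    rw [show s' = s from h3]

theorem tl_sub {s : S₀} {t : ℝ} (ht : t ∈ Icc (0:ℝ) 1) : tl F L Y s t ⊆ A.tact := by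
  intro p hp
  obtain ⟨h2, h3, h4⟩ := A.mem_tl.1 hp
  rw [A.mem_tact, h3]
  refine ⟨A.act p.1 s t ht ?_, h4⟩
  exact A.K_sub h2

/-- the sum over the flats -/
theorem sum_tl {s : S₀} (t t' w : ℝ) (hw : 0 ≤ w) : ∑ p ∈ tl F L Y s t,
    |w * slA (F p.1) p.2.1 * fl (c p.2.1.1 p.1) (slK L S₀ p).a (Y t (slK L S₀ p).i) -
      w * slA (F p.1) p.2.1 * fl (c p.2.1.1 p.1) (slK L S₀ p).a (Y t' (slK L S₀ p).i)| =
    w * ∑ β, fS F Y s t t' β := by
  classical
  unfold tl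
  rw [Finset.sum_sigma, Finset.sum_filter, Finset.mul_sum]
  refine Finset.sum_congr rfl fun β _ => ?_
  unfold fS
  split_ifs with h
  · rw [Finset.sum_map, A.flt_eq, ← mul_assoc, Finset.mul_sum]
    refine Finset.sum_congr rfl fun k _ => ?_
    simp only [Function.Embedding.coeFn_mk]
    rw [← mul_sub, abs_mul, abs_of_nonneg (mul_nonneg hw (slA_nonneg _ _))]
    rfl
  · rw [mul_zero]

/-- **the real inequality** -/
theorem real_le {ϑ μ C C' ι e : ℝ} (hC : 0 ≤ C) (hC' : 0 ≤ C') (hι : 0 ≤ ι) (hϑ1 : ϑ ≤ 1)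
    (hμ0 : 0 ≤ μ) {J : Type*} {I : Finset J} {f : J → ℝ → ℝ} {g : ℝ → ℝ} {t : ℝ}
    (ht : t ∈ Icc (0:ℝ) 1)
    (hϑ : ∀ s : S₀, Z (γ t) ∈ PK G s.1 → ∀ β, (F β).e s / ((F β).B s).c ≤ ϑ)
    (hμ : ∀ s : S₀, Z (γ t) ∈ PK G s.1 → ∀ β, 4 * (F β).D s / B.τ s.1 ≤ μ)
    (hg : CtlAt G U Z q γ (H T Y) C C' ι e I f g t) :
    (∃ s : S₀, ∀ᶠ t' in 𝓝[Icc 0 1] t, |g t - g t'| ≤
      (1 + 4 * C + 9 * C') * ∑ i ∈ I, |f i (γ t) - f i (γ t')| +
      (C * ϑ + 3 * ι) * ∑ l, |Y t l - Y t' l| +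
      (2 * C + 3 * C' + (2 * C + 3 * C' + 3 * ι) * μ) *
        ∑ l, |(Y t l - Z (γ t) l) - (Y t' l - Z (γ t') l)| +
      (2 * C + 3 * C' + 3 * ι) * μ * ∑ l, |q (γ t) l - q (γ t') l| +
      (C + C' + ι) * ∑ β, fS F Y s t t' β + e * |t - t'|) ∨
    ∀ᶠ t' in 𝓝[Icc 0 1] t, |g t - g t'| ≤
      ∑ i ∈ I, |f i (γ t) - f i (γ t')| + e * |t - t'| := by
  have hγt : Tendsto γ (𝓝[Icc 0 1] t) (𝓝[Icc 0 1] (γ t)) :=
    tendsto_nhdsWithin_of_tendsto_nhds_of_eventually_within _ (A.lift.cg t ht)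
      (eventually_nhdsWithin_of_forall fun t' ht' => A.lift.maps ht')
  have h0S : ∀ t', 0 ≤ ∑ i ∈ I, |f i (γ t) - f i (γ t')| := fun t' =>
    Finset.sum_nonneg fun _ _ => abs_nonneg _
  have h0Y : ∀ t', 0 ≤ ∑ l, |Y t l - Y t' l| := fun t' =>
    Finset.sum_nonneg fun _ _ => abs_nonneg _
  have h0d : ∀ t', 0 ≤ ∑ l, |(Y t l - Z (γ t) l) - (Y t' l - Z (γ t') l)| := fun t' =>
    Finset.sum_nonneg fun _ _ => abs_nonneg _
  have h0q : ∀ t', 0 ≤ ∑ l, |q (γ t) l - q (γ t') l| := fun t' =>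
    Finset.sum_nonneg fun _ _ => abs_nonneg _
  have h0f : ∀ (s : S₀) t', 0 ≤ ∑ β, fS F Y s t t' β := fun s t' =>
    Finset.sum_nonneg fun _ _ => fS_nonneg _ _ _ _
  rcases hg with ⟨s, hs, hg⟩ | ⟨s, hs, hsU, Al, hg, hq⟩ | hg
  · -- zone 1
    left
    have hPB : Z (γ t) ∈ G.PB (7 / 8) s.1 := interior_subset (A.full s hs)
    have hZK : Z (γ t) ∈ PK G s.1 := PB_sub_PK (by norm_num) s.1 hPB
    have hYK : Y t ∈ PK G s.1 := (A.mem_PK ht s.1).1 hZK
    have hYB : Y t ∈ G.PB (7 / 8) s.1 := (A.mem_PB ht s.1).1 hPB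
    have hϑ' := hϑ s hZK
    have hϑ0 : 0 ≤ ϑ := (div_nonneg ((F true).he s).le ((F true).B s).lvs.c0.le).trans (hϑ' true)
    have hnear : ∀ᶠ t' in 𝓝[Icc 0 1] t, Z (γ t') ∈ G.PB (7 / 8) s.1 := by
      have h2 := (A.Zc _ (A.lift.maps ht)).eventually (isOpen_interior.mem_nhds (A.full s hs))
      filter_upwards [hγt.eventually h2] with t' h3
      exact interior_subset h3
    have hwc : ∀ᶠ t' in 𝓝[Icc 0 1] t, ∀ β, Y t ∉ ((F β).B s).K →
        wn (F β) s (Y t (tg s.1 β)) = wn (F β) s (Y t' (tg s.1 β)) := by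
      refine eventually_all.2 fun β => ?_
      by_cases h : Y t ∈ ((F β).B s).K
      · exact Eventually.of_forall fun _ h' => absurd h h'
      · filter_upwards [A.wn_const ht hYB β h] with t' h3 _ using h3
    refine ⟨s, ?_⟩
    filter_upwards [hg, hnear, hwc, A.loc ht hYK, self_mem_nhdsWithin] with t' g1 g2 g3 g4 g5
    have hYB' : Y t' ∈ G.PB (7 / 8) s.1 := (A.mem_PB g5 s.1).1 g2
    have ho : PSS.Only G S₀ s (Y t) := (A.only ht hYK).self_of_nhdsWithin ht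
    obtain ⟨e1, e2⟩ := A.z1 hϑ' ho g4.1 g4.2 hYB hYB' g3
    have k1 : ∑ β, |wP G s.1 β (H T Y t (tg s.1 β)) - wP G s.1 β (H T Y t' (tg s.1 β))| ≤
        ∑ β, fS F Y s t t' β + ϑ * ∑ l, |Y t l - Y t' l| := by
      have h2 : ∑ β, |wP G s.1 β (H T Y t (tg s.1 β)) - wP G s.1 β (H T Y t' (tg s.1 β))| ≤
          ∑ β, (fS F Y s t t' β + ϑ * |Y t (tg s.1 β) - Y t' (tg s.1 β)|) := by
        refine Finset.sum_le_sum fun β _ => ?_
        rw [← A.wn_eq_wP, ← A.wn_eq_wP]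
        exact e2 β
      refine h2.trans ?_
      rw [Finset.sum_add_distrib, ← Finset.mul_sum]
      refine add_le_add le_rfl (mul_le_mul_of_nonneg_left ?_ hϑ0)
      rw [sum_tg s.1 (fun l => |Y t l - Y t' l|), Fintype.sum_bool]
      linarith [abs_nonneg (Y t (K.nrm s.1) - Y t' (K.nrm s.1))]
    have k2 : ∑ l, |H T Y t l - H T Y t' l| ≤
        ∑ β, fS F Y s t t' β + 2 * ∑ l, |Y t l - Y t' l| := by
      rw [← sum_f3, Finset.mul_sum, ← Finset.sum_add_distrib]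
      refine Finset.sum_le_sum fun l _ => (e1 l).trans (add_le_add le_rfl ?_)
      exact mul_le_mul_of_nonneg_right (by linarith) (abs_nonneg _)
    have k3 := mul_le_mul_of_nonneg_left k1 hC
    have k4 := mul_le_mul_of_nonneg_left k2 hι
    refine g1.trans ?_
    have m1 := mul_nonneg hC (h0S t')
    have m2 := mul_nonneg hC' (h0S t')
    have m3 := mul_nonneg hι (h0Y t')
    have m4 := mul_nonneg (by positivity : 0 ≤ 2 * C + 3 * C' + (2 * C + 3 * C' + 3 * ι) * μ)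
      (h0d t')
    have m5 := mul_nonneg (by positivity : 0 ≤ (2 * C + 3 * C' + 3 * ι) * μ) (h0q t')
    have m6 := mul_nonneg hC' (h0f s t')
    linarith
  · -- zone 2
    left
    have hYK : Y t ∈ PK G s.1 := (A.mem_PK ht s.1).1 hs
    have hϑ' := hϑ s hs
    have hμ' := hμ s hs
    have hϑ0 : 0 ≤ ϑ := (div_nonneg ((F true).he s).le ((F true).B s).lvs.c0.le).trans (hϑ' true)
    refine ⟨s, ?_⟩
    have hfade := hγt.eventually (A.fade _ (A.lift.maps ht) hsU)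
    have hZq : Z (γ t) = q (γ t) := hfade.self_of_nhdsWithin ht
    have hPKnear : ∀ᶠ t' in 𝓝[Icc 0 1] t, Y t' ∈ PK G s.1 ∨ Y t' = Z (γ t') := by
      have h2 := (A.lift.cY t ht).eventually (near_PK (G := G) (A.YΛ ht))
      filter_upwards [h2, self_mem_nhdsWithin] with t' h3 h4
      by_cases h5 : Y t' ∈ PK G s.1
      · exact Or.inl h5
      · right
        have h6 : ∀ s' : S₀, Y t' ∉ PK G s'.1 := by
          intro s' hs'
          have h7 := PK_unique (h3 s'.1 hs') hYK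
          rw [h7] at hs'
          exact h5 hs'
        have e3 : κ false (Y t') = Y t' := (A.isQ false).off _ fun s' hs' =>
          h6 s' (PLev.mem_bxK.1 hs').1
        have e4 : κ true (Y t') = Y t' := (A.isQ true).off _ fun s' hs' =>
          h6 s' (PLev.mem_bxK.1 hs').1
        have e5 := A.lift.eq t' h4
        rw [← e5]
        show Y t' = κ true (κ false (Y t'))
        rw [e3, e4]
    filter_upwards [hg, A.loc ht hYK, hfade, hγt.eventually hq, hPKnear, self_mem_nhdsWithin]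
      with t' g1 g2 g3 g4 g5 g6
    have ho : PSS.Only G S₀ s (Y t) := (A.only ht hYK).self_of_nhdsWithin ht
    obtain ⟨e1, e2⟩ := A.z2 hϑ' hμ' hμ0 ho g2.1 g2.2
    -- the coordinates
    have hY : ∀ l, |Y t l - Y t' l| ≤ |q (γ t) l - q (γ t') l| +
        |(Y t l - Z (γ t) l) - (Y t' l - Z (γ t') l)| := by
      intro l
      have e : Y t l - Y t' l = (q (γ t) l - q (γ t') l) +
          ((Y t l - Z (γ t) l) - (Y t' l - Z (γ t') l)) := by rw [hZq, g3]; ring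
      rw [e]
      exact abs_add_le _ _
    have hnorm : ‖Y t - Y t'‖ ≤ ∑ l, |q (γ t) l - q (γ t') l| +
        ∑ l, |(Y t l - Z (γ t) l) - (Y t' l - Z (γ t') l)| := by
      rw [← Finset.sum_add_distrib]
      exact (norm_le_sum _).trans (Finset.sum_le_sum fun l _ => hY l)
    have hwn : ∀ β, |wn (F β) s (Y t (tg s.1 β)) - wn (F β) s (Y t' (tg s.1 β))| ≤
        ∑ i ∈ I, |f i (γ t) - f i (γ t')| +
          |(Y t (tg s.1 β) - Z (γ t) (tg s.1 β)) - (Y t' (tg s.1 β) - Z (γ t') (tg s.1 β))| := by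
      intro β
      have b1 := A.wn_eq ht hYK β
      have b2 : wn (F β) s (Y t' (tg s.1 β)) = wn (F β) s (Z (γ t') (tg s.1 β)) +
          (Y t' (tg s.1 β) - Z (γ t') (tg s.1 β)) := by
        rcases g5 with g5 | g5
        · exact A.wn_eq g6 g5 β
        · rw [g5]; ring
      rw [b1, b2, hZq, g3, A.wn_eq_wP, A.wn_eq_wP]
      have e : wP G s.1 β (q (γ t) (tg s.1 β)) + (Y t (tg s.1 β) - q (γ t) (tg s.1 β)) -
          (wP G s.1 β (q (γ t') (tg s.1 β)) + (Y t' (tg s.1 β) - q (γ t') (tg s.1 β))) =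
          (wP G s.1 β (q (γ t) (tg s.1 β)) - wP G s.1 β (q (γ t') (tg s.1 β))) +
          ((Y t (tg s.1 β) - q (γ t) (tg s.1 β)) - (Y t' (tg s.1 β) - q (γ t') (tg s.1 β))) := by
        ring
      rw [e]
      exact (abs_add_le _ _).trans (add_le_add (g4.1 β) le_rfl)
    set Sf := ∑ i ∈ I, |f i (γ t) - f i (γ t')| with hSf
    set SY := ∑ l, |Y t l - Y t' l| with hSY
    set Sd := ∑ l, |(Y t l - Z (γ t) l) - (Y t' l - Z (γ t') l)| with hSd
    set Sq := ∑ l, |q (γ t) l - q (γ t') l| with hSq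
    set SF := ∑ β, fS F Y s t t' β with hSF
    have hSf0 : 0 ≤ Sf := h0S t'
    have hSY0 : 0 ≤ SY := h0Y t'
    have hSd0 : 0 ≤ Sd := h0d t'
    have hSq0 : 0 ≤ Sq := h0q t'
    have hSF0 : 0 ≤ SF := h0f s t'
    have hμN : μ * ‖Y t - Y t'‖ ≤ μ * (Sq + Sd) := mul_le_mul_of_nonneg_left hnorm hμ0
    have hdβ : ∑ β, |(Y t (tg s.1 β) - Z (γ t) (tg s.1 β)) -
        (Y t' (tg s.1 β) - Z (γ t') (tg s.1 β))| ≤ Sd := by
      rw [hSd, sum_tg s.1 (fun l => |(Y t l - Z (γ t) l) - (Y t' l - Z (γ t') l)|),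
        Fintype.sum_bool]
      linarith [abs_nonneg ((Y t (K.nrm s.1) - Z (γ t) (K.nrm s.1)) -
        (Y t' (K.nrm s.1) - Z (γ t') (K.nrm s.1)))]
    have k1 : ∑ β, |wP G s.1 β (H T Y t (tg s.1 β)) - wP G s.1 β (H T Y t' (tg s.1 β))| ≤
        SF + 4 * Sf + 2 * Sd + 2 * (μ * (Sq + Sd)) := by
      have h2 : ∑ β, |wP G s.1 β (H T Y t (tg s.1 β)) - wP G s.1 β (H T Y t' (tg s.1 β))| ≤
          ∑ β, (fS F Y s t t' β + 2 * (Sf + |(Y t (tg s.1 β) - Z (γ t) (tg s.1 β)) -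
            (Y t' (tg s.1 β) - Z (γ t') (tg s.1 β))|) + μ * (Sq + Sd)) := by
        refine Finset.sum_le_sum fun β _ => ?_
        rw [← A.wn_eq_wP, ← A.wn_eq_wP]
        refine (e2 β).trans ?_
        have b1 : (ϑ + 1) * |wn (F β) s (Y t (tg s.1 β)) - wn (F β) s (Y t' (tg s.1 β))| ≤
            2 * |wn (F β) s (Y t (tg s.1 β)) - wn (F β) s (Y t' (tg s.1 β))| :=
          mul_le_mul_of_nonneg_right (by linarith) (abs_nonneg _)
        have b2 := hwn β
        linarith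
      refine h2.trans ?_
      rw [Finset.sum_add_distrib, Finset.sum_add_distrib, ← Finset.mul_sum,
        Finset.sum_add_distrib]
      simp only [Finset.sum_const, Finset.card_univ, Fintype.card_bool, nsmul_eq_mul]
      push_cast
      linarith
    have k2 : ∑ l, |H T Y t l - H T Y t' l| ≤ SF + 3 * SY + 3 * (μ * (Sq + Sd)) := by
      have h2 : ∑ l, |H T Y t l - H T Y t' l| ≤ ∑ l, (f3 F Y s t t' l + 3 * |Y t l - Y t' l| +
          μ * (Sq + Sd)) := by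
        refine Finset.sum_le_sum fun l _ => (e1 l).trans ?_
        have b1 : (ϑ + 2) * |Y t l - Y t' l| ≤ 3 * |Y t l - Y t' l| :=
          mul_le_mul_of_nonneg_right (by linarith) (abs_nonneg _)
        linarith
      refine h2.trans ?_
      rw [Finset.sum_add_distrib, Finset.sum_add_distrib, ← Finset.mul_sum, sum_f3]
      simp only [Finset.sum_const, Finset.card_univ, Fintype.card_fin, nsmul_eq_mul]
      push_cast
      linarith
    have k3 : ∑ l ∈ Al, |H T Y t l - H T Y t' l| ≤ SF + 9 * Sf + 3 * Sd + 3 * (μ * (Sq + Sd)) := by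
      have h2 : ∑ l ∈ Al, |H T Y t l - H T Y t' l| ≤ ∑ l ∈ Al, (f3 F Y s t t' l +
          3 * (Sf + |(Y t l - Z (γ t) l) - (Y t' l - Z (γ t') l)|) + μ * (Sq + Sd)) := by
        refine Finset.sum_le_sum fun l hl => (e1 l).trans ?_
        have b1 : (ϑ + 2) * |Y t l - Y t' l| ≤ 3 * |Y t l - Y t' l| :=
          mul_le_mul_of_nonneg_right (by linarith) (abs_nonneg _)
        have b2 := hY l
        have b3 := g4.2 l hl
        linarith
      refine h2.trans ?_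
      have h3 : ∑ l ∈ Al, (f3 F Y s t t' l +
          3 * (Sf + |(Y t l - Z (γ t) l) - (Y t' l - Z (γ t') l)|) + μ * (Sq + Sd)) ≤
          ∑ l, (f3 F Y s t t' l +
          3 * (Sf + |(Y t l - Z (γ t) l) - (Y t' l - Z (γ t') l)|) + μ * (Sq + Sd)) := by
        refine Finset.sum_le_sum_of_subset_of_nonneg (Finset.subset_univ _) fun l _ _ => ?_
        have b1 := f3_nonneg (F := F) (Y := Y) s t t' l
        have b2 := abs_nonneg ((Y t l - Z (γ t) l) - (Y t' l - Z (γ t') l))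
        positivity
      refine h3.trans ?_
      rw [Finset.sum_add_distrib, Finset.sum_add_distrib, ← Finset.mul_sum,
        Finset.sum_add_distrib, sum_f3]
      simp only [Finset.sum_const, Finset.card_univ, Fintype.card_fin, nsmul_eq_mul]
      push_cast
      linarith
    have m1 := mul_le_mul_of_nonneg_left k1 hC
    have m2 := mul_le_mul_of_nonneg_left k3 hC'
    have m3 := mul_le_mul_of_nonneg_left k2 hι
    refine g1.trans ?_
    have m4 : 0 ≤ C * ϑ * SY := by positivity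
    nlinarith
  · right; exact hg

end ArcP

end Vale.Agent.P073.H190.Tvp
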