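import Vale.Agent.P073.H190.TvpM

/-!
# P073, H190, [TV-P] (N): the variation of a locally controlled function along a lifted arc
-/

open Set Metric Filter Topology
open scoped NNReal ENNReal

namespace Vale.Agent.P073.H190.Tvp

open _root_.P073 _root_.P073.H345 _root_.P073.H236 _root_.P073.PA691
open Vale.Agent.P073.St (V)
open Vale.Agent.P073.H471 Vale.Agent.P073.H267
open _root_.P073.H880.RP (thinL)

variable {Ω Λ : Set V} {v : V} {K : BoxCx Λ v} {S : Rad K} {W : Wid K S} {B : Boxes W} {G : Geo B}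

namespace ArcP

variable {L : PLev G} {S₀ : Set K.S} {c : K.S → Bool → ℝ} {h0 : ∀ s β, 0 < c s β}
    {h1 : ∀ s β, c s β ≤ L.c s β} {F : Bool → BFam 3 S₀ Λ} {T : Bool → ConHomeo Λ Λ}
    {κ : Bool → V → V} {U : S₀ → Set V} {Z q Y : ℝ → V} {γ : ℝ → ℝ} {c₁ : ℝ}
    (A : ArcP L S₀ c h0 h1 F T κ U Z q Y γ c₁)
include A

/-- **[TV-P], one arc.** -/
theorem evar_le {ϑ μ C C' ι ee : ℝ} (hC : 0 ≤ C) (hC' : 0 ≤ C') (hι : 0 ≤ ι) (hee : 0 ≤ ee)
    (hϑ0 : 0 ≤ ϑ)
    (hϑ1 : ϑ ≤ 1) (hμ0 : 0 ≤ μ)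
    (hϑ : ∀ s : S₀, (PK G s.1 ∩ Z '' Icc 0 1).Nonempty → ∀ β, (F β).e s / ((F β).B s).c ≤ ϑ)
    (hμ : ∀ s : S₀, (PK G s.1 ∩ Z '' Icc 0 1).Nonempty → ∀ β, 4 * (F β).D s / B.τ s.1 ≤ μ)
    {J : Type*} {I : Finset J} {f : J → ℝ → ℝ} {g : ℝ → ℝ}
    (hg : ∀ t ∈ Icc (0:ℝ) 1, CtlAt G U Z q γ (H T Y) C C' ι ee I f g t) :
    eVariationOn g (Icc 0 1) ≤
      ENNReal.ofReal (1 + 4 * C + 9 * C') * ∑ i ∈ I, eVariationOn (f i) (Icc 0 1) +
      (ENNReal.ofReal (C * ϑ + 3 * ι) * ∑ l, eVariationOn (fun t => Y t l) (Icc 0 1) +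
      (ENNReal.ofReal (2 * C + 3 * C' + (2 * C + 3 * C' + 3 * ι) * μ) *
        ∑ l, eVariationOn (fun t => Y t l - Z (γ t) l) (Icc 0 1) +
      (ENNReal.ofReal ((2 * C + 3 * C' + 3 * ι) * μ) *
        ∑ l, eVariationOn (fun t => q t l) (Icc 0 1) + ENNReal.ofReal ee))) +
      ∑ p ∈ A.tact, ((crs (slK L S₀ p) Z).ncard : ℝ≥0∞) *
        ENNReal.ofReal ((C + C' + ι) * (F p.1).om p.2.1) := by
  classical
  set wf : ℝ := 1 + 4 * C + 9 * C' with hwf
  set wY : ℝ := C * ϑ + 3 * ι with hwY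
  set wd : ℝ := 2 * C + 3 * C' + (2 * C + 3 * C' + 3 * ι) * μ with hwd
  set wq : ℝ := (2 * C + 3 * C' + 3 * ι) * μ with hwq
  set w : ℝ := C + C' + ι with hw
  have hwf0 : 0 ≤ wf := by positivity
  have hwf1 : 1 ≤ wf := by rw [hwf]; linarith
  have hwY0 : 0 ≤ wY := by positivity
  have hwd0 : 0 ≤ wd := by positivity
  have hwq0 : 0 ≤ wq := by positivity
  have hw0 : 0 ≤ w := by positivity
  -- the primitive functions
  let pr : J ⊕ (Fin 3 ⊕ (Fin 3 ⊕ (Fin 3 ⊕ Unit))) → ℝ → ℝ := fun o => match o with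
    | .inl i => fun t => wf * f i (γ t)
    | .inr (.inl l) => fun t => wY * Y t l
    | .inr (.inr (.inl l)) => fun t => wd * (Y t l - Z (γ t) l)
    | .inr (.inr (.inr (.inl l))) => fun t => wq * q (γ t) l
    | .inr (.inr (.inr (.inr _))) => fun t => ee * t
  have hsl : ∀ p ∈ A.tact, ∃ s₁ s₂, Zones (slK L S₀ p) Z Y c₁ s₁ s₂ := by
    intro p hp
    obtain ⟨h2, h3⟩ := A.mem_tact.1 hp
    exact A.zones p.1 p.2.1 h2 p.2.2 h3
  have hfin : ∀ p ∈ A.tact, (crs (slK L S₀ p) Z).Finite := by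
    intro p hp
    obtain ⟨h2, h3⟩ := A.mem_tact.1 hp
    exact A.fin p.1 p.2.1 h2 p.2.2 h3
  have key := evar_le_zones2 (Sl := slK L S₀) (c' := fun p => c p.2.1.1 p.1)
    (A := fun p => w * slA (F p.1) p.2.1) A.tact (I.disjSum Finset.univ) (f := pr) (G := g)
    hsl hfin (fun p _ => (h0 _ _).le) (fun p hp => A.thin _ _ (A.mem_tact.1 hp).1)
    (fun p _ => mul_nonneg hw0 (slA_nonneg _ _)) A.lift.cY ?_
  · refine key.trans (add_le_add ?_ ?_)
    · have hcomp : ∀ φ : ℝ → ℝ, eVariationOn (fun s => φ (γ s)) (Icc 0 1) ≤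
          eVariationOn φ (Icc 0 1) := fun φ =>
        eVariationOn.comp_le_of_monotoneOn φ γ A.lift.mono A.lift.maps
      rw [Finset.sum_disjSum, Fintype.sum_sum_type, Fintype.sum_sum_type, Fintype.sum_sum_type]
      refine add_le_add ?_ (add_le_add ?_ (add_le_add ?_ (add_le_add ?_ ?_)))
      · rw [Finset.mul_sum]
        refine Finset.sum_le_sum fun i _ => ?_
        refine (H581.evar_smul wf hwf0 (fun t => f i (γ t)) _).trans ?_
        gcongr
        exact hcomp (f i)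
      · rw [Finset.mul_sum]
        exact Finset.sum_le_sum fun l _ => H581.evar_smul wY hwY0 (fun t => Y t l) _
      · rw [Finset.mul_sum]
        exact Finset.sum_le_sum fun l _ =>
          H581.evar_smul wd hwd0 (fun t => Y t l - Z (γ t) l) _
      · rw [Finset.mul_sum]
        refine Finset.sum_le_sum fun l _ => ?_
        refine (H581.evar_smul wq hwq0 (fun t => q (γ t) l) _).trans ?_
        gcongr
        exact hcomp (fun t => q t l)
      · rw [Fintype.sum_unique]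
        refine (H581.evar_smul ee hee (fun t => t) _).trans ?_
        have h2 : eVariationOn (fun t : ℝ => t) (Icc 0 1) = 1 := by
          have h3 := (monotoneOn_id (s := Icc (0:ℝ) 1)).eVariationOn_eq
            (left_mem_Icc.2 zero_le_one) (right_mem_Icc.2 zero_le_one)
          rw [inter_self] at h3
          refine (show eVariationOn (fun t : ℝ => t) (Icc 0 1) = _ from h3).trans ?_
          show ENNReal.ofReal ((1:ℝ) - 0) = 1
          rw [sub_zero, ENNReal.ofReal_one]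
        rw [h2, mul_one]
    · refine Finset.sum_le_sum fun p _ => mul_le_mul' le_rfl (ENNReal.ofReal_le_ofReal ?_)
      have h2 := two_mul_slA (F p.1) p.2.1
      have e : ((F p.1).B p.2.1).c = c p.2.1.1 p.1 := (A.ps.B p.1 p.2.1).c
      rw [e] at h2
      calc 2 * c p.2.1.1 p.1 * (w * slA (F p.1) p.2.1)
          = w * (2 * c p.2.1.1 p.1 * slA (F p.1) p.2.1) := by ring
        _ ≤ w * (F p.1).om p.2.1 := mul_le_mul_of_nonneg_left h2 hw0
  · intro t ht
    have hsum : ∀ t', ∑ o ∈ I.disjSum Finset.univ, edist (pr o t) (pr o t') ≤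
        ∑ o ∈ I.disjSum Finset.univ, eVariationOn (pr o) (uIcc t t') := fun t' =>
      Finset.sum_le_sum fun o _ => eVariationOn.edist_le (pr o) left_mem_uIcc right_mem_uIcc
    have hpr : ∀ t', ∑ o ∈ I.disjSum Finset.univ, edist (pr o t) (pr o t') =
        ENNReal.ofReal (wf * ∑ i ∈ I, |f i (γ t) - f i (γ t')| +
          (wY * ∑ l, |Y t l - Y t' l| +
          (wd * ∑ l, |(Y t l - Z (γ t) l) - (Y t' l - Z (γ t') l)| +
          (wq * ∑ l, |q (γ t) l - q (γ t') l| + ee * |t - t'|)))) := by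
      intro t'
      have hw' : ∀ (w : ℝ), 0 ≤ w → ∀ a b : ℝ, edist (w * a) (w * b) =
          ENNReal.ofReal (w * |a - b|) := by
        intro w hw a b
        rw [edist_dist, Real.dist_eq, ← mul_sub, abs_mul, abs_of_nonneg hw]
      rw [Finset.sum_disjSum, Fintype.sum_sum_type, Fintype.sum_sum_type, Fintype.sum_sum_type]
      simp only [pr, hw' wf hwf0, hw' wY hwY0, hw' wd hwd0, hw' wq hwq0, hw' ee hee,
        Fintype.sum_unique]
      have n1 : ∀ (w : ℝ), 0 ≤ w → ∀ a : ℝ, 0 ≤ w * |a| := fun w hw a =>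
        mul_nonneg hw (abs_nonneg a)
      rw [← ENNReal.ofReal_sum_of_nonneg fun _ _ => n1 wf hwf0 _,
        ← ENNReal.ofReal_sum_of_nonneg fun _ _ => n1 wY hwY0 _,
        ← ENNReal.ofReal_sum_of_nonneg fun _ _ => n1 wd hwd0 _,
        ← ENNReal.ofReal_sum_of_nonneg fun _ _ => n1 wq hwq0 _,
        ← ENNReal.ofReal_add (Finset.sum_nonneg fun _ _ => n1 wq hwq0 _) (n1 ee hee _),
        ← ENNReal.ofReal_add (Finset.sum_nonneg fun _ _ => n1 wd hwd0 _)
          (add_nonneg (Finset.sum_nonneg fun _ _ => n1 wq hwq0 _) (n1 ee hee _)),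
        ← ENNReal.ofReal_add (Finset.sum_nonneg fun _ _ => n1 wY hwY0 _)
          (add_nonneg (Finset.sum_nonneg fun _ _ => n1 wd hwd0 _)
          (add_nonneg (Finset.sum_nonneg fun _ _ => n1 wq hwq0 _) (n1 ee hee _))),
        ← ENNReal.ofReal_add (Finset.sum_nonneg fun _ _ => n1 wf hwf0 _)
          (add_nonneg (Finset.sum_nonneg fun _ _ => n1 wY hwY0 _)
          (add_nonneg (Finset.sum_nonneg fun _ _ => n1 wd hwd0 _)
          (add_nonneg (Finset.sum_nonneg fun _ _ => n1 wq hwq0 _) (n1 ee hee _))))]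
      simp only [Finset.mul_sum]
    have hmem : ∀ s : S₀, Z (γ t) ∈ PK G s.1 → (PK G s.1 ∩ Z '' Icc 0 1).Nonempty :=
      fun s hs => ⟨_, hs, γ t, A.lift.maps ht, rfl⟩
    have h0S : ∀ t', 0 ≤ ∑ i ∈ I, |f i (γ t) - f i (γ t')| := fun t' =>
      Finset.sum_nonneg fun _ _ => abs_nonneg _
    have h0Y : ∀ t', 0 ≤ ∑ l, |Y t l - Y t' l| := fun t' =>
      Finset.sum_nonneg fun _ _ => abs_nonneg _
    have h0d : ∀ t', 0 ≤ ∑ l, |(Y t l - Z (γ t) l) - (Y t' l - Z (γ t') l)| := fun t' =>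
      Finset.sum_nonneg fun _ _ => abs_nonneg _
    have h0q : ∀ t', 0 ≤ ∑ l, |q (γ t) l - q (γ t') l| := fun t' =>
      Finset.sum_nonneg fun _ _ => abs_nonneg _
    rcases A.real_le hC hC' hι hϑ1 hμ0 ht (fun s hs => hϑ s (hmem s hs))
      (fun s hs => hμ s (hmem s hs)) (hg t ht) with ⟨s, hs⟩ | hs
    · refine ⟨tl F L Y s t, A.tl_sub ht, fun p hp => ?_, ?_⟩
      · obtain ⟨h2, h3, h4⟩ := A.mem_tl.1 hp
        refine ⟨Y t, ?_, by rw [sub_self, norm_zero]; exact A.pos.le⟩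
        show Y t ∈ cyl (L.bx p.1 p.2.1.1)
        rw [h3]
        exact ((mem_K _).1 (A.K_sub h2)).2
      · filter_upwards [hs] with t' h2
        refine le_trans ?_ (add_le_add (hsum t') le_rfl)
        rw [hpr t']
        have e1 : ∑ p ∈ tl F L Y s t, edist (w * slA (F p.1) p.2.1 *
            fl (c p.2.1.1 p.1) (slK L S₀ p).a (Y t (slK L S₀ p).i))
            (w * slA (F p.1) p.2.1 * fl (c p.2.1.1 p.1) (slK L S₀ p).a (Y t' (slK L S₀ p).i)) =
            ENNReal.ofReal (w * ∑ β, fS F Y s t t' β) := by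
          rw [← A.sum_tl t t' w hw0, ENNReal.ofReal_sum_of_nonneg fun _ _ => abs_nonneg _]
          refine Finset.sum_congr rfl fun p _ => ?_
          rw [edist_dist, Real.dist_eq]
        rw [e1, ← ENNReal.ofReal_add (by
          have := h0S t'; have := h0Y t'; have := h0d t'; have := h0q t'; positivity)
          (mul_nonneg hw0 (Finset.sum_nonneg fun _ _ => fS_nonneg _ _ _ _)), edist_dist,
          Real.dist_eq]
        refine ENNReal.ofReal_le_ofReal (h2.trans (le_of_eq ?_))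
        ring
    · refine ⟨∅, Finset.empty_subset _, fun p hp => absurd hp (Finset.notMem_empty p), ?_⟩
      filter_upwards [hs] with t' h2
      rw [Finset.sum_empty, add_zero]
      refine le_trans ?_ (hsum t')
      rw [hpr t', edist_dist, Real.dist_eq]
      refine ENNReal.ofReal_le_ofReal (h2.trans ?_)
      have a1 := h0S t'
      have a2 := mul_nonneg hwY0 (h0Y t')
      have a3 := mul_nonneg hwd0 (h0d t')
      have a4 := mul_nonneg hwq0 (h0q t')
      nlinarith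

end ArcP

end Vale.Agent.P073.H190.Tvp
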