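import Vale.Agent.P073.H190.TvpN

/-!
# P073, H190, [TV-P] (O): general position of a segment of the family, from the flow boxes
-/

open Set Metric Filter Topology
open scoped NNReal ENNReal

namespace Vale.Agent.P073.H190.Tvp

open _root_.P073 _root_.P073.H345 _root_.P073.H236 _root_.P073.PA691 _root_.P073.TR
open Vale.Agent.P073.St (V)
open Vale.Agent.P073.H471 Vale.Agent.P073.H267
open _root_.P073.H880.RP (thinL ROut3 Dat)
open _root_.P073.H880
open Vale.Agent.P073.H73 (Mesh)
open Vale.Agent.P073.H193 (Edges)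

/-! ### flow boxes on a segment -/

section flow

variable {X : Type*} [NormedAddCommGroup X] [NormedSpace ℝ X] {u : V → X} {ι : Type*}
  {M : ι → Set V} {a b : V} {t : ℝ} {σ : X →ₗ[ℝ] V} {r : ℝ} {i : ι}

theorem flow_dir (H : FlowBox u M (a + t • (b - a)) σ r) (hi : M i = segment ℝ a b)
    (ht : t ∈ Icc (0:ℝ) 1) {s : X} (hs : ‖s‖ < r) :
    ∃ l : ℝ, t + l ∈ Icc (0:ℝ) 1 ∧ σ s = l • (b - a) := by
  have h1 := (H.iff i 0 s (by rw [norm_zero]; exact H.pos) hs).2 (by
    rw [add_zero, hi]; exact Croft.onS_mem ht)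
  rw [add_zero, hi, segment_eq_image'] at h1
  obtain ⟨t', ht', h2⟩ := h1
  refine ⟨t' - t, by rw [add_sub_cancel]; exact ht', ?_⟩
  have h2' : a + t' • (b - a) = a + t • (b - a) + σ s := h2
  have h3 : σ s = (a + t' • (b - a)) - (a + t • (b - a)) := by
    rw [h2']; abel
  rw [h3, sub_smul]; abel

theorem flow_ne (H : FlowBox u M (a + t • (b - a)) σ r) {s : X} (hs : ‖s‖ < r) (h0 : s ≠ 0) :
    σ s ≠ 0 := by
  intro h1
  have h2 := H.add 0 s (by rw [norm_zero]; exact H.pos) hs
  rw [add_zero, h1, add_zero] at h2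
  exact h0 (by simpa using h2.symm)

end flow

/-- **a regular point of a segment**: `u` is affine, not constant, near it -/
theorem flow_one {ι : Type*} {u : V → ℝ} {M : ι → Set V} {a b : V} {t : ℝ} {i : ι}
    (H : H805.Reg u M (a + t • (b - a))) (hi : M i = segment ℝ a b) (ht : t ∈ Icc (0:ℝ) 1) :
    t ∈ Ioo (0:ℝ) 1 ∧ ∃ m : ℝ, m ≠ 0 ∧ ∃ δ > 0, ∀ t', |t' - t| < δ →
      u (a + t' • (b - a)) - u (a + t • (b - a)) = (t' - t) * m := by
  obtain ⟨σ, r, H⟩ := H
  have hr := H.pos
  have hr2 : ‖r / 2‖ < r := by rw [Real.norm_eq_abs, abs_of_pos (by linarith)]; linarith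
  have hr2' : ‖-(r / 2)‖ < r := by rwa [norm_neg]
  obtain ⟨l, hl, h1⟩ := flow_dir H hi ht hr2
  have h2 := flow_ne H hr2 (by positivity)
  have hl0 : l ≠ 0 := by
    rintro rfl
    rw [zero_smul] at h1
    exact h2 h1
  have hσ : ∀ s : ℝ, σ s = (s * (l / (r / 2))) • (b - a) := by
    intro s
    have h3 : s = (s / (r / 2)) • (r / 2) := by
      rw [smul_eq_mul, div_mul_cancel₀ _ (by positivity)]
    conv_lhs => rw [h3]
    rw [map_smul, h1, smul_smul]
    congr 1
    field_simp
  set k := l / (r / 2) with hk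
  have hk0 : k ≠ 0 := div_ne_zero hl0 (by positivity)
  have hend : ∀ s : ℝ, ‖s‖ < r → t + s * k ∈ Icc (0:ℝ) 1 := by
    intro s hs
    obtain ⟨l', hl', h3⟩ := flow_dir H hi ht hs
    rw [hσ] at h3
    have hba : b - a ≠ 0 := by
      intro h4
      rw [h4, smul_zero] at h1
      exact h2 h1
    have h5 : (s * k - l') • (b - a) = 0 := by rw [sub_smul, h3, sub_self]
    rcases smul_eq_zero.1 h5 with h6 | h6
    · rw [sub_eq_zero.1 h6]; exact hl'
    · exact absurd h6 hba
  refine ⟨?_, k⁻¹, inv_ne_zero hk0, r * |k|, by positivity, fun t' ht' => ?_⟩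
  · have a1 := hend _ hr2
    have a2 := hend _ hr2'
    have hpos : 0 < |r / 2 * k| := abs_pos.2 (mul_ne_zero (by positivity) hk0)
    rcases abs_cases (r / 2 * k) with ⟨e, -⟩ | ⟨e, -⟩
    · rw [e] at hpos
      constructor
      · have := a2.1; linarith
      · have := a1.2; linarith
    · rw [e] at hpos
      constructor
      · have := a1.1; linarith
      · have := a2.2; linarith
  · have h3 : ‖(t' - t) / k‖ < r := by
      rw [norm_div, Real.norm_eq_abs, Real.norm_eq_abs, div_lt_iff₀ (abs_pos.2 hk0)]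
      exact ht'
    have h4 := H.add 0 ((t' - t) / k) (by rw [norm_zero]; exact hr) h3
    rw [add_zero, hσ, div_mul_cancel₀ _ hk0] at h4
    have h5 : a + t • (b - a) + (t' - t) • (b - a) = a + t' • (b - a) := by
      rw [sub_smul]; abel
    rw [h5] at h4
    rw [h4]
    rw [add_sub_cancel_left, div_eq_mul_inv]

/-- no double points on a segment -/
theorem flow_two {ι : Type*} {u : V → ℝ × ℝ} {M : ι → Set V} {a b : V} {t : ℝ} {i : ι}
    (H : H805.Reg u M (a + t • (b - a))) (hi : M i = segment ℝ a b) (ht : t ∈ Icc (0:ℝ) 1) :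
    False := by
  obtain ⟨σ, r, H⟩ := H
  have hr := H.pos
  have n1 : ‖((r / 2, 0) : ℝ × ℝ)‖ < r := by
    rw [Prod.norm_def]
    simp only [norm_zero, Real.norm_eq_abs]
    rw [abs_of_pos (by linarith)]
    exact max_lt (by linarith) hr
  have n2 : ‖((0, r / 2) : ℝ × ℝ)‖ < r := by
    rw [Prod.norm_def]
    simp only [norm_zero, Real.norm_eq_abs]
    rw [abs_of_pos (by linarith)]
    exact max_lt hr (by linarith)
  obtain ⟨l₁, -, h1⟩ := flow_dir H hi ht n1
  obtain ⟨l₂, -, h2⟩ := flow_dir H hi ht n2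
  have e1 := flow_ne H n1 (by
    intro h
    have := (Prod.mk.inj h).1
    linarith)
  have hl1 : l₁ ≠ 0 := by
    rintro rfl
    rw [zero_smul] at h1
    exact e1 h1
  -- a small combination
  set M₁ : ℝ := |l₁| + |l₂| with hM
  have hM0 : 0 < M₁ := by
    have := abs_pos.2 hl1
    have := abs_nonneg l₂
    linarith
  set w : ℝ × ℝ := (r / 2 * (l₂ / M₁), r / 2 * (-l₁ / M₁)) with hw
  have hwn : ‖w‖ < r := by
    have b1 : |l₂ / M₁| ≤ 1 := by
      rw [abs_div, abs_of_pos hM0, div_le_one hM0]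
      have := abs_nonneg l₁
      linarith
    have b2 : |-l₁ / M₁| ≤ 1 := by
      rw [abs_div, abs_neg, abs_of_pos hM0, div_le_one hM0]
      have := abs_nonneg l₂
      linarith
    rw [hw, Prod.norm_def]
    simp only [Real.norm_eq_abs, abs_mul]
    rw [abs_of_pos (by linarith : (0:ℝ) < r / 2)]
    exact max_lt (by nlinarith) (by nlinarith)
  have hw0 : w ≠ 0 := by
    intro h
    have h3 : r / 2 * (-l₁ / M₁) = 0 := (Prod.mk.inj h).2
    have h4 : -l₁ / M₁ ≠ 0 := div_ne_zero (neg_ne_zero.2 hl1) hM0.ne'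
    exact (mul_ne_zero (by positivity : r / 2 ≠ 0) h4) h3
  refine flow_ne H hwn hw0 ?_
  have h5 : w = (l₂ / M₁) • ((r / 2, 0) : ℝ × ℝ) + (-l₁ / M₁) • ((0, r / 2) : ℝ × ℝ) := by
    rw [hw]
    ext
    · simp; ring
    · simp; ring
  rw [h5, map_add, map_smul, map_smul, h1, h2, smul_smul, smul_smul, ← add_smul]
  rw [show l₂ / M₁ * l₁ + -l₁ / M₁ * l₂ = 0 by ring, zero_smul]

/-! ### the change of the sign -/

/-- same levels near the point, and a regular function: a change of the sign -/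
theorem sgn_of {ι : Type*} {w u : V → ℝ} {M : ι → Set V} {a b : V} {t : ℝ} {i : ι} {A : Finset ℝ}
    {Y : Set V} (hi : M i = segment ℝ a b) (ht : t ∈ Icc (0:ℝ) 1)
    (hS : H805.SameLev A Y w u)
    (hY : ∀ᶠ t' in 𝓝[Icc 0 1] t, a + t' • (b - a) ∈ Y) (hA : w (a + t • (b - a)) ∈ A)
    (H : u (a + t • (b - a)) ∈ A → H805.Reg u M (a + t • (b - a))) :
    SgnAt (fun s => w (a + s • (b - a))) t := by
  have hYt : a + t • (b - a) ∈ Y := hY.self_of_nhdsWithin ht
  have h0 := (hS _ hA _ hYt).1.1 rfl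
  obtain ⟨h1, m, hm, δ, hδ, h2⟩ := flow_one (H (by rw [h0]; exact hA)) hi ht
  refine ⟨h1, if 0 < m then 1 else -1, by split_ifs <;> simp, ?_⟩
  obtain ⟨ρ, hρ, h3⟩ := Metric.mem_nhdsWithin_iff.1 hY
  refine ⟨min (δ / 2) (ρ / 2), by positivity, fun s hs hst => ?_⟩
  have hsδ : |s - t| < δ := by
    have := min_le_left (δ / 2) (ρ / 2)
    linarith
  have hsρ : s ∈ ball t ρ := by
    rw [mem_ball, Real.dist_eq]
    have := min_le_right (δ / 2) (ρ / 2)
    linarith
  have h4 := h2 s hsδ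
  have h5 := hS _ hA _ (h3 ⟨hsρ, hs⟩)
  rw [h0] at h4
  have key : ∀ ε : ℝ, (ε = 1 ∨ ε = -1) → 0 < ε * m →
      (t < s → 0 < ε * (w (a + s • (b - a)) - w (a + t • (b - a)))) ∧
      (s < t → ε * (w (a + s • (b - a)) - w (a + t • (b - a))) < 0) := by
    intro ε hε hεm
    constructor
    · intro hts
      have h6 : 0 < ε * (u (a + s • (b - a)) - w (a + t • (b - a))) := by
        rw [h4]
        have : ε * ((s - t) * m) = (s - t) * (ε * m) := by ring
        rw [this]
        exact mul_pos (by linarith) hεm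
      rcases hε with rfl | rfl
      · have := h5.2.2.2 (by linarith); linarith
      · have := h5.2.1.2 (by linarith); linarith
    · intro hts
      have h6 : ε * (u (a + s • (b - a)) - w (a + t • (b - a))) < 0 := by
        rw [h4]
        have : ε * ((s - t) * m) = (s - t) * (ε * m) := by ring
        rw [this]
        exact mul_neg_of_neg_of_pos (by linarith) hεm
      rcases hε with rfl | rfl
      · have := h5.2.1.2 (by linarith); linarith
      · have := h5.2.2.2 (by linarith); linarith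
  split_ifs with hm0
  · exact key 1 (Or.inl rfl) (by linarith)
  · have : m < 0 := lt_of_le_of_ne (not_lt.1 hm0) hm
    exact key (-1) (Or.inr rfl) (by linarith)

end Vale.Agent.P073.H190.Tvp
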