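import Vale.Agent.P073.H190.TvpO
import Vale.Agent.P073.H399.PassR3

/-!
# P073, H190, [TV-P] (P): existence of the data of a lifted segment, ROUND P of `K3C`
-/

open Set Metric Filter Topology
open scoped NNReal ENNReal

namespace Vale.Agent.P073.H190.Tvp

open _root_.P073 _root_.P073.H345 _root_.P073.H236 _root_.P073.PA691
open Vale.Agent.P073.St (V)
open Vale.Agent.P073.H471 Vale.Agent.P073.H267
open _root_.P073.H880.RP (thinL ROut3 Dat)
open _root_.P073.H880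
open Vale.Agent.P073.H73 (Mesh)
open Vale.Agent.P073.H193 (Edges)

variable {Ω Λ : Set V} {v : V} {K : BoxCx Λ v} {S : Rad K} {W : Wid K S} {B : Boxes W} {G : Geo B}
  {M : Mesh Ω} {E : Edges M} {D : Dat K M} {h1 h2 : ConHomeo Ω Λ} {L : PLev G}
  {ι : Type} {F : ι → Set V} {a b : V} {i : ι}

theorem cc_onS {h : ConHomeo Ω Λ} (hs : segment ℝ a b ⊆ Ω) :
    CC (Croft.onS h.toFun a b) (Icc 0 1) :=
  ⟨h.cont.comp (f := fun t : ℝ => a + t • (b - a)) (by fun_prop)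
    (fun t ht => hs (Croft.onS_mem ht)), Croft.conicalOn_onS h.conical hs⟩

theorem onS_image (h : V → V) : Croft.onS h a b '' Icc 0 1 = h '' segment ℝ a b := by
  rw [segment_eq_image', image_image]
  rfl

/-- an insertion map is determined by its family -/
theorem insMap_of {γ : Type*} {B : γ → BX 3} {κ : V → V} (H : Fam Λ B) (h : IsQ B κ) :
    H579.InsMap κ Λ Λ := by
  obtain ⟨κ', h1, h2, -⟩ := H.exists_isQ
  have e : κ = κ' := by
    funext y
    by_cases hy : ∃ g, y ∈ (B g).K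
    · obtain ⟨g, hg⟩ := hy
      rw [h.on g y hg, h1.on g y hg]
    · push Not at hy
      rw [h.off y hy, h1.off y hy]
  rw [e]; exact h2

/-! ### the boxes of the exchange -/

theorem PE_sub_int {s : K.S} (ht : ∀ β, D.ht s β ≤ B.τ s / 2) :
    D.PE G s ⊆ interior (G.PB (7 / 8) s) := by
  have hp := Geo.p_pos (G := G) s
  have hτ := B.τ_pos s
  have e1 := ht true
  have e2 := ht false
  have hU : IsOpen {y : V | (∀ k, k ≠ K.nrm s → K.slo s k + 7 / 8 * G.p s < y k ∧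
      y k < K.shi s k - 7 / 8 * G.p s) ∧ |y (K.nrm s) - K.slo s (K.nrm s)| < B.τ s} := by
    have h3 : {y : V | (∀ k, k ≠ K.nrm s → K.slo s k + 7 / 8 * G.p s < y k ∧
        y k < K.shi s k - 7 / 8 * G.p s) ∧ |y (K.nrm s) - K.slo s (K.nrm s)| < B.τ s} =
        (⋂ k, ⋂ (_ : k ≠ K.nrm s), {y : V | K.slo s k + 7 / 8 * G.p s < y k ∧
          y k < K.shi s k - 7 / 8 * G.p s}) ∩
          {y : V | |y (K.nrm s) - K.slo s (K.nrm s)| < B.τ s} := by
      ext y; simp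
    rw [h3]
    refine (isOpen_iInter_of_finite fun k => isOpen_iInter_of_finite fun _ => ?_).inter ?_
    · exact (isOpen_lt continuous_const (continuous_apply k)).inter
        (isOpen_lt (continuous_apply k) continuous_const)
    · exact isOpen_lt (by fun_prop) continuous_const
  refine subset_trans ?_ (interior_maximal (s := G.PB (7 / 8) s) (fun y hy => ?_) hU)
  · rintro y ⟨a1, a2, a3⟩
    refine ⟨fun k hk => ?_, ?_⟩
    · have := a1 k hk
      constructor <;> linarith [this.1, this.2]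
    · rw [abs_lt]
      constructor <;> linarith
  · rw [Geo.mem_PB]
    exact ⟨fun k hk => ⟨(hy.1 k hk).1.le, (hy.1 k hk).2.le⟩, hy.2.le⟩

theorem isClosed_PE (s : K.S) : IsClosed (D.PE G s) := by
  have : D.PE G s = (⋂ k, ⋂ (_ : k ≠ K.nrm s), {y : V | K.slo s k + G.p s ≤ y k ∧
      y k ≤ K.shi s k - G.p s}) ∩ {y : V | K.slo s (K.nrm s) - D.ht s false ≤ y (K.nrm s) ∧
        y (K.nrm s) ≤ K.slo s (K.nrm s) + D.ht s true} := by
    ext y; simp [Dat.PE]
  rw [this]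
  refine (isClosed_iInter fun i => isClosed_iInter fun _ => ?_).inter ?_
  · exact (isClosed_le continuous_const (continuous_apply i)).inter
      (isClosed_le (continuous_apply i) continuous_const)
  · exact (isClosed_le continuous_const (continuous_apply _)).inter
      (isClosed_le (continuous_apply _) continuous_const)

/-- near a point off the boxes of the exchange -/
theorem near_off (ht : ∀ s ∈ D.S₀, ∀ β, D.ht s β ≤ B.τ s / 2) {z : V} (hz : z ∈ Λ)
    (h : ∀ s ∈ D.S₀, z ∉ D.PE G s) : ∀ᶠ y in 𝓝 z, ∀ s ∈ D.S₀, y ∉ D.PE G s := by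
  have hsub : ∀ s ∈ D.S₀, D.PE G s ⊆ PK G s := fun s hs =>
    (PE_sub_int (ht s hs)).trans (interior_subset.trans (PB_sub_PK (by norm_num) s))
  by_cases hK : ∃ s ∈ D.S₀, z ∈ PK G s
  · obtain ⟨s, hs, hzs⟩ := hK
    filter_upwards [near_PK (G := G) hz, (isClosed_PE (D := D) (G := G) s).isOpen_compl.mem_nhds
      (h s hs)] with y h3 h4 s' hs' h5
    have h6 := PK_unique (h3 s' (hsub s' hs' h5)) hzs
    rw [h6] at h5
    exact h4 h5
  · push Not at hK
    filter_upwards [near_PK (G := G) hz] with y h3 s' hs' h5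
    exact hK s' hs' (h3 s' (hsub s' hs' h5))

/-- **general position of a segment of the family** -/
theorem genA_of (O : ROut3 G E D h1 h2 L.lv F) (ht : ∀ s ∈ D.S₀, ∀ β, D.ht s β ≤ B.τ s / 2)
    (hi : F i = segment ℝ a b) (hs : segment ℝ a b ⊆ Ω) :
    GenA (fun s : D.S₀ => L.bx false s.1) (fun s : D.S₀ => L.bx true s.1) Λ
      (Croft.onS h2.toFun a b) := by
  have ht' : ∀ s ∈ D.S₀, ∀ β, D.ht s β ≤ 3 / 2 * B.τ s := fun s hs' β => by
    have := ht s hs' β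
    have := B.τ_pos s
    linarith
  have hcc := cc_onS (h := h2) hs
  have hΩ : ∀ t ∈ Icc (0:ℝ) 1, a + t • (b - a) ∈ Ω := fun t ht => hs (Croft.onS_mem ht)
  -- near a point of a plate
  have hnear : ∀ (s : D.S₀), ∀ t ∈ Icc (0:ℝ) 1, Croft.onS h2.toFun a b t ∈ PK G s.1 →
      ∀ᶠ t' in 𝓝[Icc 0 1] t, a + t' • (b - a) ∈
        {x | x ∈ Ω ∧ ∀ s' ∈ D.S₀, s' ≠ s.1 → h1.toFun x ∉ D.PE G s'} := by
    intro s t ht1 hK
    have h3 : ∀ᶠ t' in 𝓝[Icc 0 1] t, Croft.onS h2.toFun a b t' ∈ W.ss s.1 :=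
      (hcc.cont t ht1).eventually ((_root_.P073.H880.RP.isOpen_ss s.1).mem_nhds (PK_sub_ss s.1 hK))
    filter_upwards [h3, self_mem_nhdsWithin] with t' h4 h5
    exact ⟨hΩ t' h5, fun s' hs' hne h6 =>
      D.notMem_PE (ht' s' hs') hne h4 ((O.box s' hs' _ (hΩ t' h5)).2 h6)⟩
  have hsgn : ∀ β, ∀ (s : D.S₀), ∀ t ∈ Icc (0:ℝ) 1,
      Croft.onS h2.toFun a b t ∈ (L.bx β s.1).K → ∀ k < (L.bx β s.1).N,
      Croft.onS h2.toFun a b t (L.bx β s.1).j = (L.bx β s.1).a k →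
      SgnAt (fun s' => Croft.onS h2.toFun a b s' (L.bx β s.1).j) t := by
    intro β s t ht1 hK k hk hl
    obtain ⟨u, -, hu2, hu3, -⟩ := O.reg s.1 s.2
    refine sgn_of (w := fun x => h2.toFun x (tg s.1 β)) (u := u β) hi ht1 (hu2 β)
      (hnear s t ht1 (PLev.mem_bxK.1 hK).1) ?_ (hu3 β _ (hΩ t ht1))
    have e : h2.toFun (a + t • (b - a)) (tg s.1 β) = L.a s.1 β k := hl
    show h2.toFun (a + t • (b - a)) (tg s.1 β) ∈ L.lv s.1 (tg s.1 β)
    rw [e, PLev.lv_tg]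
    exact (L.lvs s.1 β).mem_L.2 ⟨k, hk, rfl⟩
  refine ⟨hcc, fun t ht => h2.mapsTo (hΩ t ht), fun s => hsgn false s, fun s => hsgn true s, ?_⟩
  intro s s' t ht1 hK hK' k hk hl k' hk' hl'
  have hss : s = s' := Subtype.ext (PK_unique (PLev.mem_bxK.1 hK).1 (PLev.mem_bxK.1 hK').1)
  subst hss
  obtain ⟨u, -, hu2, -, hu4⟩ := O.reg s.1 s.2
  have hx := (hnear s t ht1 (PLev.mem_bxK.1 hK).1).self_of_nhdsWithin ht1
  have e : h2.toFun (a + t • (b - a)) (tg s.1 false) = L.a s.1 false k := hl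
  have e' : h2.toFun (a + t • (b - a)) (tg s.1 true) = L.a s.1 true k' := hl'
  have m : L.a s.1 false k ∈ L.lv s.1 (tg s.1 false) := by
    rw [PLev.lv_tg]; exact (L.lvs s.1 false).mem_L.2 ⟨k, hk, rfl⟩
  have m' : L.a s.1 true k' ∈ L.lv s.1 (tg s.1 true) := by
    rw [PLev.lv_tg]; exact (L.lvs s.1 true).mem_L.2 ⟨k', hk', rfl⟩
  have f := (hu2 false _ m _ hx).1.1 e
  have f' := (hu2 true _ m' _ hx).1.1 e'
  exact flow_two (hu4 _ (hΩ t ht1) (by rw [f]; exact m) (by rw [f']; exact m')) hi ht1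

/-! ### existence -/

/-- **the data of a lifted segment** -/
theorem exists_arcP (hΛ : IsOpen Λ) (O : ROut3 G E D h1 h2 L.lv F)
    (ht : ∀ s ∈ D.S₀, ∀ β, D.ht s β ≤ B.τ s / 2) (hab : a ≠ b) (hi : F i = segment ℝ a b)
    (hs : segment ℝ a b ⊆ Ω) {e ρ : ℝ} (he : 0 < e) (hρ : 0 < ρ) :
    ∃ c₁ > 0, c₁ ≤ ρ ∧ ∀ (c : K.S → Bool → ℝ) (c0 : ∀ s β, 0 < c s β) (c1 : ∀ s β, c s β ≤ L.c s β),
      (∀ s ∈ D.S₀, (PK G s ∩ h2.toFun '' segment ℝ a b).Nonempty → ∀ β, c s β ≤ c₁ / 2) →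
      ∀ κ : Bool → V → V, (∀ β, IsQ (fun s : D.S₀ => (thinL L c c0 c1).bx β s.1) (κ β)) →
      ∀ h3 : ConHomeo Ω Λ,
      h3.toFun '' segment ℝ a b = H579.Pre (κ true ∘ κ false) Λ h2 (segment ℝ a b) →
      κ true (κ false (h3.toFun a)) = h2.toFun a → κ true (κ false (h3.toFun b)) = h2.toFun b →
      ∃ γ : ℝ → ℝ, (∀ (Fm : Bool → BFam 3 D.S₀ Λ) (T : Bool → ConHomeo Λ Λ),
        _root_.P073.H142.PS3 (thinL L c c0 c1) D.S₀ Fm T →
        ArcP L D.S₀ c c0 c1 Fm T κ (fun s => D.PE G s.1) (Croft.onS h2.toFun a b)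
          (Croft.onS h1.toFun a b) (Croft.onS h3.toFun a b) γ c₁) ∧
        (∀ l, eVariationOn (fun t => Croft.onS h3.toFun a b t l - Croft.onS h2.toFun a b (γ t) l)
          (Icc 0 1) ≤ ENNReal.ofReal e) ∧
        ∀ t ∈ Icc (0:ℝ) 1, ‖Croft.onS h3.toFun a b t - Croft.onS h2.toFun a b (γ t)‖ ≤ c₁ := by
  set Z := Croft.onS h2.toFun a b with hZ
  have hG := genA_of O ht hi hs
  have H₀ := fam_sub L D.S₀ hΛ false
  have H₁ := fam_sub L D.S₀ hΛ true
  have hgood := good_two H₀ H₁ hG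
  have hfinA := finite_act H₀ H₁ hG
  obtain ⟨cz, hcz, hz⟩ := exists_zonesR hgood one_pos
  obtain ⟨cd, hcd, hd⟩ := exists_tvd hgood he
  have hX : IsCompact (Z '' Icc 0 1) := isCompact_Icc.image_of_continuousOn hG.cc.cont
  have hXΛ : Z '' Icc 0 1 ⊆ Λ := by rintro _ ⟨t, ht, rfl⟩; exact hG.maps ht
  obtain ⟨r, hr, hrm⟩ := exists_cth H₀ hX hXΛ
  refine ⟨min (min cz cd) (min r ρ), by positivity,
    (min_le_right _ _).trans (min_le_right _ _), ?_⟩
  set c₁ := min (min cz cd) (min r ρ) with hc₁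
  have hc₁0 : 0 < c₁ := by positivity
  have k1 : c₁ ≤ cz := (min_le_left _ _).trans (min_le_left _ _)
  have k2 : c₁ ≤ cd := (min_le_left _ _).trans (min_le_right _ _)
  have k3 : c₁ ≤ r := (min_le_right _ _).trans (min_le_left _ _)
  intro c c0 c1 hc κ hκ h3 himg ha hb
  have hXe : Z '' Icc 0 1 = h2.toFun '' segment ℝ a b := onS_image _
  have hthin : ∀ β (s : D.S₀), ((L.bx β s.1).K ∩ Z '' Icc 0 1).Nonempty → c s.1 β ≤ c₁ / 2 := by
    rintro β s ⟨y, hy, hyZ⟩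
    refine hc s.1 s.2 ⟨y, (PLev.mem_bxK.1 hy).1, ?_⟩ β
    rw [← hXe]; exact hyZ
  -- the thin families
  have T₀ := fam_sub (thinL L c c0 c1) D.S₀ hΛ false
  have T₁ := fam_sub (thinL L c c0 c1) D.S₀ hΛ true
  have i₀ := insMap_of T₀ (hκ false)
  have i₁ := insMap_of T₁ (hκ true)
  have hkap := isKap_two (B₀ := fun s : D.S₀ => L.bx false s.1) (B₁ := fun s : D.S₀ => L.bx true s.1)
    (Z := Z) (c₀ := fun s => c s.1 false) (c₁ := fun s => c s.1 true) (fun s => c0 _ _)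
    (fun s => c1 _ _) (fun s => c0 _ _) (fun s => c1 _ _) (b := c₁ / 2) (r := r)
    (by positivity) (by linarith) hrm (hthin false) (hthin true) (hκ false) (hκ true)
  have hdisp : ∀ y, κ true (κ false y) ∈ Z '' Icc 0 1 →
      (∀ s : D.S₀, y ∈ (L.bx false s.1).K → ((L.bx false s.1).K ∩ Z '' Icc 0 1).Nonempty) ∧
      (∀ s : D.S₀, κ false y ∈ (L.bx true s.1).K →
        ((L.bx true s.1).K ∩ Z '' Icc 0 1).Nonempty) ∧ ‖κ true (κ false y) - y‖ ≤ 2 * (c₁ / 2) :=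
    fun y hy => disp_two (B₀ := fun s : D.S₀ => L.bx false s.1)
      (B₁ := fun s : D.S₀ => L.bx true s.1) (c₀ := fun s => c s.1 false)
      (c₁ := fun s => c s.1 true) (fun s => c0 _ _)
      (fun s => c1 _ _) (fun s => c0 _ _) (fun s => c1 _ _) (b := c₁ / 2) (r := r)
      (by positivity) (by linarith) hrm (hthin false) (hthin true) (hκ false) (hκ true) hy
  have hsml : Sml c₁ (fun p : ActS (fun s : D.S₀ => L.bx false s.1)
      (fun s : D.S₀ => L.bx true s.1) Z => 2 * thk (fun s : D.S₀ => c s.1 false)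
        (fun s : D.S₀ => c s.1 true) p.1) (fun p => thk (fun s : D.S₀ => c s.1 false)
        (fun s : D.S₀ => c s.1 true) p.1) := by
    rintro ⟨p, hp⟩
    have h4 : 0 < thk (fun s : D.S₀ => c s.1 false) (fun s : D.S₀ => c s.1 true) p := by
      rcases p with ⟨s, k⟩ | ⟨s, k⟩
      · exact c0 _ _
      · exact c0 _ _
    have h5 : thk (fun s : D.S₀ => c s.1 false) (fun s : D.S₀ => c s.1 true) p ≤ c₁ / 2 := by
      rcases p with ⟨s, k⟩ | ⟨s, k⟩
      · exact hthin false s hp.2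
      · exact hthin true s hp.2
    refine ⟨?_, ?_, ?_, ?_⟩ <;> simp only <;> linarith
  obtain ⟨γ, hL⟩ := exists_lift (κ := fun y => κ true (κ false y)) (h := h2) (g := h3) hab hs
    (i₁.cont.comp i₀.cont i₀.maps) himg ha hb
    (fun x hx => isPreconnected_two T₀ T₁ (hκ false) (hκ true) i₀ i₁ (h2.mapsTo (hs hx)))
  have hdisp' : ∀ y, (fun y => κ true (κ false y)) y ∈ Z '' Icc 0 1 →
      ‖(fun y => κ true (κ false y)) y - y‖ ≤ c₁ := fun y hy =>
    (hdisp y hy).2.2.trans (by linarith)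
  have hzo := hz c₁ hc₁0 k1 _ _ hsml _ hkap hdisp' _ γ hL
  have hmemZ : ∀ t ∈ Icc (0:ℝ) 1,
      κ true (κ false (Croft.onS h3.toFun a b t)) ∈ Z '' Icc 0 1 := by
    intro t ht1
    have := hL.eq t ht1
    rw [show κ true (κ false (Croft.onS h3.toFun a b t)) = Z (γ t) from this]
    exact ⟨γ t, hL.maps ht1, rfl⟩
  refine ⟨γ, fun Fm T hP => ?_, hd c₁ hc₁0 k2 _ _ hsml _ hkap hdisp' _ γ hL, fun t ht1 => ?_⟩
  · refine
      { ps := hP
        isQ := hκ
        lift := hL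
        YΛ := fun t ht1 => h3.mapsTo (hs (Croft.onS_mem ht1))
        Zc := hG.cc.cont
        zones := fun β s hne k hk => ?_
        fin := fun β s hne k hk => ?_
        thin := fun β s hne => (hthin β s hne).trans_lt (by linarith)
        pos := hc₁0
        act := fun β s t ht1 hK => ?_
        facts := ?_
        full := fun s => PE_sub_int (ht s.1 s.2)
        fade := fun t ht1 hoff => ?_ }
    · cases β
      · obtain ⟨s₁, s₂, h4, -⟩ := hzo ⟨.inl (s, k), hk, hne⟩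
        exact ⟨s₁, s₂, h4⟩
      · obtain ⟨s₁, s₂, h4, -⟩ := hzo ⟨.inr (s, k), hk, hne⟩
        exact ⟨s₁, s₂, h4⟩
    · cases β
      · exact hgood.finite ⟨.inl (s, k), hk, hne⟩
      · exact hgood.finite ⟨.inr (s, k), hk, hne⟩
    · obtain ⟨d1, d2, -⟩ := hdisp _ (hmemZ t ht1)
      cases β
      · exact d1 s hK
      · refine d2 s ?_
        obtain ⟨m1, m2⟩ := PLev.mem_bxK.1 hK
        refine PLev.mem_bxK.2 ⟨(mem_PK_iff' (hκ false)).2 m1, ?_⟩
        rw [κ_ne' (hκ false) m1 (tg_ne_not s.1 true)]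
        exact m2
    · have f0 := H₀.finite hX hXΛ
      have f1 := H₁.finite hX hXΛ
      refine ((f0.image fun s => (false, s)).union (f1.image fun s => (true, s))).subset ?_
      rintro ⟨β, s⟩ hβ
      cases β
      · exact Or.inl ⟨s, hβ, rfl⟩
      · exact Or.inr ⟨s, hβ, rfl⟩
    · have h4 := near_off ht (hG.maps ht1) (fun s hs' => hoff ⟨s, hs'⟩)
      filter_upwards [(hG.cc.cont t ht1).eventually h4, self_mem_nhdsWithin] with t' h5 h6
      have hx : a + t' • (b - a) ∈ Ω := hs (Croft.onS_mem h6)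
      exact O.off _ hx fun s hs' h7 => h5 s hs' ((O.box s hs' _ hx).2 (interior_subset h7))
  · have h4 := (hdisp _ (hmemZ t ht1)).2.2
    have h5 := hL.eq t ht1
    rw [show κ true (κ false (Croft.onS h3.toFun a b t)) = Z (γ t) from h5, norm_sub_rev] at h4
    linarith

end Vale.Agent.P073.H190.Tvp
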