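import Vale.Agent.P073.H190.TvpP
import Vale.Agent.P073.H669.PLevB
import Vale.Agent.P073.H244.PWe

/-!
# P073, H190, [TV-P] (Q): all edges at once
-/

open Set Metric Filter Topology
open scoped NNReal ENNReal

namespace Vale.Agent.P073.H190.Tvp

open _root_.P073 _root_.P073.H345 _root_.P073.H236 _root_.P073.PA691
open Vale.Agent.P073.St (V)
open Vale.Agent.P073.H471 Vale.Agent.P073.H267
open _root_.P073.H880.RP (thinL ROut3 Dat)
open _root_.P073.H880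
open Vale.Agent.P073.H73 (Mesh)
open Vale.Agent.P073.H193 (Edges)
open _root_.P073.Croft (levs onS cross)
open _root_.P073.Net (cnt)

variable {Ω Λ : Set V} {v : V} {K : BoxCx Λ v} {S : Rad K} {W : Wid K S} {B : Boxes W} {G : Geo B}

theorem evar_add_le (f g : ℝ → ℝ) (A : Set ℝ) : eVariationOn (fun s => f s + g s) A ≤
    eVariationOn f A + eVariationOn g A := by
  have h1 := evar_sub_le f (fun s => - g s) A
  have h2 : eVariationOn (fun s => - g s) A = eVariationOn g A := by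
    unfold eVariationOn
    refine iSup_congr fun p => Finset.sum_congr rfl fun i _ => ?_
    exact edist_neg_neg _ _
  rw [h2] at h1
  simpa only [sub_neg_eq_add] using h1

/-! ### the sum of the numbers of crossings -/

/-- disjoint sets of crossings -/
theorem sum_ncard_le {κ : Type*} (P : Finset κ) {C : κ → Set ℝ} {X : Set ℝ}
    (hf : ∀ p ∈ P, (C p).Finite) (hd : ∀ p ∈ P, ∀ q ∈ P, p ≠ q → Disjoint (C p) (C q))
    (hX : ∀ p ∈ P, C p ⊆ X) : ∑ p ∈ P, ((C p).ncard : ℝ≥0∞) ≤ cnt X := by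
  classical
  let Cf : κ → Finset ℝ := fun p => if h : (C p).Finite then h.toFinset else ∅
  have hCf : ∀ p ∈ P, (Cf p : Set ℝ) = C p := by
    intro p hp
    show ((if h : (C p).Finite then h.toFinset else ∅ : Finset ℝ) : Set ℝ) = C p
    rw [dif_pos (hf p hp), Set.Finite.coe_toFinset]
  have h1 : ∑ p ∈ P, ((C p).ncard : ℝ≥0∞) = ((P.biUnion Cf).card : ℝ≥0∞) := by
    rw [Finset.card_biUnion, Nat.cast_sum]
    · refine Finset.sum_congr rfl fun p hp => ?_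
      rw [← hCf p hp, Set.ncard_coe_finset]
    · intro p hp q hq hpq
      show Disjoint (Cf p) (Cf q)
      rw [← Finset.disjoint_coe, hCf p hp, hCf q hq]
      exact hd p hp q hq hpq
  rw [h1]
  have h2 : ((P.biUnion Cf : Finset ℝ) : Set ℝ) ⊆ X := by
    intro t ht
    rw [Finset.coe_biUnion] at ht
    obtain ⟨p, hp, ht⟩ := mem_iUnion₂.1 ht
    exact hX p hp (by rw [← hCf p hp]; exact ht)
  have h3 := Set.encard_le_encard h2
  rw [Set.encard_coe_eq_coe_finsetCard] at h3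
  unfold _root_.P073.Net.cnt
  exact_mod_cast h3

namespace ArcP

variable {L : PLev G} {S₀ : Set K.S} {c : K.S → Bool → ℝ} {h0 : ∀ s β, 0 < c s β}
    {h1 : ∀ s β, c s β ≤ L.c s β} {F : Bool → BFam 3 S₀ Λ} {T : Bool → ConHomeo Λ Λ}
    {κ : Bool → V → V} {U : S₀ → Set V} {Z q Y : ℝ → V} {γ : ℝ → ℝ} {c₁ : ℝ}
    (A : ArcP L S₀ c h0 h1 F T κ U Z q Y γ c₁)
include A

theorem om_eq (β : Bool) (s : S₀) : (F β).om s = L.om s.1 β := by
  unfold H236.BFam.om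
  rw [(A.ps.B β s).N, (A.ps.B β s).al, (A.ps.B β s).be]
  rfl

theorem crs_sub {p : SK S₀} (hp : p ∈ A.tact) : crs (slK L S₀ p) Z ⊆
    cross Z (tg p.2.1.1 p.1) (levs (L.N p.2.1.1 p.1) (L.a p.2.1.1 p.1)) (PK G p.2.1.1) := by
  rintro t ⟨ht, h2, h3⟩
  have hk := (A.mem_tact.1 hp).2
  have h2' : Z t (tg p.2.1.1 p.1) = L.a p.2.1.1 p.1 p.2.2 := h2
  refine ⟨ht, ?_, p.2.2, hk, h2'⟩
  have hK : Z t ∈ (L.bx p.1 p.2.1.1).K := mem_K_of_level _ hk (by
    show |Z t (tg p.2.1.1 p.1) - L.a p.2.1.1 p.1 p.2.2| ≤ 2 * L.c p.2.1.1 p.1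
    have hc := (L.lvs p.2.1.1 p.1).c0
    rw [h2', sub_self, abs_zero]
    linarith) h3
  exact (PLev.mem_bxK.1 hK).1

/-- **the sum over the slots** -/
theorem sum_le {w : ℝ} (hw : 0 ≤ w) : ∑ p ∈ A.tact, ((crs (slK L S₀ p) Z).ncard : ℝ≥0∞) *
    ENNReal.ofReal (w * (F p.1).om p.2.1) ≤ ENNReal.ofReal w * ∑' o : S₀ × Bool,
      ENNReal.ofReal (L.om o.1.1 o.2) * cnt (cross Z (tg o.1.1 o.2)
        (levs (L.N o.1.1 o.2) (L.a o.1.1 o.2)) (PK G o.1.1)) := by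
  classical
  set pr : SK S₀ → S₀ × Bool := fun p => (p.2.1, p.1) with hpr
  set X : S₀ × Bool → Set ℝ := fun o => cross Z (tg o.1.1 o.2)
        (levs (L.N o.1.1 o.2) (L.a o.1.1 o.2)) (PK G o.1.1) with hX
  have h2 : ∀ o : S₀ × Bool, ∑ p ∈ A.tact with pr p = o, ((crs (slK L S₀ p) Z).ncard : ℝ≥0∞) *
      ENNReal.ofReal (w * (F p.1).om p.2.1) ≤
      ENNReal.ofReal w * (ENNReal.ofReal (L.om o.1.1 o.2) * cnt (X o)) := by
    intro o
    have h3 : ∀ p ∈ A.tact.filter (fun p => pr p = o),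
        ((crs (slK L S₀ p) Z).ncard : ℝ≥0∞) * ENNReal.ofReal (w * (F p.1).om p.2.1) =
        ENNReal.ofReal w * ENNReal.ofReal (L.om o.1.1 o.2) *
          ((crs (slK L S₀ p) Z).ncard : ℝ≥0∞) := by
      intro p hp
      have h4 := (Finset.mem_filter.1 hp).2
      rw [A.om_eq, ENNReal.ofReal_mul hw, ← h4, mul_comm]
    rw [Finset.sum_congr rfl h3, ← Finset.mul_sum, ← mul_assoc]
    refine mul_le_mul' le_rfl (sum_ncard_le _ (fun p hp => ?_) (fun p hp p' hp' hne => ?_)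
      (fun p hp => ?_))
    · obtain ⟨a1, a2⟩ := A.mem_tact.1 (Finset.mem_filter.1 hp).1
      exact A.fin p.1 p.2.1 a1 p.2.2 a2
    · rw [Set.disjoint_left]
      rintro t ⟨-, b1, -⟩ ⟨-, b2, -⟩
      have e1 := (Finset.mem_filter.1 hp).2
      have e2 := (Finset.mem_filter.1 hp').2
      obtain ⟨β, s, k⟩ := p
      obtain ⟨β', s', k'⟩ := p'
      have e3 : (s, β) = (s', β') := e1.trans e2.symm
      obtain ⟨rfl, rfl⟩ := Prod.mk.inj e3
      have hk := (A.mem_tact.1 (Finset.mem_filter.1 hp).1).2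
      have hk' := (A.mem_tact.1 (Finset.mem_filter.1 hp').1).2
      have b1' : Z t (tg s.1 β) = L.a s.1 β k := b1
      have b2' : Z t (tg s.1 β) = L.a s.1 β k' := b2
      rw [b1'] at b2'
      have hkk : k ≠ k' := fun h => hne (by rw [h])
      rcases lt_or_gt_of_ne hkk with h5 | h5
      · exact absurd b2' ((L.lvs s.1 β).strictMono h5 hk').ne
      · exact absurd b2' ((L.lvs s.1 β).strictMono h5 hk).ne'
    · have e1 := (Finset.mem_filter.1 hp).2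
      have h5 := A.crs_sub (Finset.mem_filter.1 hp).1
      rw [← e1]
      exact h5
  rw [← Finset.sum_fiberwise_of_maps_to (s := A.tact) (t := A.tact.image pr) (g := pr)
    fun p hp => Finset.mem_image_of_mem pr hp]
  refine (Finset.sum_le_sum fun o _ => h2 o).trans ?_
  rw [← Finset.mul_sum]
  exact mul_le_mul' le_rfl (ENNReal.sum_le_tsum _)

/-- **[TV-P], one arc**, in terms of `Z` and `q` -/
theorem evar_le2 {ϑ μ C C' ι ee δ : ℝ} (hC : 0 ≤ C) (hC' : 0 ≤ C') (hι : 0 ≤ ι) (hee : 0 ≤ ee)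
    (hϑ0 : 0 ≤ ϑ) (hϑ1 : ϑ ≤ 1) (hμ0 : 0 ≤ μ) (hδ : 0 ≤ δ)
    (hY : ∀ l, eVariationOn (fun t => Y t l - Z (γ t) l) (Icc 0 1) ≤ ENNReal.ofReal δ)
    (hϑ : ∀ s : S₀, (PK G s.1 ∩ Z '' Icc 0 1).Nonempty → ∀ β, (F β).e s / ((F β).B s).c ≤ ϑ)
    (hμ : ∀ s : S₀, (PK G s.1 ∩ Z '' Icc 0 1).Nonempty → ∀ β, 4 * (F β).D s / B.τ s.1 ≤ μ)
    {J : Type*} {I : Finset J} {f : J → ℝ → ℝ} {g : ℝ → ℝ}
    (hg : ∀ t ∈ Icc (0:ℝ) 1, CtlAt G U Z q γ (H T Y) C C' ι ee I f g t) :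
    eVariationOn g (Icc 0 1) ≤
      ENNReal.ofReal (1 + 4 * C + 9 * C') * ∑ i ∈ I, eVariationOn (f i) (Icc 0 1) +
      ENNReal.ofReal (C + C' + ι) * ∑' o : S₀ × Bool,
      ENNReal.ofReal (L.om o.1.1 o.2) * cnt (cross Z (tg o.1.1 o.2)
        (levs (L.N o.1.1 o.2) (L.a o.1.1 o.2)) (PK G o.1.1)) +
      (ENNReal.ofReal (C * ϑ + 3 * ι) * ∑ l, eVariationOn (fun t => Z t l) (Icc 0 1) +
      ENNReal.ofReal ((2 * C + 3 * C' + 3 * ι) * μ) *
        ∑ l, eVariationOn (fun t => q t l) (Icc 0 1) +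
      ENNReal.ofReal (3 * ((C * ϑ + 3 * ι) + (2 * C + 3 * C' + (2 * C + 3 * C' + 3 * ι) * μ)) * δ +
        ee)) := by
  have h2 := A.evar_le hC hC' hι hee hϑ0 hϑ1 hμ0 hϑ hμ hg
  refine h2.trans ?_
  have hsum := A.sum_le (w := C + C' + ι) (by positivity)
  have hγ : ∀ l, eVariationOn (fun t => Z (γ t) l) (Icc 0 1) ≤
      eVariationOn (fun t => Z t l) (Icc 0 1) := fun l =>
    eVariationOn.comp_le_of_monotoneOn (fun t => Z t l) γ A.lift.mono A.lift.maps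
  have hYl : ∀ l, eVariationOn (fun t => Y t l) (Icc 0 1) ≤
      eVariationOn (fun t => Z t l) (Icc 0 1) + ENNReal.ofReal δ := by
    intro l
    have e : (fun t => Y t l) = fun t => Z (γ t) l + (Y t l - Z (γ t) l) := by
      funext t; ring
    rw [e]
    refine (evar_add_le _ _ _).trans (add_le_add (hγ l) (hY l))
  have h3δ : ∑ _l : Fin 3, ENNReal.ofReal δ = ENNReal.ofReal (3 * δ) := by
    rw [Finset.sum_const, Finset.card_univ, Fintype.card_fin, nsmul_eq_mul,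
      ENNReal.ofReal_mul (by norm_num)]
    norm_num
  have k1 : ENNReal.ofReal (C * ϑ + 3 * ι) * ∑ l, eVariationOn (fun t => Y t l) (Icc 0 1) ≤
      ENNReal.ofReal (C * ϑ + 3 * ι) * ∑ l, eVariationOn (fun t => Z t l) (Icc 0 1) +
        ENNReal.ofReal ((C * ϑ + 3 * ι) * (3 * δ)) := by
    have h4 : ∑ l, eVariationOn (fun t => Y t l) (Icc 0 1) ≤
        ∑ l, eVariationOn (fun t => Z t l) (Icc 0 1) + ENNReal.ofReal (3 * δ) := by
      rw [← h3δ, ← Finset.sum_add_distrib]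
      exact Finset.sum_le_sum fun l _ => hYl l
    refine (mul_le_mul' le_rfl h4).trans ?_
    rw [mul_add, ← ENNReal.ofReal_mul (by positivity)]
  have k2 : ENNReal.ofReal (2 * C + 3 * C' + (2 * C + 3 * C' + 3 * ι) * μ) *
      ∑ l, eVariationOn (fun t => Y t l - Z (γ t) l) (Icc 0 1) ≤
      ENNReal.ofReal ((2 * C + 3 * C' + (2 * C + 3 * C' + 3 * ι) * μ) * (3 * δ)) := by
    rw [ENNReal.ofReal_mul (by positivity), ← h3δ]
    exact mul_le_mul' le_rfl (Finset.sum_le_sum fun l _ => hY l)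
  have k3 : ENNReal.ofReal (3 * ((C * ϑ + 3 * ι) +
      (2 * C + 3 * C' + (2 * C + 3 * C' + 3 * ι) * μ)) * δ + ee) =
      ENNReal.ofReal ((C * ϑ + 3 * ι) * (3 * δ)) +
      ENNReal.ofReal ((2 * C + 3 * C' + (2 * C + 3 * C' + 3 * ι) * μ) * (3 * δ)) +
      ENNReal.ofReal ee := by
    rw [← ENNReal.ofReal_add (by positivity) (by positivity),
      ← ENNReal.ofReal_add (by positivity) hee]
    congr 1
    ring
  rw [k3]
  calc _ ≤ ENNReal.ofReal (1 + 4 * C + 9 * C') * ∑ i ∈ I, eVariationOn (f i) (Icc 0 1) +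
        ((ENNReal.ofReal (C * ϑ + 3 * ι) * ∑ l, eVariationOn (fun t => Z t l) (Icc 0 1) +
        ENNReal.ofReal ((C * ϑ + 3 * ι) * (3 * δ))) +
        (ENNReal.ofReal ((2 * C + 3 * C' + (2 * C + 3 * C' + 3 * ι) * μ) * (3 * δ)) +
        (ENNReal.ofReal ((2 * C + 3 * C' + 3 * ι) * μ) *
        ∑ l, eVariationOn (fun t => q t l) (Icc 0 1) + ENNReal.ofReal ee))) + _ :=
        add_le_add (add_le_add le_rfl (add_le_add k1 (add_le_add k2 le_rfl))) hsum
    _ = _ := by ring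

end ArcP

end Vale.Agent.P073.H190.Tvp
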