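import Vale.Agent.P073.H190.TvpR

/-!
# P073, H190, [TV-P] (S): the crossings of `h2` against the crossings of `h1`
-/

open Set Metric Filter Topology
open scoped NNReal ENNReal

namespace Vale.Agent.P073.H190.Tvp

open _root_.P073 _root_.P073.H345 _root_.P073.H236 _root_.P073.PA691
open Vale.Agent.P073.St (V)
open Vale.Agent.P073.H471 Vale.Agent.P073.H267
open _root_.P073.H880.RP (thinL ROut3 Dat)
open _root_.P073.H880
open Vale.Agent.P073.H73 (Mesh)
open Vale.Agent.P073.H193 (Edges)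
open _root_.P073.Croft (levs onS cross)
open _root_.P073.Net (cnt)

variable {Ω Λ : Set V} {v : V} {K : BoxCx Λ v} {S : Rad K} {W : Wid K S} {B : Boxes W} {G : Geo B}
  {M : Mesh Ω} {E : Edges M} {D : Dat K M} {h1 h2 : ConHomeo Ω Λ} {L : PLev G}
  {ι : Type} {F : ι → Set V} {a b : V} {i : ι}

/-- the crossings of the segment with the levels of one direction, in the plate -/
def crK (L : PLev G) (h : ConHomeo Ω Λ) (a b : V) (s : K.S) (β : Bool) : Set ℝ :=
  cross (onS h.toFun a b) (tg s β) (levs (L.N s β) (L.a s β)) (PK G s)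

theorem seg_inj' (hab : a ≠ b) : Function.Injective fun t : ℝ => a + t • (b - a) := by
  intro p q hpq
  have h2 : (p - q) • (b - a) = 0 := by
    have := add_left_cancel hpq
    rw [sub_smul, this, sub_self]
  rcases smul_eq_zero.1 h2 with h3 | h3
  · linarith
  · exact absurd (sub_eq_zero.1 h3).symm hab

theorem mem_lv_tg {s : K.S} {β : Bool} {t : ℝ} : t ∈ L.lv s (tg s β) ↔
    t ∈ levs (L.N s β) (L.a s β) := by
  rw [PLev.lv_tg, (L.lvs s β).mem_L]
  constructor
  · rintro ⟨k, hk, h⟩; exact ⟨k, hk, h.symm⟩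
  · rintro ⟨k, hk, h⟩; exact ⟨k, hk, h.symm⟩

/-- the crossing points -/
def crX (L : PLev G) (h : ConHomeo Ω Λ) (A : Set V) (s : K.S) : Set V :=
  {x | x ∈ A ∧ ∃ l, h.toFun x l ∈ Vale.Agent.P073.H805.lvs L.lv s l}

theorem mem_crX {h : ConHomeo Ω Λ} {A : Set V} {s : K.S} {x : V} : x ∈ crX L h A s ↔
    x ∈ A ∧ ∃ β, h.toFun x (tg s β) ∈ levs (L.N s β) (L.a s β) := by
  unfold crX
  rw [mem_ofPred_eq, L.lvs_lv s]
  refine and_congr_right fun _ => ?_
  constructor
  · rintro ⟨l, hl⟩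
    obtain ⟨hln, -⟩ := PLev.mem_lv.1 hl
    refine ⟨bt s l, ?_⟩
    rw [← mem_lv_tg, tg_bt s hln]
    exact hl
  · rintro ⟨β, hβ⟩
    exact ⟨tg s β, mem_lv_tg.2 hβ⟩

/-- **the number of crossings in the plate does not increase** -/
theorem cnt_h2_le (O : ROut3 G E D h1 h2 L.lv F) (ht : ∀ s ∈ D.S₀, ∀ β, D.ht s β ≤ B.τ s / 2)
    (hab : a ≠ b) (hi : F i = segment ℝ a b) (hs : segment ℝ a b ⊆ Ω) {s : K.S} (hsS : s ∈ D.S₀)
    (hone : ∀ s' ∈ D.S₀, s' ≠ s → ∀ x ∈ segment ℝ a b, h1.toFun x ∉ D.PE G s') :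
    cnt (crK L h2 a b s true) + cnt (crK L h2 a b s false) ≤
      cnt (crK L h1 a b s true) + cnt (crK L h1 a b s false) := by
  classical
  obtain ⟨hE, hf2, hf1, hle⟩ := O.cnt i ⟨a, b, hi⟩ (by rw [hi]; exact hs) s hsS
    (fun s' hs' hne x hx => hone s' hs' hne x (by rwa [hi] at hx))
  rw [hi] at hE hf2 hf1 hle
  change (crX L h2 (segment ℝ a b) s).Finite at hf2
  change (crX L h1 (segment ℝ a b) s).Finite at hf1
  change (crX L h2 (segment ℝ a b) s).ncard ≤ (crX L h1 (segment ℝ a b) s).ncard at hle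
  set X1 := crX L h1 (segment ℝ a b) s with hX1
  set X2 := crX L h2 (segment ℝ a b) s with hX2
  set P := {x : V | h1.toFun x ∈ PK G s} with hP
  have hsubP : D.PE G s ⊆ PK G s :=
    (PE_sub_int (ht s hsS)).trans (interior_subset.trans (PB_sub_PK (by norm_num) s))
  -- off the plate the two maps agree
  have heq : ∀ x ∈ segment ℝ a b, x ∉ P → h2.toFun x = h1.toFun x := by
    intro x hx hxP
    refine O.off x (hs hx) fun s' hs' h4 => ?_
    by_cases hss : s' = s
    · subst hss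
      exact hxP (hsubP (interior_subset h4))
    · exact hone s' hs' hss x hx (interior_subset h4)
  have hdiff : X2 \ P = X1 \ P := by
    ext x
    constructor
    · rintro ⟨h3, h4⟩
      obtain ⟨h5, h6⟩ := mem_crX.1 h3
      refine ⟨mem_crX.2 ⟨h5, ?_⟩, h4⟩
      rwa [← heq x h5 h4]
    · rintro ⟨h3, h4⟩
      obtain ⟨h5, h6⟩ := mem_crX.1 h3
      refine ⟨mem_crX.2 ⟨h5, ?_⟩, h4⟩
      rwa [heq x h5 h4]
  have hcard : (X2 ∩ P).ncard ≤ (X1 ∩ P).ncard := by
    have e1 := Set.ncard_inter_add_ncard_sdiff_eq_ncard X1 P hf1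
    have e2 := Set.ncard_inter_add_ncard_sdiff_eq_ncard X2 P hf2
    rw [hdiff] at e2
    omega
  have hcard' : (X2 ∩ P).encard ≤ (X1 ∩ P).encard := by
    rw [← (hf2.inter_of_left P).cast_ncard_eq, ← (hf1.inter_of_left P).cast_ncard_eq]
    exact_mod_cast hcard
  -- the images of the crossing parameters
  set φ : ℝ → V := fun t => a + t • (b - a) with hφ
  have hφi : Function.Injective φ := seg_inj' hab
  have hup : φ '' (crK L h2 a b s true ∪ crK L h2 a b s false) ⊆ X2 ∩ P := by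
    rintro _ ⟨t, ht1, rfl⟩
    have : ∃ β, t ∈ crK L h2 a b s β := by
      rcases ht1 with h | h
      · exact ⟨_, h⟩
      · exact ⟨_, h⟩
    obtain ⟨β, ht2, h3, h4⟩ := this
    have hx : φ t ∈ segment ℝ a b := Croft.onS_mem ht2
    exact ⟨mem_crX.2 ⟨hx, β, h4⟩, (mem_PK_h2 O ht (hs hx) s).1 h3⟩
  have hdown : X1 ∩ P ⊆ φ '' (crK L h1 a b s true ∪ crK L h1 a b s false) := by
    rintro x ⟨h3, h4⟩
    obtain ⟨h5, β, h6⟩ := mem_crX.1 h3
    rw [segment_eq_image'] at h5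
    obtain ⟨t, ht1, rfl⟩ := h5
    have key : t ∈ crK L h1 a b s β := ⟨ht1, h4, h6⟩
    refine ⟨t, ?_, rfl⟩
    cases β
    · exact Or.inr key
    · exact Or.inl key
  have hdis : Disjoint (crK L h2 a b s true) (crK L h2 a b s false) := by
    rw [Set.disjoint_left]
    rintro t ⟨ht1, h3, h4⟩ ⟨-, -, h5⟩
    have hoff := hE.off (φ t) (Croft.onS_mem ht1) (tg s true) (tg s false)
      (by rw [L.lvs_lv s]; exact mem_lv_tg.2 h4) (by rw [L.lvs_lv s]; exact mem_lv_tg.2 h5)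
    exact tg_ne_not s true hoff
  have key : (crK L h2 a b s true).encard + (crK L h2 a b s false).encard ≤
      (crK L h1 a b s true).encard + (crK L h1 a b s false).encard := by
    rw [← Set.encard_union_eq hdis, ← hφi.encard_image]
    refine (Set.encard_le_encard hup).trans (hcard'.trans ((Set.encard_le_encard hdown).trans ?_))
    rw [hφi.encard_image]
    exact Set.encard_union_le _ _
  unfold _root_.P073.Net.cnt
  exact_mod_cast key

/-- a plate whose box of the exchange is not met -/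
theorem crK_eq (O : ROut3 G E D h1 h2 L.lv F) (ht : ∀ s ∈ D.S₀, ∀ β, D.ht s β ≤ B.τ s / 2)
    (hs : segment ℝ a b ⊆ Ω) {s : K.S}
    (hno : s ∈ D.S₀ → ∀ x ∈ segment ℝ a b, h1.toFun x ∉ D.PE G s) (β : Bool) :
    crK L h2 a b s β = crK L h1 a b s β := by
  have heq : ∀ t ∈ Icc (0:ℝ) 1, h1.toFun (a + t • (b - a)) ∈ PK G s →
      h2.toFun (a + t • (b - a)) = h1.toFun (a + t • (b - a)) := by
    intro t ht1 hK
    have hx : a + t • (b - a) ∈ segment ℝ a b := Croft.onS_mem ht1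
    refine O.off _ (hs hx) fun s' hs' h4 => ?_
    have h5 : h1.toFun (a + t • (b - a)) ∈ PK G s' :=
      (PE_sub_int (ht s' hs')).trans (interior_subset.trans (PB_sub_PK (by norm_num) s'))
        (interior_subset h4)
    have h6 := PK_unique h5 hK
    subst h6
    exact hno hs' _ hx (interior_subset h4)
  ext t
  constructor
  · rintro ⟨ht1, h3, h4⟩
    have hx : a + t • (b - a) ∈ segment ℝ a b := Croft.onS_mem ht1
    have h5 : h1.toFun (a + t • (b - a)) ∈ PK G s := (mem_PK_h2 O ht (hs hx) s).1 h3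
    have h6 := heq t ht1 h5
    refine ⟨ht1, h5, ?_⟩
    show h1.toFun (a + t • (b - a)) (tg s β) ∈ _
    rw [← h6]; exact h4
  · rintro ⟨ht1, h3, h4⟩
    have hx : a + t • (b - a) ∈ segment ℝ a b := Croft.onS_mem ht1
    have h6 := heq t ht1 h3
    refine ⟨ht1, (mem_PK_h2 O ht (hs hx) s).2 h3, ?_⟩
    show h2.toFun (a + t • (b - a)) (tg s β) ∈ _
    rw [h6]; exact h4

/-- **the weights of the crossings of `h2` against those of `h1`** -/
theorem sum_h2_le (O : ROut3 G E D h1 h2 L.lv F) (ht : ∀ s ∈ D.S₀, ∀ β, D.ht s β ≤ B.τ s / 2)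
    (hab : a ≠ b) (hi : F i = segment ℝ a b) (hs : segment ℝ a b ⊆ Ω)
    (hone : ∀ s ∈ D.S₀, ∀ s' ∈ D.S₀, (D.PE G s ∩ h1.toFun '' segment ℝ a b).Nonempty →
      (D.PE G s' ∩ h1.toFun '' segment ℝ a b).Nonempty → s = s')
    {ρ : ℝ} (hρ : 1 ≤ ρ) (hom : ∀ s ∈ D.S₀, ∀ β, L.om s β ≤ ρ * L.om s (!β)) :
    ∑' o : D.S₀ × Bool, ENNReal.ofReal (L.om o.1.1 o.2) * cnt (crK L h2 a b o.1.1 o.2) ≤
      ENNReal.ofReal ρ * ∑' o : D.S₀ × Bool, ENNReal.ofReal (L.om o.1.1 o.2) *
        cnt (crK L h1 a b o.1.1 o.2) := by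
  have hρ0 : 0 ≤ ρ := by linarith
  have e1 := ENNReal.tsum_prod (f := fun (s : D.S₀) (β : Bool) =>
    ENNReal.ofReal (L.om s.1 β) * cnt (crK L h2 a b s.1 β))
  have e2 := ENNReal.tsum_prod (f := fun (s : D.S₀) (β : Bool) =>
    ENNReal.ofReal (L.om s.1 β) * cnt (crK L h1 a b s.1 β))
  rw [e1, e2, ← ENNReal.tsum_mul_left]
  refine ENNReal.tsum_le_tsum fun s => ?_
  simp only [tsum_bool]
  by_cases hmet : (D.PE G s.1 ∩ h1.toFun '' segment ℝ a b).Nonempty
  · have h3 := cnt_h2_le O ht hab hi hs s.2 (fun s' hs' hne x hx h4 =>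
      hne (hone s' hs' s.1 s.2 ⟨_, h4, x, hx, rfl⟩ hmet))
    set θ : ℝ := max (L.om s.1 true) (L.om s.1 false) with hθ
    have hθb : ∀ β, L.om s.1 β ≤ θ := by
      rintro (_ | _)
      · exact le_max_right _ _
      · exact le_max_left _ _
    have hθρ : ∀ β, θ ≤ ρ * L.om s.1 β := by
      intro β
      have h1 : L.om s.1 β ≤ ρ * L.om s.1 β := by
        have := (L.om_pos s.1 β).le
        nlinarith
      have h2 : L.om s.1 (!β) ≤ ρ * L.om s.1 β := by
        have := hom s.1 s.2 (!β)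
        rwa [Bool.not_not] at this
      cases β
      · exact max_le h2 h1
      · exact max_le h1 h2
    calc ENNReal.ofReal (L.om s.1 false) * cnt (crK L h2 a b s.1 false) +
          ENNReal.ofReal (L.om s.1 true) * cnt (crK L h2 a b s.1 true)
        ≤ ENNReal.ofReal θ * cnt (crK L h2 a b s.1 false) +
          ENNReal.ofReal θ * cnt (crK L h2 a b s.1 true) :=
          add_le_add (mul_le_mul' (ENNReal.ofReal_le_ofReal (hθb _)) le_rfl)
            (mul_le_mul' (ENNReal.ofReal_le_ofReal (hθb _)) le_rfl)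
      _ = ENNReal.ofReal θ * (cnt (crK L h2 a b s.1 true) + cnt (crK L h2 a b s.1 false)) := by
          ring
      _ ≤ ENNReal.ofReal θ * (cnt (crK L h1 a b s.1 true) + cnt (crK L h1 a b s.1 false)) :=
          mul_le_mul' le_rfl h3
      _ = ENNReal.ofReal θ * cnt (crK L h1 a b s.1 false) +
          ENNReal.ofReal θ * cnt (crK L h1 a b s.1 true) := by ring
      _ ≤ ENNReal.ofReal ρ * (ENNReal.ofReal (L.om s.1 false) * cnt (crK L h1 a b s.1 false) +
          ENNReal.ofReal (L.om s.1 true) * cnt (crK L h1 a b s.1 true)) := by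
          rw [mul_add, ← mul_assoc, ← mul_assoc, ← ENNReal.ofReal_mul hρ0,
            ← ENNReal.ofReal_mul hρ0]
          exact add_le_add (mul_le_mul' (ENNReal.ofReal_le_ofReal (hθρ _)) le_rfl)
            (mul_le_mul' (ENNReal.ofReal_le_ofReal (hθρ _)) le_rfl)
  · have h3 : ∀ β, crK L h2 a b s.1 β = crK L h1 a b s.1 β := crK_eq O ht hs
      (fun _ x hx h4 => hmet ⟨_, h4, x, hx, rfl⟩)
    rw [h3, h3]
    have h4 : (1 : ℝ≥0∞) ≤ ENNReal.ofReal ρ := by
      rw [← ENNReal.ofReal_one]; exact ENNReal.ofReal_le_ofReal hρ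
    calc _ = 1 * (ENNReal.ofReal (L.om s.1 false) * cnt (crK L h1 a b s.1 false) +
          ENNReal.ofReal (L.om s.1 true) * cnt (crK L h1 a b s.1 true)) := by rw [one_mul]
      _ ≤ _ := mul_le_mul' h4 le_rfl

/-- in 244's form -/
theorem sum_wtP (e : E.ε) : ∑' o : D.S₀ × Bool, ENNReal.ofReal (L.om o.1.1 o.2) *
    cnt (crK L h1 (E.a e) (E.b e) o.1.1 o.2) ≤ ∑' q : K.S × Bool,
      L.wtP E h1 (fun q => PK G q.1) e q := by
  have hinj : Function.Injective fun o : D.S₀ × Bool => ((o.1.1, o.2) : K.S × Bool) := by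
    rintro ⟨s, β⟩ ⟨s', β'⟩ h
    obtain ⟨h3, h4⟩ := Prod.mk.inj h
    exact Prod.ext (Subtype.ext h3) h4
  exact ENNReal.tsum_comp_le_tsum_of_injective hinj
    (fun q : K.S × Bool => L.wtP E h1 (fun q => PK G q.1) e q)

end Vale.Agent.P073.H190.Tvp
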