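import Vale.Agent.P073.H190.TwoP
import Vale.Agent.P073.H190.TvpR

/-!
# P073, H190, [TV-P] for the two-stage staircases (J): local inequalities
-/

open Set Metric Filter Topology
open scoped NNReal ENNReal

namespace Vale.Agent.P073.H190.Tvp

open _root_.P073 _root_.P073.H345 _root_.P073.H236 _root_.P073.PA691
open _root_.P073.H190 (hgt2 IsS2 PT2 hgt2_nonneg hgt2_zero hgt2_full cl_hgt2 abs_hgt2_sub_le)
open Vale.Agent.P073.St (V)
open Vale.Agent.P073.H471 Vale.Agent.P073.H267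
open PSS (Only)

variable {Λ : Set V} {v : V} {K : BoxCx Λ v} {S : Rad K} {W : Wid K S} {B : Boxes W} {G : Geo B}

namespace P2

variable {L : PLev G} {S₀ : Set K.S} {F : Bool → BFam 3 S₀ Λ} {μ : Bool → S₀ → ℝ}
  {T : Bool → ConHomeo Λ Λ}

/-- the two-stage fade -/
noncomputable def fd (F : Bool → BFam 3 S₀ Λ) (μ : Bool → S₀ → ℝ) (β : Bool) (s : S₀) (y : V) :
    ℝ := hgt2 (F β) (μ β) s y

theorem j_eq (P : PT2 L S₀ F μ T) (β : Bool) (s : S₀) : ((F β).B s).j = tg s.1 β := (P.B β s).j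

theorem fd_nonneg (P : PT2 L S₀ F μ T) (β : Bool) (s : S₀) (y : V) : 0 ≤ fd F μ β s y :=
  hgt2_nonneg (P.μ0 β s) y

/-- one family, coordinate along the levels -/
theorem one_tg (P : PT2 L S₀ F μ T) {s : S₀} {y : V} (hy : Only G S₀ s y) (β : Bool) :
    (T β).toFun y (tg s.1 β) = cl ((F β).σ s) (fd F μ β s y) (y (tg s.1 β)) := by
  by_cases h : y ∈ ((F β).B s).K
  · have := (P.isS β).same h
    rw [j_eq P] at this
    exact this
  · have h1 : ∀ s', y ∉ ((F β).B s').K := by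
      intro s' hs'
      by_cases hss : s' = s
      · rw [hss] at hs'; exact h hs'
      · exact hy s' hss (P.mem_K hs')
    rw [(P.isS β).off y h1]
    symm
    by_cases h2 : y ((F β).B s).j ≤ ((F β).B s).al ∨ ((F β).B s).be ≤ y ((F β).B s).j
    · rw [j_eq P] at h2
      exact cl_fix (fd_nonneg P _ _ _) ((F β).σ_out h2)
    · push Not at h2
      have h3 : fd F μ β s y = 0 := by
        have h4 : y ∉ cyl ((F β).B s) := fun h4 => h (mem_K _ |>.2 ⟨⟨h2.1.le, h2.2.le⟩, h4⟩)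
        simp only [cyl, mem_ofPred_eq, not_forall] at h4
        obtain ⟨i, hi, h5⟩ := h4
        refine hgt2_zero hi ?_
        by_contra h6
        push Not at h6
        exact h5 ⟨h6.1.le, h6.2.le⟩
      rw [h3, cl_zero]

/-- one family, other coordinates -/
theorem one_ne (P : PT2 L S₀ F μ T) {s : S₀} {y : V} (hy : Only G S₀ s y) {β : Bool} {i : Fin 3}
    (hi : i ≠ tg s.1 β) : (T β).toFun y i = y i := by
  by_cases h : y ∈ ((F β).B s).K
  · exact (P.isS β).ne h (by rw [j_eq P]; exact hi)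
  · have h1 : ∀ s', y ∉ ((F β).B s').K := by
      intro s' hs'
      by_cases hss : s' = s
      · rw [hss] at hs'; exact h hs'
      · exact hy s' hss (P.mem_K hs')
    rw [(P.isS β).off y h1]

theorem only_T (P : PT2 L S₀ F μ T) {s : S₀} {y : V} (hy : Only G S₀ s y) (β : Bool) :
    Only G S₀ s ((T β).toFun y) := by
  intro s' hss hs'
  by_cases h : ∃ s'', y ∈ ((F β).B s'').K
  · obtain ⟨s'', h1⟩ := h
    have h2 : (T β).toFun y ∈ ((F β).B s'').K := (P.isS β).mem (P.μ0 β s'') h1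
    have h3 := P.mem_K h1
    have h4 := P.mem_K h2
    have h5 : s' = s'' := Subtype.ext (PK_unique hs' h4)
    rw [← h5] at h3
    exact hy s' hss h3
  · push Not at h
    rw [(P.isS β).off y h] at hs'
    exact hy s' hss hs'

/-- the bumps of the second family do not see the first family -/
theorem bmp_true (P : PT2 L S₀ F μ T) {s : S₀} {y : V} (hy : Only G S₀ s y) (C : ℝ) :
    bmp ((F true).B s).j ((F true).B s).lo ((F true).B s).hi ((F true).B s).r C
      ((T false).toFun y) =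
    bmp ((F true).B s).j ((F true).B s).lo ((F true).B s).hi ((F true).B s).r C y := by
  have hp := Geo.p_pos (G := G) s.1
  have hpa := Geo.p_a (G := G) s.1
  by_cases h : y ∈ ((F false).B s).K
  · have h2 : (T false).toFun y ∈ ((F false).B s).K := (P.isS false).mem (P.μ0 false s) h
    have w1 := (PLev.mem_bxK.1 ((P.B _ s).sub_K h)).2
    have w2 := (PLev.mem_bxK.1 ((P.B _ s).sub_K h2)).2
    unfold H236.bmp
    congr 2
    refine Finset.inf'_congr _ rfl fun i _ => ?_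
    unfold gi
    by_cases hi : i = ((F true).B s).j
    · rw [if_pos hi, if_pos hi]
    · rw [if_neg hi, if_neg hi]
      rw [j_eq P] at hi
      by_cases hi' : i = tg s.1 false
      · have hr := ((F true).B s).hr i
        have e1 : ((F true).B s).lo i = K.slo s.1 i + 7 / 8 * G.p s.1 := by
          rw [(P.B true s).lo]
          show (if i = K.nrm s.1 then _ else _) = _
          rw [if_neg (by rw [hi']; exact tg_ne _ _)]
        have e2 : ((F true).B s).hi i = K.shi s.1 i - 7 / 8 * G.p s.1 := by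
          rw [(P.B true s).hi]
          show (if i = K.nrm s.1 then _ else _) = _
          rw [if_neg (by rw [hi']; exact tg_ne _ _)]
        have key : ∀ z : V, K.slo s.1 (tg s.1 false) + G.a s.1 ≤ z (tg s.1 false) ∧
            z (tg s.1 false) ≤ K.shi s.1 (tg s.1 false) - G.a s.1 →
            min 1 (min (1 + (z i - ((F true).B s).lo i) / ((F true).B s).r i)
              (1 + (((F true).B s).hi i - z i) / ((F true).B s).r i)) = 1 := by
          intro z hz
          rw [← hi'] at hz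
          refine min_eq_left (le_min ?_ ?_)
          · have : 0 ≤ (z i - ((F true).B s).lo i) / ((F true).B s).r i :=
              div_nonneg (by rw [e1]; linarith [hz.1]) hr.le
            linarith
          · have : 0 ≤ (((F true).B s).hi i - z i) / ((F true).B s).r i :=
              div_nonneg (by rw [e2]; linarith [hz.2]) hr.le
            linarith
        rw [key _ w2, key _ w1]
      · rw [one_ne P hy hi']
  · have h1 : ∀ s', y ∉ ((F false).B s').K := by
      intro s' hs'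
      by_cases hss : s' = s
      · rw [hss] at hs'; exact h hs'
      · exact hy s' hss (P.mem_K hs')
    rw [(P.isS false).off y h1]

theorem fd_true (P : PT2 L S₀ F μ T) {s : S₀} {y : V} (hy : Only G S₀ s y) :
    fd F μ true s ((T false).toFun y) = fd F μ true s y := by
  unfold fd hgt2
  rw [bmp_true P hy, bmp_true P hy]

/-- **the composition, tangential coordinates** -/
theorem map_tg (P : PT2 L S₀ F μ T) {s : S₀} {y : V} (hy : Only G S₀ s y) (β : Bool) :
    PSS.map T y (tg s.1 β) = cl ((F β).σ s) (fd F μ β s y) (y (tg s.1 β)) := by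
  have h1 := only_T P hy false
  unfold PSS.map
  cases β
  · rw [one_ne P h1 (by exact tg_ne_not s.1 false), one_tg P hy]
  · rw [one_tg P h1, fd_true P hy, one_ne P (β := false) hy (tg_ne_not s.1 true)]

/-- the composition, normal coordinate -/
theorem map_nrm (P : PT2 L S₀ F μ T) {s : S₀} {y : V} (hy : Only G S₀ s y) :
    PSS.map T y (K.nrm s.1) = y (K.nrm s.1) := by
  have h1 := only_T P hy false
  unfold PSS.map
  rw [one_ne P h1 (tg_ne _ _).symm, one_ne P hy (tg_ne _ _).symm]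

/-- off the plates -/
theorem map_off (P : PT2 L S₀ F μ T) {y : V} (hy : ∀ s : S₀, y ∉ PK G s.1) : PSS.map T y = y := by
  have h1 : ∀ β s, y ∉ ((F β).B s).K := fun β s h => hy s (P.mem_K h)
  unfold PSS.map
  rw [(P.isS false).off y (h1 false), (P.isS true).off y (h1 true)]

theorem map_tg_off (P : PT2 L S₀ F μ T) {s : S₀} {y : V} (hy : Only G S₀ s y) {β : Bool}
    (h : y ∉ ((F β).B s).K) : PSS.map T y (tg s.1 β) = y (tg s.1 β) := by
  have h1 : ∀ s', y ∉ ((F β).B s').K := by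
    intro s' hs'
    by_cases hss : s' = s
    · rw [hss] at hs'; exact h hs'
    · exact hy s' hss (P.mem_K hs')
  rw [map_tg P hy, ← one_tg P hy, (P.isS β).off y h1]

theorem r_le (P : PT2 L S₀ F μ T) (β : Bool) (s : S₀) (l : Fin 3) :
    B.τ s.1 / 4 ≤ ((F β).B s).r l := by
  have hτ := B.τ_pos s.1
  have hp := G.τ_p s.1
  refine le_trans ?_ ((P.B β s).r2 l)
  show _ ≤ (if l = K.nrm s.1 then B.τ s.1 / 2 else G.p s.1 / 8) / 2
  split_ifs
  · linarith
  · linarith

/-- the fade is Lipschitz -/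
theorem fd_sub_le (P : PT2 L S₀ F μ T) (β : Bool) (s : S₀) (y y' : V) :
    |fd F μ β s y - fd F μ β s y'| ≤ 8 * (F β).D s / B.τ s.1 * ‖y - y'‖ := by
  have hτ := B.τ_pos s.1
  refine (abs_hgt2_sub_le (P.μ0 β s) (P.μD β s) (d := ‖y - y'‖) (δ := B.τ s.1 / 4) (by linarith)
    (r_le P β s) (fun i _ => ?_) (norm_nonneg _)).trans (le_of_eq ?_)
  · rw [← Pi.sub_apply, ← Real.norm_eq_abs]
    exact norm_le_pi_norm _ i
  · field_simp
    ring

/-- the small stage is Lipschitz with a small constant -/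
theorem fs_sub_le (P : PT2 L S₀ F μ T) (β : Bool) (s : S₀) (y y' : V) :
    |bmp ((F β).B s).j ((F β).B s).lo ((F β).B s).hi ((F β).B s).r (2 * μ β s) y -
      bmp ((F β).B s).j ((F β).B s).lo ((F β).B s).hi ((F β).B s).r (2 * μ β s) y'| ≤
      8 * μ β s / B.τ s.1 * ‖y - y'‖ := by
  have hτ := B.τ_pos s.1
  have := P.μ0 β s
  refine (abs_bmp_sub_le (by linarith) (d := ‖y - y'‖) (δ := B.τ s.1 / 4) (by linarith)
    (r_le P β s) (fun i _ => ?_) (norm_nonneg _)).trans (le_of_eq ?_)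
  · rw [← Pi.sub_apply, ← Real.norm_eq_abs]
    exact norm_le_pi_norm _ i
  · field_simp
    ring

/-- **in the full zone, in the window** -/
theorem win_full (P : PT2 L S₀ F μ T) {s : S₀} {y y' : V} (hy : Only G S₀ s y)
    (hy' : Only G S₀ s y') (β : Bool) (hf : ((F β).B s).Full y) (hf' : ((F β).B s).Full y') :
    |wn (F β) s (PSS.map T y (tg s.1 β)) - wn (F β) s (PSS.map T y' (tg s.1 β))| ≤
      slA (F β) s * ∑ k ∈ Finset.range ((F β).B s).N, |fl ((F β).B s).c (((F β).B s).a k)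
        (y (tg s.1 β)) - fl ((F β).B s).c (((F β).B s).a k) (y' (tg s.1 β))| +
      (F β).e s / ((F β).B s).c * |y (tg s.1 β) - y' (tg s.1 β)| := by
  rw [map_tg P hy, map_tg P hy', wn_cl _ _ (fd_nonneg P _ _ _), wn_cl _ _ (fd_nonneg P _ _ _)]
  have e1 : fd F μ β s y = (F β).D s := hgt2_full (P.μD β s) hf
  have e2 : fd F μ β s y' = (F β).D s := hgt2_full (P.μD β s) hf'
  rw [e1, e2, cl_eq (k := (F β).σ s) ((F β).hD s _), cl_eq (k := (F β).σ s) ((F β).hD s _)]
  refine (σ_wn_sub (F β) s _ _).trans (add_le_add le_rfl ?_)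
  exact mul_le_mul_of_nonneg_left (abs_clamp_sub_le _ _ _ _)
    (div_nonneg ((F β).he s).le ((F β).B s).lvs.c0.le)

/-- **in the full zone** -/
theorem abs_full (P : PT2 L S₀ F μ T) {s : S₀} {y y' : V} (hy : Only G S₀ s y)
    (hy' : Only G S₀ s y') (β : Bool) (hf : ((F β).B s).Full y) (hf' : ((F β).B s).Full y') :
    |PSS.map T y (tg s.1 β) - PSS.map T y' (tg s.1 β)| ≤
      slA (F β) s * ∑ k ∈ Finset.range ((F β).B s).N, |fl ((F β).B s).c (((F β).B s).a k)
        (y (tg s.1 β)) - fl ((F β).B s).c (((F β).B s).a k) (y' (tg s.1 β))| +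
      ((F β).e s / ((F β).B s).c + 1) * |y (tg s.1 β) - y' (tg s.1 β)| := by
  rw [map_tg P hy, map_tg P hy']
  have e1 : fd F μ β s y = (F β).D s := hgt2_full (P.μD β s) hf
  have e2 : fd F μ β s y' = (F β).D s := hgt2_full (P.μD β s) hf'
  rw [e1, e2, cl_eq (k := (F β).σ s) ((F β).hD s _), cl_eq (k := (F β).σ s) ((F β).hD s _)]
  exact σ_sub (F β) s _ _

/-- the cost `m` of the fade between two points: `8 D / τ`, or `8 μ / τ` if both displacements are
at most `μ` -/
def Cost (B : Boxes W) (F : BFam 3 S₀ Λ) (μ : S₀ → ℝ) (s : S₀) (t t' m : ℝ) : Prop :=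
  8 * F.D s / B.τ s.1 ≤ m ∨ (|F.σ s t - t| ≤ μ s ∧ |F.σ s t' - t'| ≤ μ s ∧ 8 * μ s / B.τ s.1 ≤ m)

/-- the displacement in the window -/
theorem disp_wn (F : BFam 3 S₀ Λ) (s : S₀) (t : ℝ) :
    |F.σ s (wn F s t) - wn F s t| ≤ |F.σ s t - t| := by
  have hab := (F.B s).al_lt_be.le
  unfold wn
  rcases le_total t (F.B s).al with h | h
  · rw [clamp_of_le hab h, F.σ_out (Or.inl le_rfl), sub_self, abs_zero]
    exact abs_nonneg _
  rcases le_total (F.B s).be t with h' | h'
  · rw [clamp_of_ge hab h', F.σ_out (Or.inr le_rfl), sub_self, abs_zero]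
    exact abs_nonneg _
  rw [H581.clamp_of_mem ⟨h, h'⟩]

/-- **in the window, with the fade** -/
theorem win_le (P : PT2 L S₀ F μ T) {s : S₀} {y y' : V} (hy : Only G S₀ s y)
    (hy' : Only G S₀ s y') (β : Bool) {m : ℝ}
    (hm : Cost B (F β) (μ β) s (y (tg s.1 β)) (y' (tg s.1 β)) m) :
    |wn (F β) s (PSS.map T y (tg s.1 β)) - wn (F β) s (PSS.map T y' (tg s.1 β))| ≤
      slA (F β) s * ∑ k ∈ Finset.range ((F β).B s).N, |fl ((F β).B s).c (((F β).B s).a k)
        (y (tg s.1 β)) - fl ((F β).B s).c (((F β).B s).a k) (y' (tg s.1 β))| +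
      ((F β).e s / ((F β).B s).c + 1) * |wn (F β) s (y (tg s.1 β)) - wn (F β) s (y' (tg s.1 β))| +
      m * ‖y - y'‖ := by
  rw [map_tg P hy, map_tg P hy', wn_cl _ _ (fd_nonneg P _ _ _), wn_cl _ _ (fd_nonneg P _ _ _)]
  have h1 := σ_wn_sub (F β) s (y (tg s.1 β)) (y' (tg s.1 β))
  rcases hm with hm | ⟨d1, d2, hm⟩
  · refine (abs_cl_sub_le3 _ _ _ _ _).trans ?_
    have h2 := fd_sub_le P β s y y'
    have h3 := mul_le_mul_of_nonneg_right hm (norm_nonneg (y - y'))
    linarith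
  · have c1 : cl ((F β).σ s) (fd F μ β s y) (wn (F β) s (y (tg s.1 β))) = _ :=
      cl_hgt2 (P.μ0 β s) ((disp_wn (F β) s _).trans d1) y
    have c2 : cl ((F β).σ s) (fd F μ β s y') (wn (F β) s (y' (tg s.1 β))) = _ :=
      cl_hgt2 (P.μ0 β s) ((disp_wn (F β) s _).trans d2) y'
    rw [c1, c2]
    refine (abs_cl_sub_le3 _ _ _ _ _).trans ?_
    have h2 := fs_sub_le P β s y y'
    have h3 := mul_le_mul_of_nonneg_right hm (norm_nonneg (y - y'))
    linarith

/-- **with the fade** -/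
theorem abs_le' (P : PT2 L S₀ F μ T) {s : S₀} {y y' : V} (hy : Only G S₀ s y)
    (hy' : Only G S₀ s y') (β : Bool) {m : ℝ}
    (hm : Cost B (F β) (μ β) s (y (tg s.1 β)) (y' (tg s.1 β)) m) :
    |PSS.map T y (tg s.1 β) - PSS.map T y' (tg s.1 β)| ≤
      slA (F β) s * ∑ k ∈ Finset.range ((F β).B s).N, |fl ((F β).B s).c (((F β).B s).a k)
        (y (tg s.1 β)) - fl ((F β).B s).c (((F β).B s).a k) (y' (tg s.1 β))| +
      ((F β).e s / ((F β).B s).c + 2) * |y (tg s.1 β) - y' (tg s.1 β)| +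
      m * ‖y - y'‖ := by
  rw [map_tg P hy, map_tg P hy']
  have h1 := σ_sub (F β) s (y (tg s.1 β)) (y' (tg s.1 β))
  rcases hm with hm | ⟨d1, d2, hm⟩
  · refine (abs_cl_sub_le3 _ _ _ _ _).trans ?_
    have h2 := fd_sub_le P β s y y'
    have h3 := mul_le_mul_of_nonneg_right hm (norm_nonneg (y - y'))
    linarith
  · have c1 : cl ((F β).σ s) (fd F μ β s y) (y (tg s.1 β)) = _ := cl_hgt2 (P.μ0 β s) d1 y
    have c2 : cl ((F β).σ s) (fd F μ β s y') (y' (tg s.1 β)) = _ := cl_hgt2 (P.μ0 β s) d2 y'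
    rw [c1, c2]
    refine (abs_cl_sub_le3 _ _ _ _ _).trans ?_
    have h2 := fs_sub_le P β s y y'
    have h3 := mul_le_mul_of_nonneg_right hm (norm_nonneg (y - y'))
    linarith

end P2

namespace ArcP

open _root_.P073.H880.RP (thinL)

variable {L : PLev G} {S₀ : Set K.S} {c : K.S → Bool → ℝ} {h0 : ∀ s β, 0 < c s β}
    {h1 : ∀ s β, c s β ≤ L.c s β} {F : Bool → BFam 3 S₀ Λ} {T : Bool → ConHomeo Λ Λ}
    {κ : Bool → V → V} {U : S₀ → Set V} {Z q Y : ℝ → V} {γ : ℝ → ℝ} {c₁ : ℝ}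
    {μw : Bool → S₀ → ℝ} {T₂ : Bool → ConHomeo Λ Λ}

variable (A : ArcP L S₀ c h0 h1 F T κ U Z q Y γ c₁) (P : PT2 (thinL L c h0 h1) S₀ F μw T₂)

include A P in
/-- **zone 2** for the two-stage maps -/
theorem z2' {t t' ϑ m : ℝ} {s : S₀}
    (hϑ : ∀ β, (F β).e s / ((F β).B s).c ≤ ϑ)
    (hm : ∀ β, P2.Cost B (F β) (μw β) s (Y t (tg s.1 β)) (Y t' (tg s.1 β)) m)
    (hm0 : 0 ≤ m) (ho : PSS.Only G S₀ s (Y t)) (ho' : PSS.Only G S₀ s (Y t'))
    (hK : ∀ β, Y t ∉ ((F β).B s).K → Y t' ∉ ((F β).B s).K) :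
    (∀ l, |H T₂ Y t l - H T₂ Y t' l| ≤
      f3 F Y s t t' l + (ϑ + 2) * |Y t l - Y t' l| + m * ‖Y t - Y t'‖) ∧
    ∀ β, |wn (F β) s (H T₂ Y t (tg s.1 β)) - wn (F β) s (H T₂ Y t' (tg s.1 β))| ≤
      fS F Y s t t' β + (ϑ + 1) * |wn (F β) s (Y t (tg s.1 β)) - wn (F β) s (Y t' (tg s.1 β))| +
      m * ‖Y t - Y t'‖ := by
  have hϑ0 : 0 ≤ ϑ := (div_nonneg ((F true).he s).le ((F true).B s).lvs.c0.le).trans (hϑ true)
  have hμN : 0 ≤ m * ‖Y t - Y t'‖ := mul_nonneg hm0 (norm_nonneg _)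
  constructor
  · intro l
    by_cases hl : l = K.nrm s.1
    · have e1 : H T₂ Y t l = Y t l := by rw [hl]; exact P2.map_nrm P ho
      have e2 : H T₂ Y t' l = Y t' l := by rw [hl]; exact P2.map_nrm P ho'
      rw [e1, e2]
      have h2 := f3_nonneg (F := F) (Y := Y) s t t' l
      nlinarith [abs_nonneg (Y t l - Y t' l)]
    · obtain ⟨β, rfl⟩ : ∃ β, l = tg s.1 β := ⟨bt s.1 l, (tg_bt s.1 hl).symm⟩
      rw [f3_tg]
      unfold fS
      split_ifs with h
      · have h2 := P2.abs_le' P ho ho' β (hm β)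
        have h3 := mul_le_mul_of_nonneg_right (hϑ β) (abs_nonneg (Y t (tg s.1 β) - Y t' (tg s.1 β)))
        unfold H flt
        linarith
      · have e1 : H T₂ Y t (tg s.1 β) = Y t (tg s.1 β) := P2.map_tg_off P ho h
        have e2 : H T₂ Y t' (tg s.1 β) = Y t' (tg s.1 β) := P2.map_tg_off P ho' (hK β h)
        rw [e1, e2]
        nlinarith [abs_nonneg (Y t (tg s.1 β) - Y t' (tg s.1 β))]
  · intro β
    unfold fS
    split_ifs with h
    · have h2 := P2.win_le P ho ho' β (hm β)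
      have h3 := mul_le_mul_of_nonneg_right (hϑ β)
        (abs_nonneg (wn (F β) s (Y t (tg s.1 β)) - wn (F β) s (Y t' (tg s.1 β))))
      unfold H flt
      linarith
    · have e1 : H T₂ Y t (tg s.1 β) = Y t (tg s.1 β) := P2.map_tg_off P ho h
      have e2 : H T₂ Y t' (tg s.1 β) = Y t' (tg s.1 β) := P2.map_tg_off P ho' (hK β h)
      rw [e1, e2]
      nlinarith [abs_nonneg (wn (F β) s (Y t (tg s.1 β)) - wn (F β) s (Y t' (tg s.1 β)))]

include A P in
/-- **zone 1** for the two-stage maps -/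
theorem z1' {t t' ϑ : ℝ} {s : S₀}
    (hϑ : ∀ β, (F β).e s / ((F β).B s).c ≤ ϑ) (ho : PSS.Only G S₀ s (Y t))
    (ho' : PSS.Only G S₀ s (Y t'))
    (hK : ∀ β, Y t ∉ ((F β).B s).K → Y t' ∉ ((F β).B s).K)
    (hf : Y t ∈ G.PB (7 / 8) s.1) (hf' : Y t' ∈ G.PB (7 / 8) s.1)
    (hw : ∀ β, Y t ∉ ((F β).B s).K → wn (F β) s (Y t (tg s.1 β)) = wn (F β) s (Y t' (tg s.1 β))) :
    (∀ l, |H T₂ Y t l - H T₂ Y t' l| ≤ f3 F Y s t t' l + (ϑ + 1) * |Y t l - Y t' l|) ∧
    ∀ β, |wn (F β) s (H T₂ Y t (tg s.1 β)) - wn (F β) s (H T₂ Y t' (tg s.1 β))| ≤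
      fS F Y s t t' β + ϑ * |Y t (tg s.1 β) - Y t' (tg s.1 β)| := by
  have hϑ0 : 0 ≤ ϑ := (div_nonneg ((F true).he s).le ((F true).B s).lvs.c0.le).trans (hϑ true)
  have hfull : ∀ β, ∀ y ∈ G.PB (7 / 8) s.1, ((F β).B s).Full y := by
    intro β y hy
    exact (A.ps.B β s).full.2 (PLev.PB_full hy)
  constructor
  · intro l
    by_cases hl : l = K.nrm s.1
    · have e1 : H T₂ Y t l = Y t l := by rw [hl]; exact P2.map_nrm P ho
      have e2 : H T₂ Y t' l = Y t' l := by rw [hl]; exact P2.map_nrm P ho'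
      rw [e1, e2]
      have h2 := f3_nonneg (F := F) (Y := Y) s t t' l
      nlinarith [abs_nonneg (Y t l - Y t' l)]
    · obtain ⟨β, rfl⟩ : ∃ β, l = tg s.1 β := ⟨bt s.1 l, (tg_bt s.1 hl).symm⟩
      rw [f3_tg]
      unfold fS
      split_ifs with h
      · have h2 := P2.abs_full P ho ho' β (hfull β _ hf) (hfull β _ hf')
        have h3 := mul_le_mul_of_nonneg_right (hϑ β) (abs_nonneg (Y t (tg s.1 β) - Y t' (tg s.1 β)))
        unfold H flt
        linarith
      · have e1 : H T₂ Y t (tg s.1 β) = Y t (tg s.1 β) := P2.map_tg_off P ho h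
        have e2 : H T₂ Y t' (tg s.1 β) = Y t' (tg s.1 β) := P2.map_tg_off P ho' (hK β h)
        rw [e1, e2]
        nlinarith [abs_nonneg (Y t (tg s.1 β) - Y t' (tg s.1 β))]
  · intro β
    unfold fS
    split_ifs with h
    · have h2 := P2.win_full P ho ho' β (hfull β _ hf) (hfull β _ hf')
      have h3 := mul_le_mul_of_nonneg_right (hϑ β) (abs_nonneg (Y t (tg s.1 β) - Y t' (tg s.1 β)))
      unfold H flt
      linarith
    · have e1 : H T₂ Y t (tg s.1 β) = Y t (tg s.1 β) := P2.map_tg_off P ho h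
      have e2 : H T₂ Y t' (tg s.1 β) = Y t' (tg s.1 β) := P2.map_tg_off P ho' (hK β h)
      rw [e1, e2, hw β h, sub_self, abs_zero]
      nlinarith [abs_nonneg (Y t (tg s.1 β) - Y t' (tg s.1 β))]

end ArcP

end Vale.Agent.P073.H190.Tvp
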