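import Vale.Agent.P073.H190.TwoJ

/-!
# P073, H190, [TV-P] for the two-stage staircases (M): the real inequality
-/

open Set Metric Filter Topology
open scoped NNReal ENNReal

namespace Vale.Agent.P073.H190.Tvp

open _root_.P073 _root_.P073.H345 _root_.P073.H236 _root_.P073.PA691
open _root_.P073.H190 (hgt2 IsS2 PT2)
open Vale.Agent.P073.St (V)
open Vale.Agent.P073.H471 Vale.Agent.P073.H267
open _root_.P073.H880.RP (thinL)

variable {Ω Λ : Set V} {v : V} {K : BoxCx Λ v} {S : Rad K} {W : Wid K S} {B : Boxes W} {G : Geo B}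

/-- **local control of a function `g` on an arc**, two-stage staircases. (i) In the full zone by the
positions in the windows (and a small multiple of everything); (ii) in a plate, off the boxes of the
exchange, also by the coordinates in `A`, where EITHER `A` is everything OR the staircases move the
points near `t` by at most `μ`; (iii) everywhere by the functions `f i` of the old arc, which in (ii) control
the old coordinates in `A` and in the windows, and by `e * |t - t'|` -/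
def CtlAt2 (G : Geo B) {S₀ : Set K.S} (F : Bool → BFam 3 S₀ Λ) (μ : Bool → S₀ → ℝ)
    (U : S₀ → Set V) (Z q Y : ℝ → V) (γ : ℝ → ℝ) (H : ℝ → V)
    (C C' ι e : ℝ) {J : Type*} (I : Finset J) (f : J → ℝ → ℝ) (g : ℝ → ℝ) (t : ℝ) : Prop :=
  (∃ s : S₀, Z (γ t) ∈ interior (G.PB (7 / 8) s.1) ∧ ∀ᶠ t' in 𝓝[Icc 0 1] t, |g t - g t'| ≤
    C * ∑ β, |wP G s.1 β (H t (tg s.1 β)) - wP G s.1 β (H t' (tg s.1 β))| +
      ι * ∑ l, |H t l - H t' l| + ∑ i ∈ I, |f i (γ t) - f i (γ t')| + e * |t - t'|) ∨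
  (∃ s : S₀, Z (γ t) ∈ PK G s.1 ∧ (∀ s', Z (γ t) ∉ U s') ∧ ∃ A : Finset (Fin 3),
    (A = Finset.univ ∨ ∀ᶠ t' in 𝓝[Icc 0 1] t,
      ∀ β, |(F β).σ s (Y t' (tg s.1 β)) - Y t' (tg s.1 β)| ≤ μ β s) ∧
    (∀ᶠ t' in 𝓝[Icc 0 1] t, |g t - g t'| ≤
      C * ∑ β, |wP G s.1 β (H t (tg s.1 β)) - wP G s.1 β (H t' (tg s.1 β))| +
        C' * ∑ l ∈ A, |H t l - H t' l| + ι * ∑ l, |H t l - H t' l| +
        ∑ i ∈ I, |f i (γ t) - f i (γ t')| + e * |t - t'|) ∧
    ∀ᶠ r in 𝓝[Icc 0 1] (γ t),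
      (∀ β, |wP G s.1 β (q (γ t) (tg s.1 β)) - wP G s.1 β (q r (tg s.1 β))| ≤
        ∑ i ∈ I, |f i (γ t) - f i r|) ∧
      ∀ l ∈ A, |q (γ t) l - q r l| ≤ ∑ i ∈ I, |f i (γ t) - f i r|) ∨
  ∀ᶠ t' in 𝓝[Icc 0 1] t, |g t - g t'| ≤ ∑ i ∈ I, |f i (γ t) - f i (γ t')| + e * |t - t'|

namespace ArcP

variable {L : PLev G} {S₀ : Set K.S} {c : K.S → Bool → ℝ} {h0 : ∀ s β, 0 < c s β}
    {h1 : ∀ s β, c s β ≤ L.c s β} {F : Bool → BFam 3 S₀ Λ} {T : Bool → ConHomeo Λ Λ}
    {κ : Bool → V → V} {U : S₀ → Set V} {Z q Y : ℝ → V} {γ : ℝ → ℝ} {c₁ : ℝ}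
    {μw : Bool → S₀ → ℝ} {T₂ : Bool → ConHomeo Λ Λ}

/-- the arithmetic of zone 2 -/
theorem zone2_arith {ϑ C C' ι e N m Sf SY Sd SF g1 d : ℝ} {bW bA bL : ℝ} (hC : 0 ≤ C)
    (hC' : 0 ≤ C') (hι : 0 ≤ ι)
    (h1 : bW ≤ SF + 4 * Sf + 2 * Sd + 2 * (m * N))
    (h2 : bL ≤ SF + 3 * SY + 3 * (m * N))
    (h3 : bA ≤ SF + 9 * Sf + 3 * Sd + 3 * (m * N)) (hϑ0 : 0 ≤ ϑ) (hSY : 0 ≤ SY)
    (hg : g1 ≤ C * bW + C' * bA + ι * bL + Sf + e * d) :
    g1 ≤ (1 + 4 * C + 9 * C') * Sf + (C * ϑ + 3 * ι) * SY + (2 * C + 3 * C') * Sd +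
      (2 * C + 3 * C' + 3 * ι) * (m * N) + (C + C' + ι) * SF + e * d := by
  have m1 := mul_le_mul_of_nonneg_left h1 hC
  have m2 := mul_le_mul_of_nonneg_left h3 hC'
  have m3 := mul_le_mul_of_nonneg_left h2 hι
  have m4 : 0 ≤ C * ϑ * SY := by positivity
  refine hg.trans ?_
  nlinarith

variable (A : ArcP L S₀ c h0 h1 F T κ U Z q Y γ c₁) (P : PT2 (thinL L c h0 h1) S₀ F μw T₂)
include A P

/-- **the real inequality** -/
theorem real_le2 {ϑ m M C C' ι e : ℝ} (hC : 0 ≤ C) (hC' : 0 ≤ C') (hι : 0 ≤ ι) (hϑ1 : ϑ ≤ 1)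
    (hm0 : 0 ≤ m) (hM0 : 0 ≤ M) {J : Type*} {I : Finset J} {f : J → ℝ → ℝ} {g : ℝ → ℝ} {t : ℝ}
    (ht : t ∈ Icc (0:ℝ) 1)
    (hϑ : ∀ s : S₀, Z (γ t) ∈ PK G s.1 → ∀ β, (F β).e s / ((F β).B s).c ≤ ϑ)
    (hm : ∀ s : S₀, Z (γ t) ∈ PK G s.1 → ∀ β, 8 * μw β s / B.τ s.1 ≤ m)
    (hM : ∀ s : S₀, Z (γ t) ∈ PK G s.1 → ∀ β, 8 * (F β).D s / B.τ s.1 ≤ M)
    (hg : CtlAt2 G F μw U Z q Y γ (H T₂ Y) C C' ι e I f g t) :
    (∃ s : S₀, ∀ᶠ t' in 𝓝[Icc 0 1] t, |g t - g t'| ≤
      (1 + 4 * C + 9 * C' + 3 * ((2 * C + 3 * C' + 3 * ι) * M)) *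
        ∑ i ∈ I, |f i (γ t) - f i (γ t')| +
      (C * ϑ + 3 * ι) * ∑ l, |Y t l - Y t' l| +
      (2 * C + 3 * C' + (2 * C + 3 * C' + 3 * ι) * (m + M)) *
        ∑ l, |(Y t l - Z (γ t) l) - (Y t' l - Z (γ t') l)| +
      (2 * C + 3 * C' + 3 * ι) * m * ∑ l, |q (γ t) l - q (γ t') l| +
      (C + C' + ι) * ∑ β, fS F Y s t t' β + e * |t - t'|) ∨
    ∀ᶠ t' in 𝓝[Icc 0 1] t, |g t - g t'| ≤
      ∑ i ∈ I, |f i (γ t) - f i (γ t')| + e * |t - t'| := by
  have hγt : Tendsto γ (𝓝[Icc 0 1] t) (𝓝[Icc 0 1] (γ t)) :=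
    tendsto_nhdsWithin_of_tendsto_nhds_of_eventually_within _ (A.lift.cg t ht)
      (eventually_nhdsWithin_of_forall fun t' ht' => A.lift.maps ht')
  have h0S : ∀ t', 0 ≤ ∑ i ∈ I, |f i (γ t) - f i (γ t')| := fun t' =>
    Finset.sum_nonneg fun _ _ => abs_nonneg _
  have h0Y : ∀ t', 0 ≤ ∑ l, |Y t l - Y t' l| := fun t' =>
    Finset.sum_nonneg fun _ _ => abs_nonneg _
  have h0d : ∀ t', 0 ≤ ∑ l, |(Y t l - Z (γ t) l) - (Y t' l - Z (γ t') l)| := fun t' =>
    Finset.sum_nonneg fun _ _ => abs_nonneg _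
  have h0q : ∀ t', 0 ≤ ∑ l, |q (γ t) l - q (γ t') l| := fun t' =>
    Finset.sum_nonneg fun _ _ => abs_nonneg _
  have h0f : ∀ (s : S₀) t', 0 ≤ ∑ β, fS F Y s t t' β := fun s t' =>
    Finset.sum_nonneg fun _ _ => fS_nonneg _ _ _ _
  rcases hg with ⟨s, hs, hg⟩ | ⟨s, hs, hsU, Al, hAl, hg, hq⟩ | hg
  · -- zone 1
    left
    have hPB : Z (γ t) ∈ G.PB (7 / 8) s.1 := interior_subset hs
    have hZK : Z (γ t) ∈ PK G s.1 := PB_sub_PK (by norm_num) s.1 hPB
    have hYK : Y t ∈ PK G s.1 := (A.mem_PK ht s.1).1 hZK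
    have hYB : Y t ∈ G.PB (7 / 8) s.1 := (A.mem_PB ht s.1).1 hPB
    have hϑ' := hϑ s hZK
    have hϑ0 : 0 ≤ ϑ := (div_nonneg ((F true).he s).le ((F true).B s).lvs.c0.le).trans (hϑ' true)
    have hnear : ∀ᶠ t' in 𝓝[Icc 0 1] t, Z (γ t') ∈ G.PB (7 / 8) s.1 := by
      have h2 := (A.Zc _ (A.lift.maps ht)).eventually (isOpen_interior.mem_nhds hs)
      filter_upwards [hγt.eventually h2] with t' h3
      exact interior_subset h3
    have hwc : ∀ᶠ t' in 𝓝[Icc 0 1] t, ∀ β, Y t ∉ ((F β).B s).K →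
        wn (F β) s (Y t (tg s.1 β)) = wn (F β) s (Y t' (tg s.1 β)) := by
      refine eventually_all.2 fun β => ?_
      by_cases h : Y t ∈ ((F β).B s).K
      · exact Eventually.of_forall fun _ h' => absurd h h'
      · filter_upwards [A.wn_const ht hYB β h] with t' h3 _ using h3
    refine ⟨s, ?_⟩
    filter_upwards [hg, hnear, hwc, A.loc ht hYK, self_mem_nhdsWithin] with t' g1 g2 g3 g4 g5
    have hYB' : Y t' ∈ G.PB (7 / 8) s.1 := (A.mem_PB g5 s.1).1 g2
    have ho : PSS.Only G S₀ s (Y t) := (A.only ht hYK).self_of_nhdsWithin ht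
    obtain ⟨e1, e2⟩ := A.z1' P hϑ' ho g4.1 g4.2 hYB hYB' g3
    have k1 : ∑ β, |wP G s.1 β (H T₂ Y t (tg s.1 β)) - wP G s.1 β (H T₂ Y t' (tg s.1 β))| ≤
        ∑ β, fS F Y s t t' β + ϑ * ∑ l, |Y t l - Y t' l| := by
      have h2 : ∑ β, |wP G s.1 β (H T₂ Y t (tg s.1 β)) - wP G s.1 β (H T₂ Y t' (tg s.1 β))| ≤
          ∑ β, (fS F Y s t t' β + ϑ * |Y t (tg s.1 β) - Y t' (tg s.1 β)|) := by
        refine Finset.sum_le_sum fun β _ => ?_
        rw [← A.wn_eq_wP, ← A.wn_eq_wP]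
        exact e2 β
      refine h2.trans ?_
      rw [Finset.sum_add_distrib, ← Finset.mul_sum]
      refine add_le_add le_rfl (mul_le_mul_of_nonneg_left ?_ hϑ0)
      rw [sum_tg s.1 (fun l => |Y t l - Y t' l|), Fintype.sum_bool]
      linarith [abs_nonneg (Y t (K.nrm s.1) - Y t' (K.nrm s.1))]
    have k2 : ∑ l, |H T₂ Y t l - H T₂ Y t' l| ≤
        ∑ β, fS F Y s t t' β + 2 * ∑ l, |Y t l - Y t' l| := by
      rw [← sum_f3, Finset.mul_sum, ← Finset.sum_add_distrib]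
      refine Finset.sum_le_sum fun l _ => (e1 l).trans (add_le_add le_rfl ?_)
      exact mul_le_mul_of_nonneg_right (by linarith) (abs_nonneg _)
    have k3 := mul_le_mul_of_nonneg_left k1 hC
    have k4 := mul_le_mul_of_nonneg_left k2 hι
    refine g1.trans ?_
    have hW : 0 ≤ 2 * C + 3 * C' + 3 * ι := by positivity
    have m1 := mul_nonneg hC (h0S t')
    have m2 := mul_nonneg hC' (h0S t')
    have m2' := mul_nonneg (mul_nonneg hW hM0) (h0S t')
    have m3 := mul_nonneg hι (h0Y t')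
    have m4 := mul_nonneg (by positivity : 0 ≤ 2 * C + 3 * C' +
      (2 * C + 3 * C' + 3 * ι) * (m + M)) (h0d t')
    have m5 := mul_nonneg (by positivity : 0 ≤ (2 * C + 3 * C' + 3 * ι) * m) (h0q t')
    have m6 := mul_nonneg hC' (h0f s t')
    linarith
  · -- zone 2
    left
    have hYK : Y t ∈ PK G s.1 := (A.mem_PK ht s.1).1 hs
    have hϑ' := hϑ s hs
    have hm' := hm s hs
    have hM' := hM s hs
    have hϑ0 : 0 ≤ ϑ := (div_nonneg ((F true).he s).le ((F true).B s).lvs.c0.le).trans (hϑ' true)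
    refine ⟨s, ?_⟩
    have hfade := hγt.eventually (A.fade _ (A.lift.maps ht) hsU)
    have hZq : Z (γ t) = q (γ t) := hfade.self_of_nhdsWithin ht
    have hPKnear : ∀ᶠ t' in 𝓝[Icc 0 1] t, Y t' ∈ PK G s.1 ∨ Y t' = Z (γ t') := by
      have h2 := (A.lift.cY t ht).eventually (near_PK (G := G) (A.YΛ ht))
      filter_upwards [h2, self_mem_nhdsWithin] with t' h3 h4
      by_cases h5 : Y t' ∈ PK G s.1
      · exact Or.inl h5
      · right
        have h6 : ∀ s' : S₀, Y t' ∉ PK G s'.1 := by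
          intro s' hs'
          have h7 := PK_unique (h3 s'.1 hs') hYK
          rw [h7] at hs'
          exact h5 hs'
        have e3 : κ false (Y t') = Y t' := (A.isQ false).off _ fun s' hs' =>
          h6 s' (PLev.mem_bxK.1 hs').1
        have e4 : κ true (Y t') = Y t' := (A.isQ true).off _ fun s' hs' =>
          h6 s' (PLev.mem_bxK.1 hs').1
        have e5 := A.lift.eq t' h4
        rw [← e5]
        show Y t' = κ true (κ false (Y t'))
        rw [e3, e4]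
    -- small displacements near `t`
    have hsm : ∀ᶠ t' in 𝓝[Icc 0 1] t, Al ≠ Finset.univ →
        (∀ β, |(F β).σ s (Y t (tg s.1 β)) - Y t (tg s.1 β)| ≤ μw β s) ∧
        ∀ β, |(F β).σ s (Y t' (tg s.1 β)) - Y t' (tg s.1 β)| ≤ μw β s := by
      rcases hAl with hd | hd
      · exact Eventually.of_forall fun _ h => absurd hd h
      · have h3 := hd.self_of_nhdsWithin ht
        filter_upwards [hd] with t' h4 _ using ⟨h3, h4⟩
    filter_upwards [hg, A.loc ht hYK, hfade, hγt.eventually hq, hPKnear, hsm, self_mem_nhdsWithin]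
      with t' g1 g2 g3 g4 g5 g7 g6
    have ho : PSS.Only G S₀ s (Y t) := (A.only ht hYK).self_of_nhdsWithin ht
    -- the coordinates
    have hY : ∀ l, |Y t l - Y t' l| ≤ |q (γ t) l - q (γ t') l| +
        |(Y t l - Z (γ t) l) - (Y t' l - Z (γ t') l)| := by
      intro l
      have e : Y t l - Y t' l = (q (γ t) l - q (γ t') l) +
          ((Y t l - Z (γ t) l) - (Y t' l - Z (γ t') l)) := by rw [hZq, g3]; ring
      rw [e]
      exact abs_add_le _ _
    have hwn : ∀ β, |wn (F β) s (Y t (tg s.1 β)) - wn (F β) s (Y t' (tg s.1 β))| ≤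
        ∑ i ∈ I, |f i (γ t) - f i (γ t')| +
          |(Y t (tg s.1 β) - Z (γ t) (tg s.1 β)) - (Y t' (tg s.1 β) - Z (γ t') (tg s.1 β))| := by
      intro β
      have b1 := A.wn_eq ht hYK β
      have b2 : wn (F β) s (Y t' (tg s.1 β)) = wn (F β) s (Z (γ t') (tg s.1 β)) +
          (Y t' (tg s.1 β) - Z (γ t') (tg s.1 β)) := by
        rcases g5 with g5 | g5
        · exact A.wn_eq g6 g5 β
        · rw [g5]; ring
      rw [b1, b2, hZq, g3, A.wn_eq_wP, A.wn_eq_wP]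
      have e : wP G s.1 β (q (γ t) (tg s.1 β)) + (Y t (tg s.1 β) - q (γ t) (tg s.1 β)) -
          (wP G s.1 β (q (γ t') (tg s.1 β)) + (Y t' (tg s.1 β) - q (γ t') (tg s.1 β))) =
          (wP G s.1 β (q (γ t) (tg s.1 β)) - wP G s.1 β (q (γ t') (tg s.1 β))) +
          ((Y t (tg s.1 β) - q (γ t) (tg s.1 β)) - (Y t' (tg s.1 β) - q (γ t') (tg s.1 β))) := by
        ring
      rw [e]
      exact (abs_add_le _ _).trans (add_le_add (g4.1 β) le_rfl)
    have hSf0 := h0S t'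
    have hSY0 := h0Y t'
    have hSd0 := h0d t'
    have hSq0 := h0q t'
    have hSF0 := h0f s t'
    set Sf := ∑ i ∈ I, |f i (γ t) - f i (γ t')| with hSf
    set SY := ∑ l, |Y t l - Y t' l| with hSY
    set Sd := ∑ l, |(Y t l - Z (γ t) l) - (Y t' l - Z (γ t') l)| with hSd
    set Sq := ∑ l, |q (γ t) l - q (γ t') l| with hSq
    set SF := ∑ β, fS F Y s t t' β with hSF
    have hdβ : ∑ β, |(Y t (tg s.1 β) - Z (γ t) (tg s.1 β)) -
        (Y t' (tg s.1 β) - Z (γ t') (tg s.1 β))| ≤ Sd := by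
      rw [hSd, sum_tg s.1 (fun l => |(Y t l - Z (γ t) l) - (Y t' l - Z (γ t') l)|),
        Fintype.sum_bool]
      linarith [abs_nonneg ((Y t (K.nrm s.1) - Z (γ t) (K.nrm s.1)) -
        (Y t' (K.nrm s.1) - Z (γ t') (K.nrm s.1)))]
    -- the general estimate, with the cost `mc` and the bound `N` of the norm
    have gen : ∀ mc N : ℝ, 0 ≤ mc → ‖Y t - Y t'‖ ≤ N →
        (∀ β, P2.Cost B (F β) (μw β) s (Y t (tg s.1 β)) (Y t' (tg s.1 β)) mc) →
        |g t - g t'| ≤ (1 + 4 * C + 9 * C') * Sf + (C * ϑ + 3 * ι) * SY +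
          (2 * C + 3 * C') * Sd + (2 * C + 3 * C' + 3 * ι) * (mc * N) + (C + C' + ι) * SF +
          e * |t - t'| := by
      intro mc N hmc hN hcost
      obtain ⟨e1, e2⟩ := A.z2' P hϑ' hcost hmc ho g2.1 g2.2
      have hμN : mc * ‖Y t - Y t'‖ ≤ mc * N := mul_le_mul_of_nonneg_left hN hmc
      have k1 : ∑ β, |wP G s.1 β (H T₂ Y t (tg s.1 β)) - wP G s.1 β (H T₂ Y t' (tg s.1 β))| ≤
          SF + 4 * Sf + 2 * Sd + 2 * (mc * N) := by
        have h2 : ∑ β, |wP G s.1 β (H T₂ Y t (tg s.1 β)) - wP G s.1 β (H T₂ Y t' (tg s.1 β))| ≤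
            ∑ β, (fS F Y s t t' β + 2 * (Sf + |(Y t (tg s.1 β) - Z (γ t) (tg s.1 β)) -
              (Y t' (tg s.1 β) - Z (γ t') (tg s.1 β))|) + mc * N) := by
          refine Finset.sum_le_sum fun β _ => ?_
          rw [← A.wn_eq_wP, ← A.wn_eq_wP]
          refine (e2 β).trans ?_
          have b1 : (ϑ + 1) * |wn (F β) s (Y t (tg s.1 β)) - wn (F β) s (Y t' (tg s.1 β))| ≤
              2 * |wn (F β) s (Y t (tg s.1 β)) - wn (F β) s (Y t' (tg s.1 β))| :=
            mul_le_mul_of_nonneg_right (by linarith) (abs_nonneg _)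
          have b2 := hwn β
          linarith
        refine h2.trans ?_
        rw [Finset.sum_add_distrib, Finset.sum_add_distrib, ← Finset.mul_sum,
          Finset.sum_add_distrib]
        simp only [Finset.sum_const, Finset.card_univ, Fintype.card_bool, nsmul_eq_mul]
        push_cast
        linarith
      have k2 : ∑ l, |H T₂ Y t l - H T₂ Y t' l| ≤ SF + 3 * SY + 3 * (mc * N) := by
        have h2 : ∑ l, |H T₂ Y t l - H T₂ Y t' l| ≤ ∑ l, (f3 F Y s t t' l +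
            3 * |Y t l - Y t' l| + mc * N) := by
          refine Finset.sum_le_sum fun l _ => (e1 l).trans ?_
          have b1 : (ϑ + 2) * |Y t l - Y t' l| ≤ 3 * |Y t l - Y t' l| :=
            mul_le_mul_of_nonneg_right (by linarith) (abs_nonneg _)
          linarith
        refine h2.trans ?_
        rw [Finset.sum_add_distrib, Finset.sum_add_distrib, ← Finset.mul_sum, sum_f3]
        simp only [Finset.sum_const, Finset.card_univ, Fintype.card_fin, nsmul_eq_mul]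
        push_cast
        linarith
      have k3 : ∑ l ∈ Al, |H T₂ Y t l - H T₂ Y t' l| ≤
          SF + 9 * Sf + 3 * Sd + 3 * (mc * N) := by
        have h2 : ∑ l ∈ Al, |H T₂ Y t l - H T₂ Y t' l| ≤ ∑ l ∈ Al, (f3 F Y s t t' l +
            3 * (Sf + |(Y t l - Z (γ t) l) - (Y t' l - Z (γ t') l)|) + mc * N) := by
          refine Finset.sum_le_sum fun l hl => (e1 l).trans ?_
          have b1 : (ϑ + 2) * |Y t l - Y t' l| ≤ 3 * |Y t l - Y t' l| :=
            mul_le_mul_of_nonneg_right (by linarith) (abs_nonneg _)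
          have b2 := hY l
          have b3 := g4.2 l hl
          linarith
        refine h2.trans ?_
        have hN0 : 0 ≤ mc * N := mul_nonneg hmc ((norm_nonneg _).trans hN)
        have h3 : ∑ l ∈ Al, (f3 F Y s t t' l +
            3 * (Sf + |(Y t l - Z (γ t) l) - (Y t' l - Z (γ t') l)|) + mc * N) ≤
            ∑ l, (f3 F Y s t t' l +
            3 * (Sf + |(Y t l - Z (γ t) l) - (Y t' l - Z (γ t') l)|) + mc * N) := by
          refine Finset.sum_le_sum_of_subset_of_nonneg (Finset.subset_univ _) fun l _ _ => ?_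
          have b1 := f3_nonneg (F := F) (Y := Y) s t t' l
          have b2 := abs_nonneg ((Y t l - Z (γ t) l) - (Y t' l - Z (γ t') l))
          positivity
        refine h3.trans ?_
        rw [Finset.sum_add_distrib, Finset.sum_add_distrib, ← Finset.mul_sum,
          Finset.sum_add_distrib, sum_f3]
        simp only [Finset.sum_const, Finset.card_univ, Fintype.card_fin, nsmul_eq_mul]
        push_cast
        linarith
      exact zone2_arith hC hC' hι k1 k2 k3 hϑ0 hSY0 g1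
    have hW : 0 ≤ 2 * C + 3 * C' + 3 * ι := by positivity
    by_cases hAu : Al = Finset.univ
    · -- all coordinates are controlled
      have hnorm : ‖Y t - Y t'‖ ≤ 3 * Sf + Sd := by
        have h2 : ∑ l, |Y t l - Y t' l| ≤
            ∑ l : Fin 3, (Sf + |(Y t l - Z (γ t) l) - (Y t' l - Z (γ t') l)|) :=
          Finset.sum_le_sum fun l _ => (hY l).trans (add_le_add
            (g4.2 l (by rw [hAu]; exact Finset.mem_univ l)) le_rfl)
        rw [Finset.sum_add_distrib] at h2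
        simp only [Finset.sum_const, Finset.card_univ, Fintype.card_fin, nsmul_eq_mul] at h2
        push_cast at h2
        have h3 := norm_le_sum (Y t - Y t')
        simp only [Pi.sub_apply] at h3
        linarith
      have h2 := gen M (3 * Sf + Sd) hM0 hnorm fun β => Or.inl (hM' β)
      have m1 := mul_nonneg (mul_nonneg hW hm0) hSq0
      have m2 := mul_nonneg (mul_nonneg hW hm0) hSd0
      refine h2.trans ?_
      nlinarith
    · -- small displacements
      have hnorm : ‖Y t - Y t'‖ ≤ Sq + Sd := by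
        have h2 : ∑ l, |Y t l - Y t' l| ≤ Sq + Sd := by
          rw [hSq, hSd, ← Finset.sum_add_distrib]
          exact Finset.sum_le_sum fun l _ => hY l
        have h3 := norm_le_sum (Y t - Y t')
        simp only [Pi.sub_apply] at h3
        linarith
      have h2 := gen m (Sq + Sd) hm0 hnorm fun β =>
        Or.inr ⟨(g7 hAu).1 β, (g7 hAu).2 β, hm' β⟩
      have m1 := mul_nonneg (mul_nonneg hW hM0) hSf0
      have m2 := mul_nonneg (mul_nonneg hW hM0) hSd0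
      refine h2.trans ?_
      nlinarith
  · right; exact hg

end ArcP

end Vale.Agent.P073.H190.Tvp
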