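import Vale.Agent.P073.H190.TwoN

/-!
# P073, H190, [TV-P] for the two-stage staircases (R): all edges at once
-/

open Set Metric Filter Topology
open scoped NNReal ENNReal

namespace Vale.Agent.P073.H190.Tvp

open _root_.P073 _root_.P073.H345 _root_.P073.H236 _root_.P073.PA691
open _root_.P073.H190 (PT2)
open Vale.Agent.P073.St (V)
open Vale.Agent.P073.H471 Vale.Agent.P073.H267
open _root_.P073.H880.RP (thinL ROut3 Dat)
open _root_.P073.H880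
open Vale.Agent.P073.H73 (Mesh)
open Vale.Agent.P073.H193 (Edges)
open _root_.P073.Croft (levs onS cross)
open _root_.P073.Net (cnt)

variable {Ω Λ : Set V} {v : V} {K : BoxCx Λ v} {S : Rad K} {W : Wid K S} {B : Boxes W} {G : Geo B}

namespace ArcP

variable {L : PLev G} {S₀ : Set K.S} {c : K.S → Bool → ℝ} {h0 : ∀ s β, 0 < c s β}
    {h1 : ∀ s β, c s β ≤ L.c s β} {F : Bool → BFam 3 S₀ Λ} {T : Bool → ConHomeo Λ Λ}
    {κ : Bool → V → V} {U : S₀ → Set V} {Z q Y : ℝ → V} {γ : ℝ → ℝ} {c₁ : ℝ}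
    {μw : Bool → S₀ → ℝ} {T₂ : Bool → ConHomeo Λ Λ}
    (A : ArcP L S₀ c h0 h1 F T κ U Z q Y γ c₁) (P : PT2 (thinL L c h0 h1) S₀ F μw T₂)
include A P

/-- **[TV-P], one arc**, two-stage maps, in terms of `Z` and `q` -/
theorem evar_le2' {ϑ μ M C C' ι ee δ : ℝ} (hC : 0 ≤ C) (hC' : 0 ≤ C') (hι : 0 ≤ ι) (hee : 0 ≤ ee)
    (hϑ0 : 0 ≤ ϑ) (hϑ1 : ϑ ≤ 1) (hμ0 : 0 ≤ μ) (hM0 : 0 ≤ M) (hδ : 0 ≤ δ)
    (hY : ∀ l, eVariationOn (fun t => Y t l - Z (γ t) l) (Icc 0 1) ≤ ENNReal.ofReal δ)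
    (hϑ : ∀ s : S₀, (PK G s.1 ∩ Z '' Icc 0 1).Nonempty → ∀ β, (F β).e s / ((F β).B s).c ≤ ϑ)
    (hμ : ∀ s : S₀, (PK G s.1 ∩ Z '' Icc 0 1).Nonempty → ∀ β, 8 * μw β s / B.τ s.1 ≤ μ)
    (hM : ∀ s : S₀, (PK G s.1 ∩ Z '' Icc 0 1).Nonempty → ∀ β, 8 * (F β).D s / B.τ s.1 ≤ M)
    {J : Type*} {I : Finset J} {f : J → ℝ → ℝ} {g : ℝ → ℝ}
    (hg : ∀ t ∈ Icc (0:ℝ) 1, CtlAt2 G F μw U Z q Y γ (H T₂ Y) C C' ι ee I f g t) :
    eVariationOn g (Icc 0 1) ≤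
      ENNReal.ofReal (1 + 4 * C + 9 * C' + 3 * ((2 * C + 3 * C' + 3 * ι) * M)) *
        ∑ i ∈ I, eVariationOn (f i) (Icc 0 1) +
      ENNReal.ofReal (C + C' + ι) * ∑' o : S₀ × Bool,
      ENNReal.ofReal (L.om o.1.1 o.2) * cnt (cross Z (tg o.1.1 o.2)
        (levs (L.N o.1.1 o.2) (L.a o.1.1 o.2)) (PK G o.1.1)) +
      (ENNReal.ofReal (C * ϑ + 3 * ι) * ∑ l, eVariationOn (fun t => Z t l) (Icc 0 1) +
      ENNReal.ofReal ((2 * C + 3 * C' + 3 * ι) * μ) *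
        ∑ l, eVariationOn (fun t => q t l) (Icc 0 1) +
      ENNReal.ofReal (3 * ((C * ϑ + 3 * ι) + (2 * C + 3 * C' + (2 * C + 3 * C' + 3 * ι) * (μ + M))) * δ +
        ee)) := by
  have h2 := A.evar_le' P hC hC' hι hee hϑ0 hϑ1 hμ0 hM0 hϑ hμ hM hg
  refine h2.trans ?_
  have hsum := A.sum_le (w := C + C' + ι) (by positivity)
  have hγ : ∀ l, eVariationOn (fun t => Z (γ t) l) (Icc 0 1) ≤
      eVariationOn (fun t => Z t l) (Icc 0 1) := fun l =>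
    eVariationOn.comp_le_of_monotoneOn (fun t => Z t l) γ A.lift.mono A.lift.maps
  have hYl : ∀ l, eVariationOn (fun t => Y t l) (Icc 0 1) ≤
      eVariationOn (fun t => Z t l) (Icc 0 1) + ENNReal.ofReal δ := by
    intro l
    have e : (fun t => Y t l) = fun t => Z (γ t) l + (Y t l - Z (γ t) l) := by
      funext t; ring
    rw [e]
    refine (evar_add_le _ _ _).trans (add_le_add (hγ l) (hY l))
  have h3δ : ∑ _l : Fin 3, ENNReal.ofReal δ = ENNReal.ofReal (3 * δ) := by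
    rw [Finset.sum_const, Finset.card_univ, Fintype.card_fin, nsmul_eq_mul,
      ENNReal.ofReal_mul (by norm_num)]
    norm_num
  have k1 : ENNReal.ofReal (C * ϑ + 3 * ι) * ∑ l, eVariationOn (fun t => Y t l) (Icc 0 1) ≤
      ENNReal.ofReal (C * ϑ + 3 * ι) * ∑ l, eVariationOn (fun t => Z t l) (Icc 0 1) +
        ENNReal.ofReal ((C * ϑ + 3 * ι) * (3 * δ)) := by
    have h4 : ∑ l, eVariationOn (fun t => Y t l) (Icc 0 1) ≤
        ∑ l, eVariationOn (fun t => Z t l) (Icc 0 1) + ENNReal.ofReal (3 * δ) := by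
      rw [← h3δ, ← Finset.sum_add_distrib]
      exact Finset.sum_le_sum fun l _ => hYl l
    refine (mul_le_mul' le_rfl h4).trans ?_
    rw [mul_add, ← ENNReal.ofReal_mul (by positivity)]
  have k2 : ENNReal.ofReal (2 * C + 3 * C' + (2 * C + 3 * C' + 3 * ι) * (μ + M)) *
      ∑ l, eVariationOn (fun t => Y t l - Z (γ t) l) (Icc 0 1) ≤
      ENNReal.ofReal ((2 * C + 3 * C' + (2 * C + 3 * C' + 3 * ι) * (μ + M)) * (3 * δ)) := by
    rw [ENNReal.ofReal_mul (by positivity), ← h3δ]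
    exact mul_le_mul' le_rfl (Finset.sum_le_sum fun l _ => hY l)
  have k3 : ENNReal.ofReal (3 * ((C * ϑ + 3 * ι) +
      (2 * C + 3 * C' + (2 * C + 3 * C' + 3 * ι) * (μ + M))) * δ + ee) =
      ENNReal.ofReal ((C * ϑ + 3 * ι) * (3 * δ)) +
      ENNReal.ofReal ((2 * C + 3 * C' + (2 * C + 3 * C' + 3 * ι) * (μ + M)) * (3 * δ)) +
      ENNReal.ofReal ee := by
    rw [← ENNReal.ofReal_add (by positivity) (by positivity),
      ← ENNReal.ofReal_add (by positivity) hee]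
    congr 1
    ring
  rw [k3]
  calc _ ≤ ENNReal.ofReal (1 + 4 * C + 9 * C' + 3 * ((2 * C + 3 * C' + 3 * ι) * M)) *
        ∑ i ∈ I, eVariationOn (f i) (Icc 0 1) +
        ((ENNReal.ofReal (C * ϑ + 3 * ι) * ∑ l, eVariationOn (fun t => Z t l) (Icc 0 1) +
        ENNReal.ofReal ((C * ϑ + 3 * ι) * (3 * δ))) +
        (ENNReal.ofReal ((2 * C + 3 * C' + (2 * C + 3 * C' + 3 * ι) * (μ + M)) * (3 * δ)) +
        (ENNReal.ofReal ((2 * C + 3 * C' + 3 * ι) * μ) *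
        ∑ l, eVariationOn (fun t => q t l) (Icc 0 1) + ENNReal.ofReal ee))) + _ :=
        add_le_add (add_le_add le_rfl (add_le_add k1 (add_le_add k2 le_rfl))) hsum
    _ = _ := by ring

end ArcP

variable {M : Mesh Ω} {E : Edges M} {D : Dat K M} {h1 h2 : ConHomeo Ω Λ} {L : PLev G}
  {ι : Type} {F : ι → Set V}

/-- **[TV-P], all edges, two-stage staircases.** -/
theorem exists_tvP2 (hΛ : IsOpen Λ) (O : ROut3 G E D h1 h2 L.lv F)
    (ht : ∀ s ∈ D.S₀, ∀ β, D.ht s β ≤ B.τ s / 2) (hFe : ∀ e, ∃ i, F i = E.seg e)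
    {C C' M₁ : ℝ} (hC : 0 ≤ C) (hC' : 0 ≤ C') (hM0 : 0 ≤ M₁) {δ m : E.ε → ℝ} (hδ : ∀ e, 0 < δ e)
    (hm0 : ∀ e, 0 ≤ m e) (hm1 : ∀ e, m e ≤ 1)
    (hm : ∀ e, ENNReal.ofReal ((2 * C + 3 * C' + 3) * m e) *
      ∑ l, eVariationOn (fun t => onS h1.toFun (E.a e) (E.b e) t l) (Icc 0 1) ≤
        ENNReal.ofReal (δ e / 4)) :
    ∃ cT : K.S → ℝ, (∀ s, 0 < cT s) ∧ ∃ ϑ : K.S → ℝ, (∀ s, 0 < ϑ s) ∧
    ∃ ι₀ : E.ε → ℝ, (∀ e, 0 < ι₀ e) ∧
    ∀ (c : K.S → Bool → ℝ) (c0 : ∀ s β, 0 < c s β) (c1 : ∀ s β, c s β ≤ L.c s β),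
      (∀ s ∈ D.S₀, ∀ β, c s β ≤ cT s) →
      ∀ κ : Bool → V → V, (∀ β, IsQ (fun s : D.S₀ => (thinL L c c0 c1).bx β s.1) (κ β)) →
      ∀ h3 : ConHomeo Ω Λ,
      (∀ e, h3.toFun '' E.seg e = H579.Pre (κ true ∘ κ false) Λ h2 (E.seg e)) →
      (∀ x ∈ E.verts, κ true (κ false (h3.toFun x)) = h2.toFun x) →
      ∃ (γ : E.ε → ℝ → ℝ) (c₁ : E.ε → ℝ),
        ∀ (Fm : Bool → BFam 3 D.S₀ Λ) (T : Bool → ConHomeo Λ Λ),
        _root_.P073.H142.PS3 (thinL L c c0 c1) D.S₀ Fm T → ∀ e,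
        ArcP L D.S₀ c c0 c1 Fm T κ (fun s => D.PE G s.1) (onS h2.toFun (E.a e) (E.b e))
          (onS h1.toFun (E.a e) (E.b e)) (onS h3.toFun (E.a e) (E.b e)) (γ e) (c₁ e) ∧
        ∀ i' ee : ℝ, 0 ≤ i' → i' ≤ ι₀ e → 0 ≤ ee →
        (∀ s : D.S₀, (PK G s.1 ∩ h1.toFun '' E.seg e).Nonempty → ∀ β,
          (Fm β).e s / ((Fm β).B s).c ≤ ϑ s.1) →
        ∀ (μw : Bool → D.S₀ → ℝ) (T₂ : Bool → ConHomeo Λ Λ), PT2 (thinL L c c0 c1) D.S₀ Fm μw T₂ →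
        (∀ s : D.S₀, (PK G s.1 ∩ h1.toFun '' E.seg e).Nonempty → ∀ β,
          8 * μw β s / B.τ s.1 ≤ m e) →
        (∀ s : D.S₀, (PK G s.1 ∩ h1.toFun '' E.seg e).Nonempty → ∀ β,
          8 * (Fm β).D s / B.τ s.1 ≤ M₁) →
        ∀ {J : Type} (I : Finset J) (f : J → ℝ → ℝ) (g : ℝ → ℝ),
        (∀ t ∈ Icc (0:ℝ) 1, CtlAt2 G Fm μw (fun s : D.S₀ => D.PE G s.1)
          (onS h2.toFun (E.a e) (E.b e)) (onS h1.toFun (E.a e) (E.b e))
          (onS h3.toFun (E.a e) (E.b e)) (γ e)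
          (ArcP.H T₂ (onS h3.toFun (E.a e) (E.b e))) C C' i' ee I f g t) →
        eVariationOn g (Icc 0 1) ≤
          ENNReal.ofReal (1 + 4 * C + 9 * C' + 3 * ((2 * C + 3 * C' + 3) * M₁)) *
        ∑ i ∈ I, eVariationOn (f i) (Icc 0 1) +
          ENNReal.ofReal (C + C' + i') * ∑' o : D.S₀ × Bool,
          ENNReal.ofReal (L.om o.1.1 o.2) * cnt (cross (onS h2.toFun (E.a e) (E.b e))
            (tg o.1.1 o.2) (levs (L.N o.1.1 o.2) (L.a o.1.1 o.2)) (PK G o.1.1)) +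
          ENNReal.ofReal (δ e + ee) := by
  -- the numbers of the edges
  have hfe : ∀ e : E.ε, ∃ d : ℝ, 0 < d ∧
      3 * (5 * C + 6 * C' + 6 + (2 * C + 3 * C' + 3) * M₁) * d ≤ δ e / 4 := by
    intro e
    have := hδ e
    refine ⟨δ e / (12 * (5 * C + 6 * C' + 6 + (2 * C + 3 * C' + 3) * M₁)), by positivity,
      le_of_eq ?_⟩
    field_simp
    ring
  choose d hd0 hd using hfe
  have hϑe : ∀ e : E.ε, ∃ r : ℝ, 0 < r ∧ r ≤ 1 ∧ ∀ r', 0 ≤ r' → r' ≤ r →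
      ENNReal.ofReal (C * r') *
        ∑ l, eVariationOn (fun t => onS h2.toFun (E.a e) (E.b e) t l) (Icc 0 1) ≤
      ENNReal.ofReal (δ e / 4) := fun e =>
    exists_fac (tv_lt_top h2 e) hC (by have := hδ e; positivity)
  choose ϑe h10 h11 h12 using hϑe
  have hιe : ∀ e : E.ε, ∃ r : ℝ, 0 < r ∧ r ≤ 1 ∧ ∀ r', 0 ≤ r' → r' ≤ r →
      ENNReal.ofReal (3 * r') *
        ∑ l, eVariationOn (fun t => onS h2.toFun (E.a e) (E.b e) t l) (Icc 0 1) ≤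
      ENNReal.ofReal (δ e / 4) := fun e =>
    exists_fac (tv_lt_top h2 e) (by norm_num) (by have := hδ e; positivity)
  choose ιe h20 h21 h22 using hιe
  choose fi hfi using hFe
  have hae : ∀ e : E.ε, _ := fun e =>
    exists_arcP hΛ O ht (E.ne e) (hfi e) (E.seg_sub_Ω e) (hd0 e) one_pos
  choose ce hce0 _ hce using hae
  obtain ⟨cT, hcT0, hcT⟩ := exists_perSq (G := G) (E := E) h2 (r := fun e => ce e / 2)
    (fun e => by have := hce0 e; positivity)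
  obtain ⟨ϑ, hϑ0, hϑ⟩ := exists_perSq (G := G) (E := E) h2 (r := ϑe) h10
  refine ⟨cT, hcT0, ϑ, hϑ0, ιe, h20, fun c c0 c1 hc κ hκ h3 himg hvert => ?_⟩
  have hx : ∀ e : E.ε, _ := fun e => hce e c c0 c1
    (fun s hs hne β => (hc s hs β).trans (hcT s e hne)) κ hκ h3 (himg e)
    (hvert _ (Or.inl ⟨e, rfl⟩)) (hvert _ (Or.inr ⟨e, rfl⟩))
  choose γ hγ1 hγ2 hγ3 using hx
  refine ⟨γ, ce, fun Fm T hP e => ⟨hγ1 e Fm T hP, fun i' ee hi0 hi1 hee hθ μw T₂ P hμ hM J I f g hg => ?_⟩⟩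
  have hmet : ∀ s : D.S₀, (PK G s.1 ∩ onS h2.toFun (E.a e) (E.b e) '' Icc 0 1).Nonempty →
      (PK G s.1 ∩ h2.toFun '' E.seg e).Nonempty ∧ (PK G s.1 ∩ h1.toFun '' E.seg e).Nonempty := by
    rintro s ⟨y, hy, hy2⟩
    rw [onS_image] at hy2
    refine ⟨⟨y, hy, hy2⟩, ?_⟩
    obtain ⟨x, hx, rfl⟩ := hy2
    exact ⟨h1.toFun x, (mem_PK_h2 O ht (E.seg_sub_Ω e hx) s.1).1 hy, x, hx, rfl⟩
  have hi1' : i' ≤ 1 := hi1.trans (h21 e)
  have key := (hγ1 e Fm T hP).evar_le2' P hC hC' hi0 hee (h10 e).le (h11 e) (hm0 e) hM0 (hd0 e).le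
    (hγ2 e) (fun s hs β => (hθ s (hmet s hs).2 β).trans (hϑ s.1 e (hmet s hs).1))
    (fun s hs β => hμ s (hmet s hs).2 β) (fun s hs β => hM s (hmet s hs).2 β) hg
  have hwf : ENNReal.ofReal (1 + 4 * C + 9 * C' + 3 * ((2 * C + 3 * C' + 3 * i') * M₁)) ≤
      ENNReal.ofReal (1 + 4 * C + 9 * C' + 3 * ((2 * C + 3 * C' + 3) * M₁)) := by
    refine ENNReal.ofReal_le_ofReal ?_
    have := mul_le_mul_of_nonneg_right
      (show 2 * C + 3 * C' + 3 * i' ≤ 2 * C + 3 * C' + 3 by linarith) hM0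
    linarith
  refine key.trans (add_le_add (add_le_add (mul_le_mul' hwf le_rfl) le_rfl) ?_)
  have hδe := hδ e
  have k1 : ENNReal.ofReal (C * ϑe e + 3 * i') *
      ∑ l, eVariationOn (fun t => onS h2.toFun (E.a e) (E.b e) t l) (Icc 0 1) ≤
      ENNReal.ofReal (δ e / 4) + ENNReal.ofReal (δ e / 4) := by
    rw [ENNReal.ofReal_add (mul_nonneg hC (h10 e).le) (by positivity), add_mul]
    exact add_le_add (h12 e _ (h10 e).le le_rfl) (h22 e _ hi0 hi1)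
  have k2 : ENNReal.ofReal ((2 * C + 3 * C' + 3 * i') * m e) *
      ∑ l, eVariationOn (fun t => onS h1.toFun (E.a e) (E.b e) t l) (Icc 0 1) ≤
      ENNReal.ofReal (δ e / 4) := by
    refine le_trans (mul_le_mul' (ENNReal.ofReal_le_ofReal ?_) le_rfl) (hm e)
    exact mul_le_mul_of_nonneg_right (by linarith) (hm0 e)
  have k3 : ENNReal.ofReal (3 * ((C * ϑe e + 3 * i') +
      (2 * C + 3 * C' + (2 * C + 3 * C' + 3 * i') * (m e + M₁))) * d e + ee) ≤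
      ENNReal.ofReal (δ e / 4 + ee) := by
    refine ENNReal.ofReal_le_ofReal (add_le_add_left ?_ ee)
    refine le_trans ?_ (hd e)
    have e1 : C * ϑe e ≤ C * 1 := mul_le_mul_of_nonneg_left (h11 e) hC
    have e2 : (2 * C + 3 * C' + 3 * i') * m e ≤ (2 * C + 3 * C' + 3 * 1) * 1 :=
      mul_le_mul (by linarith) (hm1 e) (hm0 e) (by positivity)
    have e4 : (2 * C + 3 * C' + 3 * i') * M₁ ≤ (2 * C + 3 * C' + 3) * M₁ :=
      mul_le_mul_of_nonneg_right (by linarith) hM0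
    have e3 := (hd0 e).le
    refine mul_le_mul_of_nonneg_right ?_ e3
    linarith
  refine (add_le_add (add_le_add k1 k2) k3).trans (le_of_eq ?_)
  rw [← ENNReal.ofReal_add (by positivity) (by positivity),
    ← ENNReal.ofReal_add (by positivity) (by positivity),
    ← ENNReal.ofReal_add (by positivity) (by positivity)]
  congr 1
  ring

end Vale.Agent.P073.H190.Tvp
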