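import Vale.Agent.P073.H190.TwoR

/-!
# P073, H190, [TV-P] for the two-stage staircases (X): `CtlAt3`

As `CtlAt2`, with an additional term in the fade zone: `κ s * ∑ l, |H t l - H t' l|`, where `κ s` is
a number which is small with the displacement at `s` (the fade of the second staircases).
-/

open Set Metric Filter Topology
open scoped NNReal ENNReal

namespace Vale.Agent.P073.H190.Tvp

open _root_.P073 _root_.P073.H345 _root_.P073.H236 _root_.P073.PA691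
open _root_.P073.H190 (PT2)
open Vale.Agent.P073.St (V)
open Vale.Agent.P073.H471 Vale.Agent.P073.H267
open _root_.P073.H880.RP (thinL ROut3 Dat)
open _root_.P073.H880
open Vale.Agent.P073.H73 (Mesh)
open Vale.Agent.P073.H193 (Edges)
open _root_.P073.Croft (levs onS cross)
open _root_.P073.Net (cnt)

variable {Ω Λ : Set V} {v : V} {K : BoxCx Λ v} {S : Rad K} {W : Wid K S} {B : Boxes W} {G : Geo B}

/-- **the local control of a function `g` by the staircases**, at `t`: (i) inside the plate of `s`;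
(ii) in the fade zone of `s`, where `Z = q`; (iii) free -/
def CtlAt3 (G : Geo B) {S₀ : Set K.S} (F : Bool → BFam 3 S₀ Λ) (μ : Bool → S₀ → ℝ) (κ : S₀ → ℝ)
    (U : S₀ → Set V) (Z q Y : ℝ → V) (γ : ℝ → ℝ) (H : ℝ → V)
    (C C' ι e : ℝ) {J : Type*} (I : Finset J) (f : J → ℝ → ℝ) (g : ℝ → ℝ) (t : ℝ) : Prop :=
  (∃ s : S₀, Z (γ t) ∈ interior (G.PB (7 / 8) s.1) ∧ ∀ᶠ t' in 𝓝[Icc 0 1] t, |g t - g t'| ≤
    C * ∑ β, |wP G s.1 β (H t (tg s.1 β)) - wP G s.1 β (H t' (tg s.1 β))| +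
      ι * ∑ l, |H t l - H t' l| + ∑ i ∈ I, |f i (γ t) - f i (γ t')| + e * |t - t'|) ∨
  (∃ s : S₀, Z (γ t) ∈ PK G s.1 ∧ (∀ s', Z (γ t) ∉ U s') ∧ ∃ A : Finset (Fin 3),
    (A = Finset.univ ∨ ∀ᶠ t' in 𝓝[Icc 0 1] t,
      ∀ β, |(F β).σ s (Y t' (tg s.1 β)) - Y t' (tg s.1 β)| ≤ μ β s) ∧
    (∀ᶠ t' in 𝓝[Icc 0 1] t, |g t - g t'| ≤
      C * ∑ β, |wP G s.1 β (H t (tg s.1 β)) - wP G s.1 β (H t' (tg s.1 β))| +
        C' * ∑ l ∈ A, |H t l - H t' l| + (ι + κ s) * ∑ l, |H t l - H t' l| +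
        ∑ i ∈ I, |f i (γ t) - f i (γ t')| + e * |t - t'|) ∧
    ∀ᶠ r in 𝓝[Icc 0 1] (γ t),
      (∀ β, |wP G s.1 β (q (γ t) (tg s.1 β)) - wP G s.1 β (q r (tg s.1 β))| ≤
        ∑ i ∈ I, |f i (γ t) - f i r|) ∧
      ∀ l ∈ A, |q (γ t) l - q r l| ≤ ∑ i ∈ I, |f i (γ t) - f i r|) ∨
  ∀ᶠ t' in 𝓝[Icc 0 1] t, |g t - g t'| ≤ ∑ i ∈ I, |f i (γ t) - f i (γ t')| + e * |t - t'|

theorem CtlAt2.toCtlAt3 {S₀ : Set K.S} {F : Bool → BFam 3 S₀ Λ} {μ : Bool → S₀ → ℝ} {κ : S₀ → ℝ}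
    (hκ : ∀ s, 0 ≤ κ s) {U : S₀ → Set V} {Z q Y : ℝ → V} {γ : ℝ → ℝ} {H : ℝ → V}
    {C C' ι e : ℝ} {J : Type*} {I : Finset J} {f : J → ℝ → ℝ} {g : ℝ → ℝ} {t : ℝ}
    (h : CtlAt2 G F μ U Z q Y γ H C C' ι e I f g t) :
    CtlAt3 G F μ κ U Z q Y γ H C C' ι e I f g t := by
  rcases h with h | ⟨s, hs, hsU, Al, hAl, hg, hq⟩ | h
  · exact Or.inl h
  · refine Or.inr (Or.inl ⟨s, hs, hsU, Al, hAl, ?_, hq⟩)
    filter_upwards [hg] with t' h1
    refine h1.trans ?_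
    have h2 : 0 ≤ κ s * ∑ l, |H t l - H t' l| :=
      mul_nonneg (hκ s) (Finset.sum_nonneg fun _ _ => abs_nonneg _)
    linarith
  · exact Or.inr (Or.inr h)

namespace ArcP

variable {L : PLev G} {S₀ : Set K.S} {c : K.S → Bool → ℝ} {h0 : ∀ s β, 0 < c s β}
    {h1 : ∀ s β, c s β ≤ L.c s β} {F : Bool → BFam 3 S₀ Λ} {T : Bool → ConHomeo Λ Λ}
    {κ : Bool → V → V} {U : S₀ → Set V} {Z q Y : ℝ → V} {γ : ℝ → ℝ} {c₁ : ℝ}
    {μw : Bool → S₀ → ℝ} {T₂ : Bool → ConHomeo Λ Λ} {κs : S₀ → ℝ}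
    (A : ArcP L S₀ c h0 h1 F T κ U Z q Y γ c₁) (P : PT2 (thinL L c h0 h1) S₀ F μw T₂)
include A P

/-- **the real inequality** -/
theorem real_le3 {ϑ m M C C' ι e : ℝ} (hC : 0 ≤ C) (hC' : 0 ≤ C') (hι : 0 ≤ ι) (hϑ1 : ϑ ≤ 1)
    (hϑ0 : 0 ≤ ϑ) (hm0 : 0 ≤ m) (hM0 : 0 ≤ M) {J : Type*} {I : Finset J} {f : J → ℝ → ℝ}
    {g : ℝ → ℝ} {t : ℝ}
    (ht : t ∈ Icc (0:ℝ) 1)
    (hϑ : ∀ s : S₀, Z (γ t) ∈ PK G s.1 → ∀ β, (F β).e s / ((F β).B s).c ≤ ϑ)
    (hm : ∀ s : S₀, Z (γ t) ∈ PK G s.1 → ∀ β, 8 * μw β s / B.τ s.1 ≤ m)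
    (hκ0 : ∀ s, 0 ≤ κs s) (hκ : ∀ s : S₀, Z (γ t) ∈ PK G s.1 → κs s ≤ m)
    (hM : ∀ s : S₀, Z (γ t) ∈ PK G s.1 → ∀ β, 8 * (F β).D s / B.τ s.1 ≤ M)
    (hg : CtlAt3 G F μw κs U Z q Y γ (H T₂ Y) C C' ι e I f g t) :
    (∃ s : S₀, ∀ᶠ t' in 𝓝[Icc 0 1] t, |g t - g t'| ≤
      (1 + 4 * C + 9 * C' + 3 * ((2 * C + 3 * C' + 3 * (ι + m)) * M)) *
        ∑ i ∈ I, |f i (γ t) - f i (γ t')| +
      (C * ϑ + 3 * ι) * ∑ l, |Y t l - Y t' l| +
      (2 * C + 3 * C' + (2 * C + 3 * C' + 3 * (ι + m)) * (m + M) + 3 * m) *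
        ∑ l, |(Y t l - Z (γ t) l) - (Y t' l - Z (γ t') l)| +
      ((2 * C + 3 * C' + 3 * (ι + m)) * m + 3 * m) * ∑ l, |q (γ t) l - q (γ t') l| +
      (C + C' + (ι + m)) * ∑ β, fS F Y s t t' β + e * |t - t'|) ∨
    ∀ᶠ t' in 𝓝[Icc 0 1] t, |g t - g t'| ≤
      ∑ i ∈ I, |f i (γ t) - f i (γ t')| + e * |t - t'| := by
  have h0S : ∀ t', 0 ≤ ∑ i ∈ I, |f i (γ t) - f i (γ t')| := fun t' =>
    Finset.sum_nonneg fun _ _ => abs_nonneg _
  have h0Y : ∀ t', 0 ≤ ∑ l, |Y t l - Y t' l| := fun t' =>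
    Finset.sum_nonneg fun _ _ => abs_nonneg _
  have h0d : ∀ t', 0 ≤ ∑ l, |(Y t l - Z (γ t) l) - (Y t' l - Z (γ t') l)| := fun t' =>
    Finset.sum_nonneg fun _ _ => abs_nonneg _
  have h0q : ∀ t', 0 ≤ ∑ l, |q (γ t) l - q (γ t') l| := fun t' =>
    Finset.sum_nonneg fun _ _ => abs_nonneg _
  have h0f : ∀ (s : S₀) t', 0 ≤ ∑ β, fS F Y s t t' β := fun s t' =>
    Finset.sum_nonneg fun _ _ => fS_nonneg _ _ _ _
  -- the final comparison of the weights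
  have fin : ∀ (k : ℝ) (s : S₀) (t' : ℝ), 0 ≤ k → k ≤ m →
      (1 + 4 * C + 9 * C' + 3 * ((2 * C + 3 * C' + 3 * (ι + k)) * M)) *
        ∑ i ∈ I, |f i (γ t) - f i (γ t')| +
      ((C * ϑ + 3 * ι) * ∑ l, |Y t l - Y t' l| + 3 * k *
        (∑ l, |(Y t l - Z (γ t) l) - (Y t' l - Z (γ t') l)| + ∑ l, |q (γ t) l - q (γ t') l|)) +
      (2 * C + 3 * C' + (2 * C + 3 * C' + 3 * (ι + k)) * (m + M)) *
        ∑ l, |(Y t l - Z (γ t) l) - (Y t' l - Z (γ t') l)| +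
      (2 * C + 3 * C' + 3 * (ι + k)) * m * ∑ l, |q (γ t) l - q (γ t') l| +
      (C + C' + (ι + k)) * ∑ β, fS F Y s t t' β + e * |t - t'| ≤
      (1 + 4 * C + 9 * C' + 3 * ((2 * C + 3 * C' + 3 * (ι + m)) * M)) *
        ∑ i ∈ I, |f i (γ t) - f i (γ t')| +
      (C * ϑ + 3 * ι) * ∑ l, |Y t l - Y t' l| +
      (2 * C + 3 * C' + (2 * C + 3 * C' + 3 * (ι + m)) * (m + M) + 3 * m) *
        ∑ l, |(Y t l - Z (γ t) l) - (Y t' l - Z (γ t') l)| +
      ((2 * C + 3 * C' + 3 * (ι + m)) * m + 3 * m) * ∑ l, |q (γ t) l - q (γ t') l| +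
      (C + C' + (ι + m)) * ∑ β, fS F Y s t t' β + e * |t - t'| := by
    intro k s t' hk hkm
    have a1 := h0S t'
    have a2 := h0Y t'
    have a3 := h0d t'
    have a4 := h0q t'
    have a5 := h0f s t'
    have b0 : 0 ≤ m - k := by linarith
    have b1 : 0 ≤ (m - k) * M * ∑ i ∈ I, |f i (γ t) - f i (γ t')| := by positivity
    have b2 : 0 ≤ (m - k) * (m + M) *
        ∑ l, |(Y t l - Z (γ t) l) - (Y t' l - Z (γ t') l)| := by positivity
    have b3 : 0 ≤ (m - k) * m * ∑ l, |q (γ t) l - q (γ t') l| := by positivity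
    have b4 : 0 ≤ (m - k) * ∑ β, fS F Y s t t' β := by positivity
    have b5 : 0 ≤ (m - k) * ∑ l, |(Y t l - Z (γ t) l) - (Y t' l - Z (γ t') l)| := by positivity
    have b6 : 0 ≤ (m - k) * ∑ l, |q (γ t) l - q (γ t') l| := by positivity
    nlinarith
  rcases hg with ⟨s, hs, hg⟩ | ⟨s, hs, hsU, Al, hAl, hg, hq⟩ | hg
  · -- zone 1
    rcases A.real_le2 P hC hC' hι hϑ1 hm0 hM0 ht hϑ hm hM
      (Or.inl ⟨s, hs, hg⟩ : CtlAt2 G F μw U Z q Y γ (H T₂ Y) C C' ι e I f g t) with ⟨s', h2⟩ | h2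
    · left
      refine ⟨s', ?_⟩
      filter_upwards [h2] with t' h3
      refine h3.trans (le_trans (le_of_eq ?_) (fin 0 s' t' le_rfl hm0))
      ring
    · exact Or.inr h2
  · -- zone 2
    have hk0 := hκ0 s
    have hkm := hκ s hs
    have hγt : Tendsto γ (𝓝[Icc 0 1] t) (𝓝[Icc 0 1] (γ t)) :=
      tendsto_nhdsWithin_of_tendsto_nhds_of_eventually_within _ (A.lift.cg t ht)
        (eventually_nhdsWithin_of_forall fun t' ht' => A.lift.maps ht')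
    have hfade := hγt.eventually (A.fade _ (A.lift.maps ht) hsU)
    have hZq : Z (γ t) = q (γ t) := hfade.self_of_nhdsWithin ht
    rcases A.real_le2 P hC hC' (add_nonneg hι hk0) hϑ1 hm0 hM0 ht hϑ hm hM
      (Or.inr (Or.inl ⟨s, hs, hsU, Al, hAl, hg, hq⟩) :
        CtlAt2 G F μw U Z q Y γ (H T₂ Y) C C' (ι + κs s) e I f g t) with ⟨s', h2⟩ | h2
    · left
      refine ⟨s', ?_⟩
      filter_upwards [h2, hfade] with t' h3 h4
      have hY : ∑ l, |Y t l - Y t' l| ≤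
          ∑ l, |(Y t l - Z (γ t) l) - (Y t' l - Z (γ t') l)| +
            ∑ l, |q (γ t) l - q (γ t') l| := by
        rw [← Finset.sum_add_distrib]
        refine Finset.sum_le_sum fun l _ => ?_
        have e1 : Y t l - Y t' l = ((Y t l - Z (γ t) l) - (Y t' l - Z (γ t') l)) +
            (q (γ t) l - q (γ t') l) := by rw [hZq, h4]; ring
        rw [e1]
        exact abs_add_le _ _
      refine (h3.trans ?_).trans (fin (κs s) s' t' hk0 hkm)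
      have h5 := mul_le_mul_of_nonneg_left hY (by positivity : 0 ≤ 3 * κs s)
      linarith
    · exact Or.inr h2
  · exact Or.inr hg

/-- **from the local inequality to the variation** -/
theorem evar_gen {wf wY wd wq w ee : ℝ} (hwf1 : 1 ≤ wf) (hwY0 : 0 ≤ wY) (hwd0 : 0 ≤ wd)
    (hwq0 : 0 ≤ wq) (hw0 : 0 ≤ w) (hee : 0 ≤ ee) {J : Type*} {I : Finset J} {f : J → ℝ → ℝ}
    {g : ℝ → ℝ}
    (hg : ∀ t ∈ Icc (0:ℝ) 1, (∃ s : S₀, ∀ᶠ t' in 𝓝[Icc 0 1] t, |g t - g t'| ≤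
      wf * ∑ i ∈ I, |f i (γ t) - f i (γ t')| + wY * ∑ l, |Y t l - Y t' l| +
      wd * ∑ l, |(Y t l - Z (γ t) l) - (Y t' l - Z (γ t') l)| +
      wq * ∑ l, |q (γ t) l - q (γ t') l| + w * ∑ β, fS F Y s t t' β + ee * |t - t'|) ∨
      ∀ᶠ t' in 𝓝[Icc 0 1] t, |g t - g t'| ≤
      ∑ i ∈ I, |f i (γ t) - f i (γ t')| + ee * |t - t'|) :
    eVariationOn g (Icc 0 1) ≤
      ENNReal.ofReal wf * ∑ i ∈ I, eVariationOn (f i) (Icc 0 1) +
      (ENNReal.ofReal wY * ∑ l, eVariationOn (fun t => Y t l) (Icc 0 1) +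
      (ENNReal.ofReal wd * ∑ l, eVariationOn (fun t => Y t l - Z (γ t) l) (Icc 0 1) +
      (ENNReal.ofReal wq * ∑ l, eVariationOn (fun t => q t l) (Icc 0 1) + ENNReal.ofReal ee))) +
      ∑ p ∈ A.tact, ((crs (slK L S₀ p) Z).ncard : ℝ≥0∞) *
        ENNReal.ofReal (w * (F p.1).om p.2.1) := by
  classical
  have hwf0 : 0 ≤ wf := by linarith
  -- the primitive functions
  let pr : J ⊕ (Fin 3 ⊕ (Fin 3 ⊕ (Fin 3 ⊕ Unit))) → ℝ → ℝ := fun o => match o with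
    | .inl i => fun t => wf * f i (γ t)
    | .inr (.inl l) => fun t => wY * Y t l
    | .inr (.inr (.inl l)) => fun t => wd * (Y t l - Z (γ t) l)
    | .inr (.inr (.inr (.inl l))) => fun t => wq * q (γ t) l
    | .inr (.inr (.inr (.inr _))) => fun t => ee * t
  have hsl : ∀ p ∈ A.tact, ∃ s₁ s₂, Zones (slK L S₀ p) Z Y c₁ s₁ s₂ := by
    intro p hp
    obtain ⟨h2, h3⟩ := A.mem_tact.1 hp
    exact A.zones p.1 p.2.1 h2 p.2.2 h3
  have hfin : ∀ p ∈ A.tact, (crs (slK L S₀ p) Z).Finite := by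
    intro p hp
    obtain ⟨h2, h3⟩ := A.mem_tact.1 hp
    exact A.fin p.1 p.2.1 h2 p.2.2 h3
  have key := evar_le_zones2 (Sl := slK L S₀) (c' := fun p => c p.2.1.1 p.1)
    (A := fun p => w * slA (F p.1) p.2.1) A.tact (I.disjSum Finset.univ) (f := pr) (G := g)
    hsl hfin (fun p _ => (h0 _ _).le) (fun p hp => A.thin _ _ (A.mem_tact.1 hp).1)
    (fun p _ => mul_nonneg hw0 (slA_nonneg _ _)) A.lift.cY ?_
  · refine key.trans (add_le_add ?_ ?_)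
    · have hcomp : ∀ φ : ℝ → ℝ, eVariationOn (fun s => φ (γ s)) (Icc 0 1) ≤
          eVariationOn φ (Icc 0 1) := fun φ =>
        eVariationOn.comp_le_of_monotoneOn φ γ A.lift.mono A.lift.maps
      rw [Finset.sum_disjSum, Fintype.sum_sum_type, Fintype.sum_sum_type, Fintype.sum_sum_type]
      refine add_le_add ?_ (add_le_add ?_ (add_le_add ?_ (add_le_add ?_ ?_)))
      · rw [Finset.mul_sum]
        refine Finset.sum_le_sum fun i _ => ?_
        refine (H581.evar_smul wf hwf0 (fun t => f i (γ t)) _).trans ?_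
        gcongr
        exact hcomp (f i)
      · rw [Finset.mul_sum]
        exact Finset.sum_le_sum fun l _ => H581.evar_smul wY hwY0 (fun t => Y t l) _
      · rw [Finset.mul_sum]
        exact Finset.sum_le_sum fun l _ =>
          H581.evar_smul wd hwd0 (fun t => Y t l - Z (γ t) l) _
      · rw [Finset.mul_sum]
        refine Finset.sum_le_sum fun l _ => ?_
        refine (H581.evar_smul wq hwq0 (fun t => q (γ t) l) _).trans ?_
        gcongr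
        exact hcomp (fun t => q t l)
      · rw [Fintype.sum_unique]
        refine (H581.evar_smul ee hee (fun t => t) _).trans ?_
        have h2 : eVariationOn (fun t : ℝ => t) (Icc 0 1) = 1 := by
          have h3 := (monotoneOn_id (s := Icc (0:ℝ) 1)).eVariationOn_eq
            (left_mem_Icc.2 zero_le_one) (right_mem_Icc.2 zero_le_one)
          rw [inter_self] at h3
          refine (show eVariationOn (fun t : ℝ => t) (Icc 0 1) = _ from h3).trans ?_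
          show ENNReal.ofReal ((1:ℝ) - 0) = 1
          rw [sub_zero, ENNReal.ofReal_one]
        rw [h2, mul_one]
    · refine Finset.sum_le_sum fun p _ => mul_le_mul' le_rfl (ENNReal.ofReal_le_ofReal ?_)
      have h2 := two_mul_slA (F p.1) p.2.1
      have e : ((F p.1).B p.2.1).c = c p.2.1.1 p.1 := (A.ps.B p.1 p.2.1).c
      rw [e] at h2
      calc 2 * c p.2.1.1 p.1 * (w * slA (F p.1) p.2.1)
          = w * (2 * c p.2.1.1 p.1 * slA (F p.1) p.2.1) := by ring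
        _ ≤ w * (F p.1).om p.2.1 := mul_le_mul_of_nonneg_left h2 hw0
  · intro t ht
    have hsum : ∀ t', ∑ o ∈ I.disjSum Finset.univ, edist (pr o t) (pr o t') ≤
        ∑ o ∈ I.disjSum Finset.univ, eVariationOn (pr o) (uIcc t t') := fun t' =>
      Finset.sum_le_sum fun o _ => eVariationOn.edist_le (pr o) left_mem_uIcc right_mem_uIcc
    have hpr : ∀ t', ∑ o ∈ I.disjSum Finset.univ, edist (pr o t) (pr o t') =
        ENNReal.ofReal (wf * ∑ i ∈ I, |f i (γ t) - f i (γ t')| +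
          (wY * ∑ l, |Y t l - Y t' l| +
          (wd * ∑ l, |(Y t l - Z (γ t) l) - (Y t' l - Z (γ t') l)| +
          (wq * ∑ l, |q (γ t) l - q (γ t') l| + ee * |t - t'|)))) := by
      intro t'
      have hw' : ∀ (w : ℝ), 0 ≤ w → ∀ a b : ℝ, edist (w * a) (w * b) =
          ENNReal.ofReal (w * |a - b|) := by
        intro w hw a b
        rw [edist_dist, Real.dist_eq, ← mul_sub, abs_mul, abs_of_nonneg hw]
      rw [Finset.sum_disjSum, Fintype.sum_sum_type, Fintype.sum_sum_type, Fintype.sum_sum_type]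
      simp only [pr, hw' wf hwf0, hw' wY hwY0, hw' wd hwd0, hw' wq hwq0, hw' ee hee,
        Fintype.sum_unique]
      have n1 : ∀ (w : ℝ), 0 ≤ w → ∀ a : ℝ, 0 ≤ w * |a| := fun w hw a =>
        mul_nonneg hw (abs_nonneg a)
      rw [← ENNReal.ofReal_sum_of_nonneg fun _ _ => n1 wf hwf0 _,
        ← ENNReal.ofReal_sum_of_nonneg fun _ _ => n1 wY hwY0 _,
        ← ENNReal.ofReal_sum_of_nonneg fun _ _ => n1 wd hwd0 _,
        ← ENNReal.ofReal_sum_of_nonneg fun _ _ => n1 wq hwq0 _,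
        ← ENNReal.ofReal_add (Finset.sum_nonneg fun _ _ => n1 wq hwq0 _) (n1 ee hee _),
        ← ENNReal.ofReal_add (Finset.sum_nonneg fun _ _ => n1 wd hwd0 _)
          (add_nonneg (Finset.sum_nonneg fun _ _ => n1 wq hwq0 _) (n1 ee hee _)),
        ← ENNReal.ofReal_add (Finset.sum_nonneg fun _ _ => n1 wY hwY0 _)
          (add_nonneg (Finset.sum_nonneg fun _ _ => n1 wd hwd0 _)
          (add_nonneg (Finset.sum_nonneg fun _ _ => n1 wq hwq0 _) (n1 ee hee _))),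
        ← ENNReal.ofReal_add (Finset.sum_nonneg fun _ _ => n1 wf hwf0 _)
          (add_nonneg (Finset.sum_nonneg fun _ _ => n1 wY hwY0 _)
          (add_nonneg (Finset.sum_nonneg fun _ _ => n1 wd hwd0 _)
          (add_nonneg (Finset.sum_nonneg fun _ _ => n1 wq hwq0 _) (n1 ee hee _))))]
      simp only [Finset.mul_sum]
    have h0S : ∀ t', 0 ≤ ∑ i ∈ I, |f i (γ t) - f i (γ t')| := fun t' =>
      Finset.sum_nonneg fun _ _ => abs_nonneg _
    have h0Y : ∀ t', 0 ≤ ∑ l, |Y t l - Y t' l| := fun t' =>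
      Finset.sum_nonneg fun _ _ => abs_nonneg _
    have h0d : ∀ t', 0 ≤ ∑ l, |(Y t l - Z (γ t) l) - (Y t' l - Z (γ t') l)| := fun t' =>
      Finset.sum_nonneg fun _ _ => abs_nonneg _
    have h0q : ∀ t', 0 ≤ ∑ l, |q (γ t) l - q (γ t') l| := fun t' =>
      Finset.sum_nonneg fun _ _ => abs_nonneg _
    rcases hg t ht with ⟨s, hs⟩ | hs
    · refine ⟨tl F L Y s t, A.tl_sub ht, fun p hp => ?_, ?_⟩
      · obtain ⟨h2, h3, h4⟩ := A.mem_tl.1 hp
        refine ⟨Y t, ?_, by rw [sub_self, norm_zero]; exact A.pos.le⟩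
        show Y t ∈ cyl (L.bx p.1 p.2.1.1)
        rw [h3]
        exact ((mem_K _).1 (A.K_sub h2)).2
      · filter_upwards [hs] with t' h2
        refine le_trans ?_ (add_le_add (hsum t') le_rfl)
        rw [hpr t']
        have e1 : ∑ p ∈ tl F L Y s t, edist (w * slA (F p.1) p.2.1 *
            fl (c p.2.1.1 p.1) (slK L S₀ p).a (Y t (slK L S₀ p).i))
            (w * slA (F p.1) p.2.1 * fl (c p.2.1.1 p.1) (slK L S₀ p).a (Y t' (slK L S₀ p).i)) =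
            ENNReal.ofReal (w * ∑ β, fS F Y s t t' β) := by
          rw [← A.sum_tl t t' w hw0, ENNReal.ofReal_sum_of_nonneg fun _ _ => abs_nonneg _]
          refine Finset.sum_congr rfl fun p _ => ?_
          rw [edist_dist, Real.dist_eq]
        rw [e1, ← ENNReal.ofReal_add (by
          have := h0S t'; have := h0Y t'; have := h0d t'; have := h0q t'; positivity)
          (mul_nonneg hw0 (Finset.sum_nonneg fun _ _ => fS_nonneg _ _ _ _)), edist_dist,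
          Real.dist_eq]
        refine ENNReal.ofReal_le_ofReal (h2.trans (le_of_eq ?_))
        ring
    · refine ⟨∅, Finset.empty_subset _, fun p hp => absurd hp (Finset.notMem_empty p), ?_⟩
      filter_upwards [hs] with t' h2
      rw [Finset.sum_empty, add_zero]
      refine le_trans ?_ (hsum t')
      rw [hpr t', edist_dist, Real.dist_eq]
      refine ENNReal.ofReal_le_ofReal (h2.trans ?_)
      have a1 := h0S t'
      have a2 := mul_nonneg hwY0 (h0Y t')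
      have a3 := mul_nonneg hwd0 (h0d t')
      have a4 := mul_nonneg hwq0 (h0q t')
      nlinarith

/-- **[TV-P], one arc** -/
theorem evar_le3 {ϑ m M C C' ι ee δ : ℝ} (hC : 0 ≤ C) (hC' : 0 ≤ C') (hι : 0 ≤ ι) (hι1 : ι ≤ 1)
    (hee : 0 ≤ ee) (hϑ0 : 0 ≤ ϑ) (hϑ1 : ϑ ≤ 1) (hm0 : 0 ≤ m) (hm1 : m ≤ 1) (hM0 : 0 ≤ M)
    (hδ : 0 ≤ δ)
    (hY : ∀ l, eVariationOn (fun t => Y t l - Z (γ t) l) (Icc 0 1) ≤ ENNReal.ofReal δ)
    (hϑ : ∀ s : S₀, (PK G s.1 ∩ Z '' Icc 0 1).Nonempty → ∀ β, (F β).e s / ((F β).B s).c ≤ ϑ)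
    (hm : ∀ s : S₀, (PK G s.1 ∩ Z '' Icc 0 1).Nonempty → ∀ β, 8 * μw β s / B.τ s.1 ≤ m)
    (hκ0 : ∀ s, 0 ≤ κs s) (hκ : ∀ s : S₀, (PK G s.1 ∩ Z '' Icc 0 1).Nonempty → κs s ≤ m)
    (hM : ∀ s : S₀, (PK G s.1 ∩ Z '' Icc 0 1).Nonempty → ∀ β, 8 * (F β).D s / B.τ s.1 ≤ M)
    {J : Type*} {I : Finset J} {f : J → ℝ → ℝ} {g : ℝ → ℝ}
    (hg : ∀ t ∈ Icc (0:ℝ) 1, CtlAt3 G F μw κs U Z q Y γ (H T₂ Y) C C' ι ee I f g t) :
    eVariationOn g (Icc 0 1) ≤
      ENNReal.ofReal (1 + 4 * C + 9 * C' + 3 * ((2 * C + 3 * C' + 6) * M)) *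
        ∑ i ∈ I, eVariationOn (f i) (Icc 0 1) +
      ENNReal.ofReal (C + C' + 2) * ∑' o : S₀ × Bool,
      ENNReal.ofReal (L.om o.1.1 o.2) * cnt (cross Z (tg o.1.1 o.2)
        (levs (L.N o.1.1 o.2) (L.a o.1.1 o.2)) (PK G o.1.1)) +
      (ENNReal.ofReal (C * ϑ + 3 * ι) * ∑ l, eVariationOn (fun t => Z t l) (Icc 0 1) +
      ENNReal.ofReal ((2 * C + 3 * C' + 9) * m) *
        ∑ l, eVariationOn (fun t => q t l) (Icc 0 1) +
      ENNReal.ofReal (3 * (5 * C + 6 * C' + 12 + (2 * C + 3 * C' + 6) * M) * δ + ee)) := by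
  set wd : ℝ := 2 * C + 3 * C' + (2 * C + 3 * C' + 6) * (m + M) + 3 * m with hwd
  have hW : 0 ≤ 2 * C + 3 * C' + 6 := by positivity
  have hwd0 : 0 ≤ wd := by positivity
  have hw0 : 0 ≤ C + C' + 2 := by positivity
  have hwf1 : 1 ≤ 1 + 4 * C + 9 * C' + 3 * ((2 * C + 3 * C' + 6) * M) := by
    have : 0 ≤ (2 * C + 3 * C' + 6) * M := by positivity
    linarith
  have h0S : ∀ t t', 0 ≤ ∑ i ∈ I, |f i (γ t) - f i (γ t')| := fun t t' =>
    Finset.sum_nonneg fun _ _ => abs_nonneg _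
  have h0d : ∀ t t', 0 ≤ ∑ l, |(Y t l - Z (γ t) l) - (Y t' l - Z (γ t') l)| := fun t t' =>
    Finset.sum_nonneg fun _ _ => abs_nonneg _
  have h0q : ∀ t t', 0 ≤ ∑ l, |q (γ t) l - q (γ t') l| := fun t t' =>
    Finset.sum_nonneg fun _ _ => abs_nonneg _
  have h0f : ∀ (s : S₀) t t', 0 ≤ ∑ β, fS F Y s t t' β := fun s t t' =>
    Finset.sum_nonneg fun _ _ => fS_nonneg _ _ _ _
  have h2 := A.evar_gen P (wf := 1 + 4 * C + 9 * C' + 3 * ((2 * C + 3 * C' + 6) * M))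
    (wY := C * ϑ + 3 * ι) (wd := wd) (wq := (2 * C + 3 * C' + 9) * m) (w := C + C' + 2)
    hwf1 (by positivity) hwd0 (by positivity) hw0 hee (I := I) (f := f) (g := g) ?_
  · refine h2.trans ?_
    have hsum := A.sum_le (w := C + C' + 2) hw0
    have hγ : ∀ l, eVariationOn (fun t => Z (γ t) l) (Icc 0 1) ≤
        eVariationOn (fun t => Z t l) (Icc 0 1) := fun l =>
      eVariationOn.comp_le_of_monotoneOn (fun t => Z t l) γ A.lift.mono A.lift.maps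
    have hYl : ∀ l, eVariationOn (fun t => Y t l) (Icc 0 1) ≤
        eVariationOn (fun t => Z t l) (Icc 0 1) + ENNReal.ofReal δ := by
      intro l
      have e : (fun t => Y t l) = fun t => Z (γ t) l + (Y t l - Z (γ t) l) := by
        funext t; ring
      rw [e]
      refine (evar_add_le _ _ _).trans (add_le_add (hγ l) (hY l))
    have h3δ : ∑ _l : Fin 3, ENNReal.ofReal δ = ENNReal.ofReal (3 * δ) := by
      rw [Finset.sum_const, Finset.card_univ, Fintype.card_fin, nsmul_eq_mul,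
        ENNReal.ofReal_mul (by norm_num)]
      norm_num
    have k1 : ENNReal.ofReal (C * ϑ + 3 * ι) * ∑ l, eVariationOn (fun t => Y t l) (Icc 0 1) ≤
        ENNReal.ofReal (C * ϑ + 3 * ι) * ∑ l, eVariationOn (fun t => Z t l) (Icc 0 1) +
          ENNReal.ofReal ((C * ϑ + 3 * ι) * (3 * δ)) := by
      have h4 : ∑ l, eVariationOn (fun t => Y t l) (Icc 0 1) ≤
          ∑ l, eVariationOn (fun t => Z t l) (Icc 0 1) + ENNReal.ofReal (3 * δ) := by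
        rw [← h3δ, ← Finset.sum_add_distrib]
        exact Finset.sum_le_sum fun l _ => hYl l
      refine (mul_le_mul' le_rfl h4).trans ?_
      rw [mul_add, ← ENNReal.ofReal_mul (by positivity)]
    have k2 : ENNReal.ofReal wd *
        ∑ l, eVariationOn (fun t => Y t l - Z (γ t) l) (Icc 0 1) ≤
        ENNReal.ofReal (wd * (3 * δ)) := by
      rw [ENNReal.ofReal_mul hwd0, ← h3δ]
      exact mul_le_mul' le_rfl (Finset.sum_le_sum fun l _ => hY l)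
    have k3 : ENNReal.ofReal ((C * ϑ + 3 * ι) * (3 * δ)) + ENNReal.ofReal (wd * (3 * δ)) +
        ENNReal.ofReal ee ≤
        ENNReal.ofReal (3 * (5 * C + 6 * C' + 12 + (2 * C + 3 * C' + 6) * M) * δ + ee) := by
      rw [← ENNReal.ofReal_add (by positivity) (by positivity),
        ← ENNReal.ofReal_add (by positivity) hee]
      refine ENNReal.ofReal_le_ofReal (add_le_add_left ?_ ee)
      have e1 : C * ϑ ≤ C * 1 := mul_le_mul_of_nonneg_left hϑ1 hC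
      have e2 : (2 * C + 3 * C' + 6) * m ≤ (2 * C + 3 * C' + 6) * 1 :=
        mul_le_mul_of_nonneg_left hm1 hW
      have e3 : (C * ϑ + 3 * ι) + wd ≤
          5 * C + 6 * C' + 12 + (2 * C + 3 * C' + 6) * M := by
        rw [hwd]; linarith
      have e4 := mul_le_mul_of_nonneg_right e3 (by positivity : 0 ≤ 3 * δ)
      linarith
    calc _ ≤ ENNReal.ofReal (1 + 4 * C + 9 * C' + 3 * ((2 * C + 3 * C' + 6) * M)) *
          ∑ i ∈ I, eVariationOn (f i) (Icc 0 1) +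
          ((ENNReal.ofReal (C * ϑ + 3 * ι) * ∑ l, eVariationOn (fun t => Z t l) (Icc 0 1) +
          ENNReal.ofReal ((C * ϑ + 3 * ι) * (3 * δ))) +
          (ENNReal.ofReal (wd * (3 * δ)) +
          (ENNReal.ofReal ((2 * C + 3 * C' + 9) * m) *
          ∑ l, eVariationOn (fun t => q t l) (Icc 0 1) + ENNReal.ofReal ee))) + _ :=
          add_le_add (add_le_add le_rfl (add_le_add k1 (add_le_add k2 le_rfl))) hsum
      _ = ENNReal.ofReal (1 + 4 * C + 9 * C' + 3 * ((2 * C + 3 * C' + 6) * M)) *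
          ∑ i ∈ I, eVariationOn (f i) (Icc 0 1) +
          ENNReal.ofReal (C + C' + 2) * ∑' o : S₀ × Bool,
          ENNReal.ofReal (L.om o.1.1 o.2) * cnt (cross Z (tg o.1.1 o.2)
            (levs (L.N o.1.1 o.2) (L.a o.1.1 o.2)) (PK G o.1.1)) +
          (ENNReal.ofReal (C * ϑ + 3 * ι) * ∑ l, eVariationOn (fun t => Z t l) (Icc 0 1) +
          ENNReal.ofReal ((2 * C + 3 * C' + 9) * m) *
            ∑ l, eVariationOn (fun t => q t l) (Icc 0 1) +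
          (ENNReal.ofReal ((C * ϑ + 3 * ι) * (3 * δ)) + ENNReal.ofReal (wd * (3 * δ)) +
            ENNReal.ofReal ee)) := by ring
      _ ≤ _ := add_le_add le_rfl (add_le_add le_rfl k3)
  · intro t ht
    have hmem : ∀ s : S₀, Z (γ t) ∈ PK G s.1 → (PK G s.1 ∩ Z '' Icc 0 1).Nonempty :=
      fun s hs => ⟨_, hs, γ t, A.lift.maps ht, rfl⟩
    rcases A.real_le3 P hC hC' hι hϑ1 hϑ0 hm0 hM0 ht (fun s hs => hϑ s (hmem s hs))
      (fun s hs => hm s (hmem s hs)) hκ0 (fun s hs => hκ s (hmem s hs))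
      (fun s hs => hM s (hmem s hs)) (hg t ht) with ⟨s, hs⟩ | hs
    · left
      refine ⟨s, ?_⟩
      filter_upwards [hs] with t' h3
      refine h3.trans ?_
      have a1 := h0S t t'
      have a3 := h0d t t'
      have a4 := h0q t t'
      have a5 := h0f s t t'
      have b0 : ι + m ≤ 2 := by linarith
      have c1 : (2 * C + 3 * C' + 3 * (ι + m)) ≤ 2 * C + 3 * C' + 6 := by linarith
      have d1 := mul_le_mul_of_nonneg_right c1 hM0
      have d2 := mul_le_mul_of_nonneg_right c1 (by positivity : 0 ≤ m + M)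
      have d3 := mul_le_mul_of_nonneg_right c1 hm0
      have f1 : (1 + 4 * C + 9 * C' + 3 * ((2 * C + 3 * C' + 3 * (ι + m)) * M)) ≤
          1 + 4 * C + 9 * C' + 3 * ((2 * C + 3 * C' + 6) * M) := by linarith
      have f2 : (2 * C + 3 * C' + (2 * C + 3 * C' + 3 * (ι + m)) * (m + M) + 3 * m) ≤ wd := by
        rw [hwd]; linarith
      have f3 : (2 * C + 3 * C' + 3 * (ι + m)) * m + 3 * m ≤ (2 * C + 3 * C' + 9) * m := by
        linarith
      have f4 : C + C' + (ι + m) ≤ C + C' + 2 := by linarith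
      have g1 := mul_le_mul_of_nonneg_right f1 a1
      have g2 := mul_le_mul_of_nonneg_right f2 a3
      have g3 := mul_le_mul_of_nonneg_right f3 a4
      have g4 := mul_le_mul_of_nonneg_right f4 a5
      linarith
    · exact Or.inr hs

end ArcP

variable {M : Mesh Ω} {E : Edges M} {D : Dat K M} {h1 h2 : ConHomeo Ω Λ} {L : PLev G}
  {ι : Type} {F : ι → Set V}

/-- **[TV-P], all edges, two-stage staircases**, `CtlAt3` -/
theorem exists_tvP3 (hΛ : IsOpen Λ) (O : ROut3 G E D h1 h2 L.lv F)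
    (ht : ∀ s ∈ D.S₀, ∀ β, D.ht s β ≤ B.τ s / 2) (hFe : ∀ e, ∃ i, F i = E.seg e)
    {C C' M₁ : ℝ} (hC : 0 ≤ C) (hC' : 0 ≤ C') (hM0 : 0 ≤ M₁) {δ m : E.ε → ℝ} (hδ : ∀ e, 0 < δ e)
    (hm0 : ∀ e, 0 ≤ m e) (hm1 : ∀ e, m e ≤ 1)
    (hm : ∀ e, ENNReal.ofReal ((2 * C + 3 * C' + 9) * m e) *
      ∑ l, eVariationOn (fun t => onS h1.toFun (E.a e) (E.b e) t l) (Icc 0 1) ≤
        ENNReal.ofReal (δ e / 4)) :
    ∃ cT : K.S → ℝ, (∀ s, 0 < cT s) ∧ ∃ ϑ : K.S → ℝ, (∀ s, 0 < ϑ s) ∧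
    ∃ ι₀ : E.ε → ℝ, (∀ e, 0 < ι₀ e) ∧
    ∀ (c : K.S → Bool → ℝ) (c0 : ∀ s β, 0 < c s β) (c1 : ∀ s β, c s β ≤ L.c s β),
      (∀ s ∈ D.S₀, ∀ β, c s β ≤ cT s) →
      ∀ κ : Bool → V → V, (∀ β, IsQ (fun s : D.S₀ => (thinL L c c0 c1).bx β s.1) (κ β)) →
      ∀ h3 : ConHomeo Ω Λ,
      (∀ e, h3.toFun '' E.seg e = H579.Pre (κ true ∘ κ false) Λ h2 (E.seg e)) →
      (∀ x ∈ E.verts, κ true (κ false (h3.toFun x)) = h2.toFun x) →
      ∃ (γ : E.ε → ℝ → ℝ) (c₁ : E.ε → ℝ),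
        ∀ (Fm : Bool → BFam 3 D.S₀ Λ) (T : Bool → ConHomeo Λ Λ),
        _root_.P073.H142.PS3 (thinL L c c0 c1) D.S₀ Fm T → ∀ e,
        ArcP L D.S₀ c c0 c1 Fm T κ (fun s => D.PE G s.1) (onS h2.toFun (E.a e) (E.b e))
          (onS h1.toFun (E.a e) (E.b e)) (onS h3.toFun (E.a e) (E.b e)) (γ e) (c₁ e) ∧
        ∀ i' ee : ℝ, 0 ≤ i' → i' ≤ ι₀ e → 0 ≤ ee →
        (∀ s : D.S₀, (PK G s.1 ∩ h1.toFun '' E.seg e).Nonempty → ∀ β,
          (Fm β).e s / ((Fm β).B s).c ≤ ϑ s.1) →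
        ∀ (μw : Bool → D.S₀ → ℝ) (T₂ : Bool → ConHomeo Λ Λ), PT2 (thinL L c c0 c1) D.S₀ Fm μw T₂ →
        (∀ s : D.S₀, (PK G s.1 ∩ h1.toFun '' E.seg e).Nonempty → ∀ β,
          8 * μw β s / B.τ s.1 ≤ m e) →
        ∀ κs : D.S₀ → ℝ, (∀ s, 0 ≤ κs s) →
        (∀ s : D.S₀, (PK G s.1 ∩ h1.toFun '' E.seg e).Nonempty → κs s ≤ m e) →
        (∀ s : D.S₀, (PK G s.1 ∩ h1.toFun '' E.seg e).Nonempty → ∀ β,
          8 * (Fm β).D s / B.τ s.1 ≤ M₁) →
        ∀ {J : Type} (I : Finset J) (f : J → ℝ → ℝ) (g : ℝ → ℝ),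
        (∀ t ∈ Icc (0:ℝ) 1, CtlAt3 G Fm μw κs (fun s : D.S₀ => D.PE G s.1)
          (onS h2.toFun (E.a e) (E.b e)) (onS h1.toFun (E.a e) (E.b e))
          (onS h3.toFun (E.a e) (E.b e)) (γ e)
          (ArcP.H T₂ (onS h3.toFun (E.a e) (E.b e))) C C' i' ee I f g t) →
        eVariationOn g (Icc 0 1) ≤
          ENNReal.ofReal (1 + 4 * C + 9 * C' + 3 * ((2 * C + 3 * C' + 6) * M₁)) *
        ∑ i ∈ I, eVariationOn (f i) (Icc 0 1) +
          ENNReal.ofReal (C + C' + 2) * ∑' o : D.S₀ × Bool,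
          ENNReal.ofReal (L.om o.1.1 o.2) * cnt (cross (onS h2.toFun (E.a e) (E.b e))
            (tg o.1.1 o.2) (levs (L.N o.1.1 o.2) (L.a o.1.1 o.2)) (PK G o.1.1)) +
          ENNReal.ofReal (δ e + ee) := by
  -- the numbers of the edges
  have hfe : ∀ e : E.ε, ∃ d : ℝ, 0 < d ∧
      3 * (5 * C + 6 * C' + 12 + (2 * C + 3 * C' + 6) * M₁) * d ≤ δ e / 4 := by
    intro e
    have := hδ e
    refine ⟨δ e / (12 * (5 * C + 6 * C' + 12 + (2 * C + 3 * C' + 6) * M₁)), by positivity,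
      le_of_eq ?_⟩
    field_simp
    ring
  choose d hd0 hd using hfe
  have hϑe : ∀ e : E.ε, ∃ r : ℝ, 0 < r ∧ r ≤ 1 ∧ ∀ r', 0 ≤ r' → r' ≤ r →
      ENNReal.ofReal (C * r') *
        ∑ l, eVariationOn (fun t => onS h2.toFun (E.a e) (E.b e) t l) (Icc 0 1) ≤
      ENNReal.ofReal (δ e / 4) := fun e =>
    exists_fac (tv_lt_top h2 e) hC (by have := hδ e; positivity)
  choose ϑe h10 h11 h12 using hϑe
  have hιe : ∀ e : E.ε, ∃ r : ℝ, 0 < r ∧ r ≤ 1 ∧ ∀ r', 0 ≤ r' → r' ≤ r →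
      ENNReal.ofReal (3 * r') *
        ∑ l, eVariationOn (fun t => onS h2.toFun (E.a e) (E.b e) t l) (Icc 0 1) ≤
      ENNReal.ofReal (δ e / 4) := fun e =>
    exists_fac (tv_lt_top h2 e) (by norm_num) (by have := hδ e; positivity)
  choose ιe h20 h21 h22 using hιe
  choose fi hfi using hFe
  have hae : ∀ e : E.ε, _ := fun e =>
    exists_arcP hΛ O ht (E.ne e) (hfi e) (E.seg_sub_Ω e) (hd0 e) one_pos
  choose ce hce0 _ hce using hae
  obtain ⟨cT, hcT0, hcT⟩ := exists_perSq (G := G) (E := E) h2 (r := fun e => ce e / 2)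
    (fun e => by have := hce0 e; positivity)
  obtain ⟨ϑ, hϑ0, hϑ⟩ := exists_perSq (G := G) (E := E) h2 (r := ϑe) h10
  refine ⟨cT, hcT0, ϑ, hϑ0, ιe, h20, fun c c0 c1 hc κ hκ h3 himg hvert => ?_⟩
  have hx : ∀ e : E.ε, _ := fun e => hce e c c0 c1
    (fun s hs hne β => (hc s hs β).trans (hcT s e hne)) κ hκ h3 (himg e)
    (hvert _ (Or.inl ⟨e, rfl⟩)) (hvert _ (Or.inr ⟨e, rfl⟩))
  choose γ hγ1 hγ2 hγ3 using hx
  refine ⟨γ, ce, fun Fm T hP e => ⟨hγ1 e Fm T hP,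
    fun i' ee hi0 hi1 hee hθ μw T₂ P hμ κs hκ0 hκm hM J I f g hg => ?_⟩⟩
  have hmet : ∀ s : D.S₀, (PK G s.1 ∩ onS h2.toFun (E.a e) (E.b e) '' Icc 0 1).Nonempty →
      (PK G s.1 ∩ h2.toFun '' E.seg e).Nonempty ∧ (PK G s.1 ∩ h1.toFun '' E.seg e).Nonempty := by
    rintro s ⟨y, hy, hy2⟩
    rw [onS_image] at hy2
    refine ⟨⟨y, hy, hy2⟩, ?_⟩
    obtain ⟨x, hx, rfl⟩ := hy2
    exact ⟨h1.toFun x, (mem_PK_h2 O ht (E.seg_sub_Ω e hx) s.1).1 hy, x, hx, rfl⟩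
  have hi1' : i' ≤ 1 := hi1.trans (h21 e)
  have key := (hγ1 e Fm T hP).evar_le3 P hC hC' hi0 hi1' hee (h10 e).le (h11 e) (hm0 e) (hm1 e)
    hM0 (hd0 e).le
    (hγ2 e) (fun s hs β => (hθ s (hmet s hs).2 β).trans (hϑ s.1 e (hmet s hs).1))
    (fun s hs β => hμ s (hmet s hs).2 β) hκ0 (fun s hs => hκm s (hmet s hs).2)
    (fun s hs β => hM s (hmet s hs).2 β) hg
  refine key.trans (add_le_add le_rfl ?_)
  have hδe := hδ e
  have k1 : ENNReal.ofReal (C * ϑe e + 3 * i') *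
      ∑ l, eVariationOn (fun t => onS h2.toFun (E.a e) (E.b e) t l) (Icc 0 1) ≤
      ENNReal.ofReal (δ e / 4) + ENNReal.ofReal (δ e / 4) := by
    rw [ENNReal.ofReal_add (mul_nonneg hC (h10 e).le) (by positivity), add_mul]
    exact add_le_add (h12 e _ (h10 e).le le_rfl) (h22 e _ hi0 hi1)
  have k3 : ENNReal.ofReal (3 * (5 * C + 6 * C' + 12 + (2 * C + 3 * C' + 6) * M₁) * d e + ee) ≤
      ENNReal.ofReal (δ e / 4 + ee) :=
    ENNReal.ofReal_le_ofReal (add_le_add_left (hd e) ee)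
  refine (add_le_add (add_le_add k1 (hm e)) k3).trans (le_of_eq ?_)
  rw [← ENNReal.ofReal_add (by positivity) (by positivity),
    ← ENNReal.ofReal_add (by positivity) (by positivity),
    ← ENNReal.ofReal_add (by positivity) (by positivity)]
  congr 1
  ring

end Vale.Agent.P073.H190.Tvp
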