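import Vale.Agent.P073.H235.UncSpec

/-!
# P073: the un-collapse outside of the thin part: (U6) and (U4)
-/

namespace Vale.Agent.P073.H190

open MeasureTheory Set Filter Topology Metric
open Vale.Agent.P073.St (V Mat)
open Vale.Agent.P073.SQ (ev)
open Vale.Agent.P073.H235
open scoped ContDiff ENNReal

/-- **(U6)** -/
theorem specU6 : SpecU6 := by
  intro θ δ τ ν M k a L h x hx
  have hx' : Spr δ (uu θ L x) (x k) < 1 / 2 := not_le.1 hx
  refine ⟨fun i hi => ?_, ?_, ?_⟩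
  · by_contra hc
    have h0 : L x = 0 := by
      refine h.lat.zero x ⟨i, hi, ?_⟩
      by_contra h2
      rw [not_or, not_le, not_le] at h2
      exact hc ⟨h2.1, h2.2⟩
    have hu : uu θ L x = 1 / 2 := by unfold uu; rw [h0]; ring
    rw [hu, Spr_half] at hx'
    norm_num at hx'
  · by_contra hc
    have := thin h.hδ (x := x k) (u := uu θ L x) (Or.inl (not_lt.1 hc))
    linarith
  · by_contra hc
    have := thin h.hδ (x := x k) (u := uu θ L x) (Or.inr (not_lt.1 hc))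
    linarith

theorem Bx_eq (a : V) : Bx a = Set.pi univ fun i => Ioo (0 : ℝ) (a i) := by
  ext x
  simp [Bx]

theorem isOpen_Bx (a : V) : IsOpen (Bx a) := by
  rw [Bx_eq]
  exact isOpen_set_pi finite_univ fun i _ => isOpen_Ioo

/-- the compact core of the flat box -/
def Kc (θ ν : ℝ) (k : Fin 3) (a : V) : Set V :=
  Icc (Function.update (fun i => ν / 4 * a i) k (θ / 2))
    (Function.update (fun i => (1 - ν / 4) * a i) k (3 * θ / 2))

theorem isCompact_Kc (θ ν : ℝ) (k : Fin 3) (a : V) : IsCompact (Kc θ ν k a) := isCompact_Icc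

theorem mem_Kc {θ ν : ℝ} {k : Fin 3} {a : V} {x : V}
    (h1 : ∀ i, i ≠ k → ν / 4 * a i ≤ x i ∧ x i ≤ (1 - ν / 4) * a i)
    (h2 : |x k - θ| ≤ θ / 2) : x ∈ Kc θ ν k a := by
  rw [abs_le] at h2
  constructor
  · intro i
    by_cases hi : i = k
    · subst hi; rw [Function.update_self]; linarith
    · rw [Function.update_of_ne hi]; exact (h1 i hi).1
  · intro i
    by_cases hi : i = k
    · subst hi; rw [Function.update_self]; linarith
    · rw [Function.update_of_ne hi]; exact (h1 i hi).2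

theorem Kc_sub {θ ν : ℝ} {k : Fin 3} {a : V} (hθ : 0 < θ) (hν : 0 < ν)
    (ha : ∀ i, i ≠ k → 0 < a i) : Kc θ ν k a ⊆ Bx (Function.update a k (2 * θ)) := by
  intro x hx i
  have h1 := hx.1 i
  have h2 := hx.2 i
  by_cases hi : i = k
  · subst hi
    simp only [Function.update_self] at h1 h2 ⊢
    constructor <;> linarith
  · simp only [Function.update_of_ne hi] at h1 h2 ⊢
    have h3 := ha i hi
    have h4 := mul_pos hν h3
    constructor <;> nlinarith

section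

variable {θ δ τ ν M : ℝ} {k : Fin 3} {a : V} {L : V → ℝ} {g : V → V}

theorem fderiv_g_Dm (h : Par θ δ τ ν M k a L)
    (hg : ContDiffOn ℝ ∞ g (Bx (Function.update a k (2 * θ)))) {x : V}
    (hx : Dm θ δ τ k L x ∈ Bx (Function.update a k (2 * θ))) (v : V) :
    fderiv ℝ (fun x => g (Dm θ δ τ k L x)) x v =
      fderiv ℝ g (Dm θ δ τ k L x) (fderiv ℝ (Dm θ δ τ k L) x v) := by
  have h1 : HasFDerivAt g (fderiv ℝ g (Dm θ δ τ k L x)) (Dm θ δ τ k L x) := by
    have : ContDiffAt ℝ ∞ g (Dm θ δ τ k L x) := hg.contDiffAt ((isOpen_Bx _).mem_nhds hx)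
    exact (this.differentiableAt (by simp)).hasFDerivAt
  have h2 : HasFDerivAt (Dm θ δ τ k L) (fderiv ℝ (Dm θ δ τ k L) x) x :=
    (((contDiff_Dm h.lat h.hθ h.hθ' h.hτ).differentiable (by simp)).differentiableAt).hasFDerivAt
  have h3 : HasFDerivAt (fun x => g (Dm θ δ τ k L x))
      ((fderiv ℝ g (Dm θ δ τ k L x)) ∘SL (fderiv ℝ (Dm θ δ τ k L) x)) x := h1.comp x h2
  rw [h3.fderiv]
  rfl

theorem fderiv_g_k (h : Par θ δ τ ν M k a L)
    (hg : ContDiffOn ℝ ∞ g (Bx (Function.update a k (2 * θ)))) {x : V}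
    (hx : Dm θ δ τ k L x ∈ Bx (Function.update a k (2 * θ))) {B c : ℝ}
    (hB : ‖fderiv ℝ g (Dm θ δ τ k L x)‖ ≤ B) (hc : |dx θ δ τ (uu θ L x) (x k)| ≤ c) :
    ‖fderiv ℝ (fun x => g (Dm θ δ τ k L x)) x (ev k)‖ ≤ B * c := by
  rw [fderiv_g_Dm h hg hx, fderiv_Dm_k h.lat h.hθ h.hθ' h.hτ h.hδ.ne', map_smul, norm_smul,
    Real.norm_eq_abs, mul_comm]
  have h1 := (fderiv ℝ g (Dm θ δ τ k L x)).le_opNorm (ev k)
  rw [norm_ev, mul_one] at h1
  have hB0 : 0 ≤ B := (norm_nonneg _).trans hB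
  gcongr
  exact h1.trans hB

theorem fderiv_g_ne (h : Par θ δ τ ν M k a L)
    (hg : ContDiffOn ℝ ∞ g (Bx (Function.update a k (2 * θ)))) {x : V}
    (hx : Dm θ δ τ k L x ∈ Bx (Function.update a k (2 * θ))) {B c η : ℝ}
    (hB : ‖fderiv ℝ g (Dm θ δ τ k L x)‖ ≤ B) (hc : |du θ δ τ (uu θ L x) (x k)| ≤ c)
    (hη : ‖fderiv ℝ g (Dm θ δ τ k L x) - fderiv ℝ g (Function.update x k θ)‖ ≤ η)
    {j : Fin 3} (hj : j ≠ k) :
    ‖fderiv ℝ (fun x => g (Dm θ δ τ k L x)) x (ev j) -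
      fderiv ℝ g (Function.update x k θ) (ev j)‖ ≤ η + B * (c * M) := by
  rw [fderiv_g_Dm h hg hx, fderiv_Dm_ne h.lat h.hθ h.hθ' h.hτ h.hδ.ne' x hj, map_add, map_smul]
  have e : fderiv ℝ g (Dm θ δ τ k L x) (ev j) +
      (du θ δ τ (uu θ L x) (x k) * fderiv ℝ (uu θ L) x (ev j)) •
        fderiv ℝ g (Dm θ δ τ k L x) (ev k) - fderiv ℝ g (Function.update x k θ) (ev j) =
      (fderiv ℝ g (Dm θ δ τ k L x) - fderiv ℝ g (Function.update x k θ)) (ev j) +
      (du θ δ τ (uu θ L x) (x k) * fderiv ℝ (uu θ L) x (ev j)) •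
        fderiv ℝ g (Dm θ δ τ k L x) (ev k) := by
    rw [sub_apply]; abel
  rw [e]
  have h1 := (fderiv ℝ g (Dm θ δ τ k L x) -
    fderiv ℝ g (Function.update x k θ)).le_opNorm (ev j)
  rw [norm_ev, mul_one] at h1
  have h2 := (fderiv ℝ g (Dm θ δ τ k L x)).le_opNorm (ev k)
  rw [norm_ev, mul_one] at h2
  have hB0 : 0 ≤ B := (norm_nonneg _).trans hB
  have h3 := abs_fderiv_uu_le h.lat h.hθ h.hθ' x j
  have hc0 : 0 ≤ c := (abs_nonneg _).trans hc
  refine (norm_add_le _ _).trans (add_le_add (h1.trans hη) ?_)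
  rw [norm_smul, Real.norm_eq_abs, abs_mul, mul_comm]
  gcongr
  exact h2.trans hB

end

/-- **(U4)** -/
theorem specU4 : SpecU4 := by
  intro θ ν M k a L g e he hν hg
  by_cases hpar : 0 < θ ∧ (∀ i, i ≠ k → 0 < a i) ∧ 0 ≤ M
  swap
  · refine ⟨1, one_pos, fun δ τ h _ x _ _ _ _ j => ?_⟩
    exact absurd ⟨h.hθ, h.ha, (norm_nonneg _).trans (h.lat.der 0)⟩ hpar
  obtain ⟨hθ, ha, hM⟩ := hpar
  have hKs := Kc_sub (k := k) hθ hν ha
  have hcont : ContinuousOn (fderiv ℝ g) (Kc θ ν k a) :=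
    (hg.continuousOn_fderiv_of_isOpen (isOpen_Bx _) (by simp)).mono hKs
  have hK := isCompact_Kc θ ν k a
  obtain ⟨B, hB⟩ := hK.exists_bound_of_continuousOn hcont
  have hB' : ∀ y ∈ Kc θ ν k a, ‖fderiv ℝ g y‖ ≤ |B| := fun y hy => (hB y hy).trans (le_abs_self B)
  have huc := hK.uniformContinuousOn_of_continuous hcont
  rw [Metric.uniformContinuousOn_iff_le] at huc
  obtain ⟨ρ, hρ, huc⟩ := huc (e / 2) (by positivity)
  -- the threshold
  refine ⟨min (min (θ / 2) ρ) (min (e / (|B| + 1)) (e * θ / (2 * (|B| + 1) * (M + 1)))), ?_, ?_⟩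
  · positivity
  intro δ τ h hτ x hx hlat h1 h2 j
  have hτ1 : τ ≤ θ / 2 := hτ.trans ((min_le_left _ _).trans (min_le_left _ _))
  have hτ2 : τ ≤ ρ := hτ.trans ((min_le_left _ _).trans (min_le_right _ _))
  have hτ3 : τ ≤ e / (|B| + 1) := hτ.trans ((min_le_right _ _).trans (min_le_left _ _))
  have hτ4 : τ ≤ e * θ / (2 * (|B| + 1) * (M + 1)) :=
    hτ.trans ((min_le_right _ _).trans (min_le_right _ _))
  have hx0 : 0 ≤ x k := by have := (hx k).1; exact this.le
  have hx1 : x k ≤ 1 := by have := (hx k).2; rw [Function.update_self] at this; exact this.le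
  have hu : θ ≤ uu θ L x := uu_ge h.lat h.hθ' x
  have hdpr := fat_dpr h.hδ h.hθ h.hτ hu hx0 hx1 h1 h2
  have hdx := fat_dx h.hδ h.hθ h.hτ hu h1 h2
  have hdx0 : 0 < dx θ δ τ (uu θ L x) (x k) := dx_pos h.hθ h.hτ (h.hθ.trans_le hu)
  have hdu := fat_du h.hδ h.hθ h.hτ hu hx0 hx1 h1 h2
  have hD : Dm θ δ τ k L x ∈ Kc θ ν k a := by
    refine mem_Kc (fun i hi => ?_) ?_
    · rw [Dm_apply_ne hi]; exact hlat i hi
    · rw [Dm_apply]; exact hdpr.trans hτ1
  have hX : Function.update x k θ ∈ Kc θ ν k a := by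
    refine mem_Kc (fun i hi => ?_) ?_
    · rw [Function.update_of_ne hi]; exact hlat i hi
    · rw [Function.update_self, sub_self, abs_zero]; positivity
  have hdist : dist (Dm θ δ τ k L x) (Function.update x k θ) ≤ ρ := by
    rw [dist_pi_le_iff hρ.le]
    intro i
    by_cases hi : i = k
    · subst hi
      rw [Dm_apply, Function.update_self, Real.dist_eq]
      exact hdpr.trans hτ2
    · rw [Dm_apply_ne hi, Function.update_of_ne hi, dist_self]; exact hρ.le
  have hη := huc _ hD _ hX hdist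
  rw [dist_eq_norm] at hη
  by_cases hj : j = k
  · subst hj
    rw [if_pos rfl, sub_zero]
    have h3 := fderiv_g_k h hg (hKs hD) (hB' _ hD) (c := τ) (by rw [abs_of_pos hdx0]; exact hdx)
    refine h3.trans ?_
    rw [le_div_iff₀ (by positivity)] at hτ3
    have := h.hτ
    nlinarith
  · rw [if_neg hj]
    have h3 := fderiv_g_ne h hg (hKs hD) (hB' _ hD) hdu hη hj
    refine h3.trans ?_
    rw [le_div_iff₀ (by positivity)] at hτ4
    have h4 : |B| * (τ / θ * M) ≤ e / 2 := by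
      have e1 : |B| * (τ / θ * M) = |B| * τ * M / θ := by ring
      rw [e1, div_le_iff₀ hθ]
      have h5 := h.hτ
      have h6 : |B| * τ * M ≤ τ * ((|B| + 1) * (M + 1)) := by
        have : |B| * M ≤ (|B| + 1) * (M + 1) := by
          have := abs_nonneg B
          nlinarith
        calc |B| * τ * M = τ * (|B| * M) := by ring
          _ ≤ τ * ((|B| + 1) * (M + 1)) := by gcongr
      linarith
    linarith

end Vale.Agent.P073.H190
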