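import Vale.Agent.P073.H190.UncU4

/-!
# P073: the un-collapse outside of the thin part: (U5)
-/

namespace Vale.Agent.P073.H190

open MeasureTheory Set Filter Topology Metric
open Vale.Agent.P073.St (V Mat)
open Vale.Agent.P073.SQ (ev)
open Vale.Agent.P073.H235
open scoped ContDiff ENNReal

/-- the lateral box -/
def Bl (k : Fin 3) (a : V) : Set (Fin 2 → ℝ) :=
  Set.pi univ fun i => Ioo (0 : ℝ) (a (k.succAbove i))

theorem volume_Bl_lt_top (k : Fin 3) (a : V) : volume (Bl k a) < ⊤ := by
  unfold Bl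
  rw [Real.volume_pi_Ioo]
  exact ENNReal.prod_lt_top fun i _ => ENNReal.ofReal_lt_top

theorem volume_Bx_lt_top (a : V) : volume (Bx a) < ⊤ := by
  rw [Bx_eq, Real.volume_pi_Ioo]
  exact ENNReal.prod_lt_top fun i _ => ENNReal.ofReal_lt_top

/-- the transition zones -/
def Tz (δ : ℝ) (k : Fin 3) (a : V) (u : V → ℝ) : Set V :=
  {x | (x ∈ Bx (Function.update a k 1)) ∧ (|x k - u x| < δ ∨ |x k - (1 - u x)| < δ)}

theorem isOpen_Tz (δ : ℝ) (k : Fin 3) (a : V) {u : V → ℝ} (hu : Continuous u) :
    IsOpen (Tz δ k a u) := by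
  have h1 : IsOpen {x : V | |x k - u x| < δ} :=
    isOpen_lt (((continuous_apply k).sub hu).abs) continuous_const
  have h2 : IsOpen {x : V | |x k - (1 - u x)| < δ} :=
    isOpen_lt (((continuous_apply k).sub (continuous_const.sub hu)).abs) continuous_const
  exact (isOpen_Bx _).inter (h1.union h2)

/-- the volume of the transition zones -/
theorem volume_Tz_le {δ : ℝ} (hδ : 0 < δ) (k : Fin 3) (a : V) {u : V → ℝ} (hu : Continuous u)
    (hk : ∀ x s, u (Function.update x k s) = u x) :
    volume (Tz δ k a u) ≤ ENNReal.ofReal (4 * δ) * volume (Bl k a) := by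
  set e := MeasurableEquiv.piFinSuccAbove (fun _ : Fin 3 => ℝ) k with he
  have hmp : MeasurePreserving e volume volume :=
    volume_preserving_piFinSuccAbove (fun _ : Fin 3 => ℝ) k
  have hT := (isOpen_Tz δ k a hu).measurableSet
  have h1 : volume (Tz δ k a u) = volume (e.symm ⁻¹' (Tz δ k a u)) :=
    ((hmp.symm e).measure_preimage_equiv _).symm
  have hT' : MeasurableSet (e.symm ⁻¹' (Tz δ k a u)) := e.symm.measurable hT
  rw [h1, Measure.volume_eq_prod, Measure.prod_apply_symm hT']
  have h2 : ∀ y : Fin 2 → ℝ, volume ((fun t : ℝ => (t, y)) ⁻¹' (e.symm ⁻¹' (Tz δ k a u))) ≤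
      (Bl k a).indicator (fun _ => ENNReal.ofReal (4 * δ)) y := by
    intro y
    have hins0 : ∀ t : ℝ, e.symm (t, y) = Fin.insertNth (α := fun _ => ℝ) k t y := fun t => rfl
    have hins : ∀ t : ℝ, e.symm (t, y) = Function.update (e.symm (0, y)) k t := by
      intro t
      rw [hins0, hins0]
      funext i
      rcases Fin.eq_self_or_eq_succAbove k i with hi | ⟨j, hj⟩
      · rw [hi, Fin.insertNth_apply_same, Function.update_self]
      · rw [hj, Fin.insertNth_apply_succAbove, Function.update_of_ne (Fin.succAbove_ne k j),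
          Fin.insertNth_apply_succAbove]
    by_cases hy : y ∈ Bl k a
    · rw [indicator_of_mem hy]
      set u0 := u (e.symm (0, y)) with hu0
      have h3 : (fun t : ℝ => (t, y)) ⁻¹' (e.symm ⁻¹' (Tz δ k a u)) ⊆
          Ioo (u0 - δ) (u0 + δ) ∪ Ioo (1 - u0 - δ) (1 - u0 + δ) := by
        intro t ht
        have ht' : e.symm (t, y) ∈ Tz δ k a u := ht
        have h4 := ht'.2
        rw [hins t, hk, ← hu0, Function.update_self] at h4
        rcases h4 with h4 | h4
        · left; rw [abs_lt] at h4; constructor <;> linarith [h4.1, h4.2]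
        · right; rw [abs_lt] at h4; constructor <;> linarith [h4.1, h4.2]
      refine (measure_mono h3).trans ((measure_union_le _ _).trans ?_)
      rw [Real.volume_Ioo, Real.volume_Ioo, ← ENNReal.ofReal_add (by linarith) (by linarith)]
      exact ENNReal.ofReal_le_ofReal (by linarith)
    · rw [indicator_of_notMem hy]
      have h3 : (fun t : ℝ => (t, y)) ⁻¹' (e.symm ⁻¹' (Tz δ k a u)) = ∅ := by
        rw [eq_empty_iff_forall_notMem]
        intro t ht
        have ht' : e.symm (t, y) ∈ Tz δ k a u := ht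
        refine hy ?_
        intro i _
        have h5 := ht'.1 (k.succAbove i)
        rw [Function.update_of_ne (Fin.succAbove_ne k i)] at h5
        have h6 : e.symm (t, y) (k.succAbove i) = y i := by
          rw [hins0, Fin.insertNth_apply_succAbove]
        rw [h6] at h5
        exact h5
      rw [h3, measure_empty]
  refine (lintegral_mono h2).trans ?_
  have hBl : MeasurableSet (Bl k a) :=
    MeasurableSet.univ_pi fun i => measurableSet_Ioo
  rw [lintegral_indicator_const hBl]

theorem measurableSet_Thin {θ δ τ ν M : ℝ} {k : Fin 3} {a : V} {L : V → ℝ}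
    (h : Par θ δ τ ν M k a L) : MeasurableSet (Thin θ δ k L) := by
  have hu : Continuous (uu θ L) := (contDiff_uu h.lat).continuous
  have h1 : Continuous fun x : V => Spr δ (uu θ L x) (x k) := by
    unfold Spr
    exact (continuous_sg.comp ((hu.sub (continuous_apply k)).div_const δ)).add
      (continuous_sg.comp ((((continuous_apply k).sub continuous_const).add hu).div_const δ))
  exact (isClosed_le continuous_const h1).measurableSet

/-- **(U5)** -/
theorem specU5 : SpecU5 := by
  intro p θ ν M k a L g e hp he hν hg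
  by_cases hpar : 0 < θ ∧ (∀ i, i ≠ k → 0 < a i) ∧ 0 ≤ M ∧ ContDiff ℝ ∞ L ∧
    (∀ x s, L (Function.update x k s) = L x)
  swap
  · refine ⟨1, one_pos, fun δ τ h _ _ => ?_⟩
    exact absurd ⟨h.hθ, h.ha, (norm_nonneg _).trans (h.lat.der 0), h.lat.smooth, h.lat.indep⟩ hpar
  obtain ⟨hθ, ha, hM, hLs, hLi⟩ := hpar
  have hKs := Kc_sub (k := k) hθ hν ha
  have hcont : ContinuousOn (fderiv ℝ g) (Kc θ ν k a) :=
    (hg.continuousOn_fderiv_of_isOpen (isOpen_Bx _) (by simp)).mono hKs
  obtain ⟨B, hB⟩ := (isCompact_Kc θ ν k a).exists_bound_of_continuousOn hcont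
  have hB' : ∀ y ∈ Kc θ ν k a, ‖fderiv ℝ g y‖ ≤ |B| := fun y hy => (hB y hy).trans (le_abs_self B)
  have hp0 : 0 < p := by linarith
  -- the constants
  set W : ℝ := (volume (Bx (Function.update a k 1))).toReal with hW
  set W' : ℝ := (volume (Bl k a)).toReal with hW'
  have hW0 : 0 ≤ W := ENNReal.toReal_nonneg
  have hW0' : 0 ≤ W' := ENNReal.toReal_nonneg
  set e1 : ℝ := (e / (6 * (W + 1))) ^ p⁻¹ with he1
  have he1p : e1 ^ p = e / (6 * (W + 1)) := by
    rw [he1, ← Real.rpow_mul (by positivity), inv_mul_cancel₀ hp0.ne', Real.rpow_one]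
  have he1pos : 0 < e1 := by rw [he1]; positivity
  set B1 : ℝ := |B| * (5 + 2 * M) with hB1
  have hB10 : 0 ≤ B1 := by positivity
  obtain ⟨τ₀, hτ₀, h4⟩ := specU4 θ ν M k a L g e1 he1pos hν hg
  refine ⟨min (min τ₀ (θ / 6)) (e / (24 * (B1 ^ p + 1) * (W' + 1))), by positivity, ?_⟩
  intro δ τ h hδ1 hτ1
  have hδa : δ ≤ θ / 6 := hδ1.trans ((min_le_left _ _).trans (min_le_right _ _))
  have hδb : δ ≤ e / (24 * (B1 ^ p + 1) * (W' + 1)) := hδ1.trans (min_le_right _ _)
  have hτa : τ ≤ τ₀ := hτ1.trans ((min_le_left _ _).trans (min_le_left _ _))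
  have hτb : τ ≤ θ / 6 := hτ1.trans ((min_le_left _ _).trans (min_le_right _ _))
  have huc : Continuous (uu θ L) := (contDiff_uu h.lat).continuous
  set T := Tz δ k a (uu θ L) with hTdef
  have hTm : MeasurableSet T := (isOpen_Tz δ k a huc).measurableSet
  have hTv : volume T ≤ ENNReal.ofReal (4 * δ) * volume (Bl k a) :=
    volume_Tz_le h.hδ k a huc (uu_update h.lat)
  have hSm : MeasurableSet (Bx (Function.update a k 1) \ Thin θ δ k L) :=
    (isOpen_Bx _).measurableSet.diff (measurableSet_Thin h)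
  -- pointwise bound
  have hpt : ∀ j, ∀ x ∈ Bx (Function.update a k 1) \ Thin θ δ k L,
      ENNReal.ofReal (‖fderiv ℝ (fun x => g (Dm θ δ τ k L x)) x (ev j) -
          (if j = k then 0 else fderiv ℝ g (Function.update x k θ) (ev j))‖ ^ p) ≤
        ENNReal.ofReal (e1 ^ p) + T.indicator (fun _ => ENNReal.ofReal (B1 ^ p)) x := by
    intro j x hx
    obtain ⟨hlat, hx1, hx2⟩ := specU6 θ δ τ ν M k a L h x hx.2
    have hlat' : ∀ i, i ≠ k → ν / 4 * a i ≤ x i ∧ x i ≤ (1 - ν / 4) * a i :=
      fun i hi => ⟨(hlat i hi).1.le, (hlat i hi).2.le⟩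
    by_cases hxT : x ∈ T
    · rw [indicator_of_mem hxT]
      refine le_add_of_nonneg_of_le zero_le (ENNReal.ofReal_le_ofReal ?_)
      refine Real.rpow_le_rpow (norm_nonneg _) ?_ hp0.le
      have hx0 : 0 ≤ x k := (hx.1 k).1.le
      have hxl : x k ≤ 1 := by have := (hx.1 k).2; rw [Function.update_self] at this; exact this.le
      have hu : θ ≤ uu θ L x := uu_ge h.lat h.hθ' x
      have hu2 : uu θ L x ≤ 1 / 2 := uu_le h.lat h.hθ' x
      have hu0 : 0 < uu θ L x := h.hθ.trans_le hu
      have hδu : δ ≤ uu θ L x := h.hδ'.trans hu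
      have hu1 : uu θ L x ≤ 1 - δ := by have := h.hδ'; have := h.hθ'; linarith
      have hdpr := trans_dpr h.hδ h.hθ h.hτ hu h.hδ' hu1 hx0 hxl hx1.le hx2.le
      have hdx : dx θ δ τ (uu θ L x) (x k) ≤ 3 := by
        refine (dx_upper h.hθ h.hτ (by linarith [h.hθ', h.hτ']) hu0).trans ?_
        rw [div_le_iff₀ hu0]; linarith
      have hdx0 : 0 < dx θ δ τ (uu θ L x) (x k) := dx_pos h.hθ h.hτ hu0
      have hdu : |du θ δ τ (uu θ L x) (x k)| ≤ 2 := by
        refine (abs_du_le h.hθ h.hδ h.hτ hδu hu1 hx0 hxl).trans ?_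
        rw [div_le_iff₀ hu0]; linarith
      have hD : Dm θ δ τ k L x ∈ Kc θ ν k a := by
        refine mem_Kc (fun i hi => ?_) ?_
        · rw [Dm_apply_ne hi]; exact hlat' i hi
        · rw [Dm_apply]; exact hdpr.trans (by linarith)
      have hX : Function.update x k θ ∈ Kc θ ν k a := by
        refine mem_Kc (fun i hi => ?_) ?_
        · rw [Function.update_of_ne hi]; exact hlat' i hi
        · rw [Function.update_self, sub_self, abs_zero]; positivity
      by_cases hj : j = k
      · subst hj
        rw [if_pos rfl, sub_zero]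
        have h5 := fderiv_g_k h hg (hKs hD) (hB' _ hD) (c := 3) (by rw [abs_of_pos hdx0]; exact hdx)
        refine h5.trans ?_
        rw [hB1]
        have := abs_nonneg B
        nlinarith [mul_nonneg this hM]
      · rw [if_neg hj]
        have hη : ‖fderiv ℝ g (Dm θ δ τ k L x) - fderiv ℝ g (Function.update x k θ)‖ ≤
            |B| + |B| := (norm_sub_le _ _).trans (add_le_add (hB' _ hD) (hB' _ hX))
        have h5 := fderiv_g_ne h hg (hKs hD) (hB' _ hD) hdu hη hj
        refine h5.trans ?_
        rw [hB1]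
        have := abs_nonneg B
        nlinarith [mul_nonneg this hM]
    · rw [indicator_of_notMem hxT, add_zero]
      refine ENNReal.ofReal_le_ofReal (Real.rpow_le_rpow (norm_nonneg _) ?_ hp0.le)
      have hn : ¬ (|x k - uu θ L x| < δ ∨ |x k - (1 - uu θ L x)| < δ) := fun hc => hxT ⟨hx.1, hc⟩
      rw [not_or] at hn
      refine h4 δ τ h hτa x hx.1 hlat' ?_ ?_ j
      · by_contra hc
        refine hn.1 ?_
        rw [abs_lt]; constructor <;> linarith
      · by_contra hc
        refine hn.2 ?_
        rw [abs_lt]; constructor <;> linarith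
  -- integrate
  have hint : ∀ j, ∫⁻ x in Bx (Function.update a k 1) \ Thin θ δ k L,
        ENNReal.ofReal (‖fderiv ℝ (fun x => g (Dm θ δ τ k L x)) x (ev j) -
          (if j = k then 0 else fderiv ℝ g (Function.update x k θ) (ev j))‖ ^ p) ≤
      ENNReal.ofReal (e / 3) := by
    intro j
    calc _ ≤ ∫⁻ x in Bx (Function.update a k 1) \ Thin θ δ k L,
          (ENNReal.ofReal (e1 ^ p) + T.indicator (fun _ => ENNReal.ofReal (B1 ^ p)) x) :=
          setLIntegral_mono' hSm (hpt j)
      _ ≤ ∫⁻ x in Bx (Function.update a k 1),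
          (ENNReal.ofReal (e1 ^ p) + T.indicator (fun _ => ENNReal.ofReal (B1 ^ p)) x) :=
          lintegral_mono_set sdiff_subset
      _ = ENNReal.ofReal (e1 ^ p) * volume (Bx (Function.update a k 1)) +
          ∫⁻ x in Bx (Function.update a k 1), T.indicator (fun _ => ENNReal.ofReal (B1 ^ p)) x := by
          rw [lintegral_add_left measurable_const, setLIntegral_const]
      _ ≤ ENNReal.ofReal (e1 ^ p) * volume (Bx (Function.update a k 1)) +
          ∫⁻ x, T.indicator (fun _ => ENNReal.ofReal (B1 ^ p)) x :=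
          add_le_add le_rfl (setLIntegral_le_lintegral _ _)
      _ = ENNReal.ofReal (e1 ^ p) * volume (Bx (Function.update a k 1)) +
          ENNReal.ofReal (B1 ^ p) * volume T := by rw [lintegral_indicator_const hTm]
      _ ≤ ENNReal.ofReal (e1 ^ p) * volume (Bx (Function.update a k 1)) +
          ENNReal.ofReal (B1 ^ p) * (ENNReal.ofReal (4 * δ) * volume (Bl k a)) := by gcongr
      _ = ENNReal.ofReal (e1 ^ p) * ENNReal.ofReal W +
          ENNReal.ofReal (B1 ^ p) * (ENNReal.ofReal (4 * δ) * ENNReal.ofReal W') := by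
          rw [hW, hW', ENNReal.ofReal_toReal (volume_Bx_lt_top _).ne,
            ENNReal.ofReal_toReal (volume_Bl_lt_top _ _).ne]
      _ = ENNReal.ofReal (e1 ^ p * W + B1 ^ p * (4 * δ * W')) := by
          have := h.hδ
          rw [ENNReal.ofReal_add (by positivity) (by positivity),
            ENNReal.ofReal_mul (p := e1 ^ p) (by positivity),
            ENNReal.ofReal_mul (p := B1 ^ p) (by positivity),
            ENNReal.ofReal_mul (p := 4 * δ) (by positivity)]
      _ ≤ ENNReal.ofReal (e / 3) := by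
          refine ENNReal.ofReal_le_ofReal ?_
          have h6 : e1 ^ p * W ≤ e / 6 := by
            rw [he1p, div_mul_eq_mul_div, div_le_div_iff₀ (by positivity) (by norm_num)]
            nlinarith
          have h7 : B1 ^ p * (4 * δ * W') ≤ e / 6 := by
            rw [le_div_iff₀ (by positivity)] at hδb
            have h8 : 0 ≤ B1 ^ p := by positivity
            have h9 : B1 ^ p * W' ≤ (B1 ^ p + 1) * (W' + 1) := by nlinarith
            have := h.hδ
            calc B1 ^ p * (4 * δ * W') = 4 * δ * (B1 ^ p * W') := by ring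
              _ ≤ 4 * δ * ((B1 ^ p + 1) * (W' + 1)) := by gcongr
              _ = (δ * (24 * (B1 ^ p + 1) * (W' + 1))) / 6 := by ring
              _ ≤ e / 6 := by gcongr
          linarith
  calc _ ≤ ∑ _j : Fin 3, ENNReal.ofReal (e / 3) := Finset.sum_le_sum fun j _ => hint j
    _ = ENNReal.ofReal e := by
        rw [Finset.sum_const, Finset.card_univ, Fintype.card_fin, nsmul_eq_mul]
        rw [show ((3 : ℕ) : ℝ≥0∞) = ENNReal.ofReal 3 by simp, ← ENNReal.ofReal_mul (by norm_num)]
        congr 1
        ring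

end Vale.Agent.P073.H190
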